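import Vale.Agent.P361.Field.Bridge

/-!
The two-sided Bloch law at fixed ratio of field to temperature.
-/

open Matrix Finset Filter
open scoped Topology

namespace Vale.Agent.P361.Field

variable {n N : ℕ}

/-- The spin-wave coefficient. -/
noncomputable def coefC (n : ℕ) : ℝ := 1 / (8 * Real.pi ^ (3 / 2 : ℝ) * ((n : ℝ) / 2) ^ (3 / 2 : ℝ))

/-- The magnon occupation at scaled field `a`. -/
noncomputable def magOcc (n : ℕ) (a : ℝ) : ℝ :=
  coefC n * ∑' l : ℕ, Real.exp (-(((l : ℝ) + 1) * a)) / ((l : ℝ) + 1) ^ (3 / 2 : ℝ)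

/-- The free-magnon pressure at scaled field `a`. -/
noncomputable def free (n : ℕ) (a : ℝ) : ℝ :=
  coefC n * ∑' l : ℕ, Real.exp (-(((l : ℝ) + 1) * a)) / ((l : ℝ) + 1) ^ (5 / 2 : ℝ)

theorem coefC_pos (hn : 1 ≤ n) : 0 < coefC n := by
  have : (0 : ℝ) < n := by exact_mod_cast hn
  unfold coefC; positivity

theorem sqrt_cube {x : ℝ} (hx : 0 ≤ x) : Real.sqrt x ^ 3 = x ^ (3 / 2 : ℝ) := by
  rw [Real.sqrt_eq_rpow, ← Real.rpow_natCast, ← Real.rpow_mul hx]
  norm_num

theorem rpow_five_halves {x : ℝ} (hx : 0 < x) : x ^ (5 / 2 : ℝ) = x * x ^ (3 / 2 : ℝ) := by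
  rw [show (5 / 2 : ℝ) = 1 + 3 / 2 by norm_num, Real.rpow_add hx, Real.rpow_one]

theorem coefC_eq (n : ℕ) : (1 / Real.sqrt (2 * Real.pi * n)) ^ 3 = coefC n := by
  rw [div_pow, one_pow, sqrt_cube (by positivity), coefC]
  congr 1
  rw [show 2 * Real.pi * (n : ℝ) = 4 * Real.pi * ((n : ℝ) / 2) by ring,
    Real.mul_rpow (by positivity) (by positivity), Real.mul_rpow (by positivity) (by positivity),
    show (4 : ℝ) = 2 ^ 2 by norm_num, ← sqrt_cube (by positivity), Real.sqrt_sq (by norm_num)]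
  norm_num

theorem bosePressure_exp (n : ℕ) (a : ℝ) : bosePressure n (Real.exp (-a)) = free n a := by
  rw [bosePressure, coefC_eq, free]
  congr 1
  refine tsum_congr fun l => ?_
  have h0 : (0 : ℝ) < (l : ℝ) + 1 := by positivity
  rw [sqrt_cube h0.le, ← rpow_five_halves h0, ← Real.exp_nat_mul]
  push_cast
  ring_nf

theorem summable_magOcc {a : ℝ} (ha : 0 ≤ a) :
    Summable fun l : ℕ => Real.exp (-(((l : ℝ) + 1) * a)) / ((l : ℝ) + 1) ^ (3 / 2 : ℝ) :=
  summable_three_halves.of_nonneg_of_le (fun l => by positivity) fun l =>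
    div_le_div_of_nonneg_right (Real.exp_le_one_iff.2 (neg_nonpos.2 (mul_nonneg (by positivity) ha)))
      (by positivity)

theorem summable_free {a : ℝ} (ha : 0 ≤ a) :
    Summable fun l : ℕ => Real.exp (-(((l : ℝ) + 1) * a)) / ((l : ℝ) + 1) ^ (5 / 2 : ℝ) :=
  (summable_magOcc ha).of_nonneg_of_le (fun l => by positivity) fun l =>
    div_le_div_of_nonneg_left (Real.exp_pos _).le (by positivity)
      (Real.rpow_le_rpow_of_exponent_le (by simp) (by norm_num))

theorem continuousAt_magOcc {a : ℝ} (ha : 0 < a) : ContinuousAt (magOcc n) a := by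
  have h : ContinuousOn (fun x : ℝ => ∑' l : ℕ,
      Real.exp (-(((l : ℝ) + 1) * x)) / ((l : ℝ) + 1) ^ (3 / 2 : ℝ)) (Set.Ici 0) := by
    refine continuousOn_tsum (fun l => by fun_prop) summable_three_halves fun l x hx => ?_
    rw [Real.norm_of_nonneg (by positivity)]
    exact div_le_div_of_nonneg_right
      (Real.exp_le_one_iff.2 (neg_nonpos.2 (mul_nonneg (by positivity) hx))) (by positivity)
  exact (h.continuousAt (Ici_mem_nhds ha)).const_mul (coefC n)

theorem free_sub_le (hn : 1 ≤ n) {a b : ℝ} (hb : 0 ≤ b) (hba : b ≤ a) :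
    free n b - free n a ≤ (a - b) * magOcc n b := by
  rw [free, free, magOcc, ← mul_sub, ← (summable_free hb).tsum_sub (summable_free (hb.trans hba)),
    mul_left_comm (a - b), ← tsum_mul_left (a := a - b)]
  refine mul_le_mul_of_nonneg_left (Summable.tsum_le_tsum (fun l => ?_)
    ((summable_free hb).sub (summable_free (hb.trans hba))) ((summable_magOcc hb).mul_left _))
    (coefC_pos hn).le
  have h0 : (0 : ℝ) < (l : ℝ) + 1 := by positivity
  have h1 := Real.add_one_le_exp (-(((l : ℝ) + 1) * (a - b)))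
  have h2 : Real.exp (-(((l : ℝ) + 1) * a)) =
      Real.exp (-(((l : ℝ) + 1) * b)) * Real.exp (-(((l : ℝ) + 1) * (a - b))) := by
    rw [← Real.exp_add]; ring_nf
  have hp : 0 < ((l : ℝ) + 1) ^ (3 / 2 : ℝ) := Real.rpow_pos_of_pos h0 _
  rw [h2, rpow_five_halves h0, ← sub_div, div_le_iff₀ (mul_pos h0 hp)]
  have h3 := mul_le_mul_of_nonneg_left h1 (Real.exp_pos (-(((l : ℝ) + 1) * b))).le
  have e : (a - b) * (Real.exp (-(((l : ℝ) + 1) * b)) / ((l : ℝ) + 1) ^ (3 / 2 : ℝ)) *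
      (((l : ℝ) + 1) * ((l : ℝ) + 1) ^ (3 / 2 : ℝ)) =
      ((l : ℝ) + 1) * (a - b) * Real.exp (-(((l : ℝ) + 1) * b)) := by
    field_simp
  rw [e]
  linarith

/-- The scaled magnetization deficit. -/
noncomputable def defN (n N : ℕ) (β a : ℝ) : ℝ :=
  β ^ (3 / 2 : ℝ) * ((n : ℝ) / 2 - magN n N β (a / β))

/-- The scaled excess pressure. -/
noncomputable def excN (n N : ℕ) (β a : ℝ) : ℝ :=
  β ^ (5 / 2 : ℝ) * (pressureN n N β (a / β) -
    (3 * ((n : ℝ) / 2) ^ 2 * (1 - 1 / ((2 * N + 1 : ℕ) : ℝ)) + (a / β) * ((n : ℝ) / 2)))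

theorem excN_eq (hn : 1 ≤ n) {β : ℝ} (hβ : 0 < β) (a : ℝ) :
    excN n N β a = Real.sqrt β ^ 3 *
      (Real.log (zPart n (@cAdj (2 * N + 1)) β (Real.exp (-a))) / ((2 * N + 1 : ℕ) : ℝ) ^ 3) := by
  rw [excN, pressureN_zPart hn hβ, mul_div_cancel₀ _ hβ.ne', sqrt_cube hβ.le, rpow_five_halves hβ]
  field_simp
  ring

theorem excN_nonneg (hn : 1 ≤ n) {β : ℝ} (hβ : 0 < β) (a : ℝ) : 0 ≤ excN n N β a := by
  rw [excN_eq hn hβ]
  exact mul_nonneg (by positivity) (div_nonneg
    (Real.log_nonneg (one_le_zPart hn hβ.le (Real.exp_pos _).le)) (by positivity))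

theorem excN_supporting {β : ℝ} (hβ : 0 < β) (a b : ℝ) :
    excN n N β a - excN n N β b ≤ (b - a) * defN n N β a := by
  have h := magN_supporting (n := n) (N := N) hβ (a / β) (b / β)
  have h2 := mul_le_mul_of_nonneg_left h (Real.rpow_nonneg hβ.le (5 / 2))
  have e : β ^ (5 / 2 : ℝ) * ((b / β - a / β) * magN n N β (a / β)) =
      (b - a) * (β ^ (3 / 2 : ℝ) * magN n N β (a / β)) := by
    rw [rpow_five_halves hβ]; field_simp
  have e2 : β ^ (5 / 2 : ℝ) * ((b / β) * ((n : ℝ) / 2)) - β ^ (5 / 2 : ℝ) * ((a / β) * ((n : ℝ) / 2))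
      = (b - a) * (β ^ (3 / 2 : ℝ) * ((n : ℝ) / 2)) := by
    rw [rpow_five_halves hβ]; field_simp
  simp only [excN, defN]
  linarith

theorem upper_exc (hn : 1 ≤ n) {a η : ℝ} (ha : 0 < a) (hη : 0 < η) :
    ∀ᶠ β in atTop, ∀ᶠ N in atTop, excN n N β a ≤ free n a + η := by
  filter_upwards [zPart_cube_upper hn (Real.exp_pos (-a)) (Real.exp_lt_one_iff.2 (neg_neg_iff_pos.2 ha))
    hη, eventually_gt_atTop 0] with β h hβ
  filter_upwards [h] with N hN
  rwa [excN_eq hn hβ, ← bosePressure_exp]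

theorem lower_def (hn : 1 ≤ n) (R : ℕ) {a η : ℝ} (ha : 0 < a) (hη : 0 < η) :
    ∀ᶠ β in atTop, ∀ᶠ N in atTop,
      coefC n * ∑ l ∈ Finset.range R, Real.exp (-(((l : ℝ) + 1) * a)) / ((l : ℝ) + 1) ^ (3 / 2 : ℝ)
        - η ≤ defN n N β a := by
  have hn0 : (0 : ℝ) < n := by exact_mod_cast hn
  set C := coefC n * ∑ l ∈ Finset.range R,
    Real.exp (-(((l : ℝ) + 1) * a)) / ((l : ℝ) + 1) ^ (3 / 2 : ℝ) with hC
  set P : ℝ → ℝ := fun d => d * ∑ l ∈ Finset.range R, Real.exp (-(((l : ℝ) + 1) * a)) *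
    (1 / Real.sqrt (2 * Real.pi) / Real.sqrt (((l : ℝ) + 1) * ((n : ℝ) / d))) ^ 3 with hP
  have hP1 : P 1 = C := by
    simp only [hP, hC, one_mul, Finset.mul_sum, coeff_term]
    exact Finset.sum_congr rfl fun l _ => by rw [coefC]; ring
  have hcont : ContinuousAt P 1 := by
    simp only [hP]
    refine continuousAt_id.mul (tendsto_finsetSum _ fun l _ => Tendsto.const_mul _ ?_)
    refine ContinuousAt.pow (ContinuousAt.div continuousAt_const ?_ ?_) 3
    · exact (continuousAt_const.mul (continuousAt_const.div continuousAt_id one_ne_zero)).sqrt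
    · rw [div_one]; positivity
  obtain ⟨d, hdP, hd0, hd1⟩ : ∃ d : ℝ, C - η / 4 < P d ∧ 0 < d ∧ d < 1 := by
    have h1 : ∀ᶠ d in 𝓝[<] (1 : ℝ), C - η / 4 < P d ∧ 0 < d ∧ d < 1 :=
      (eventually_nhdsWithin_of_eventually_nhds
        (hcont.eventually (eventually_gt_nhds (by rw [hP1]; linarith)))).and
        ((eventually_nhdsWithin_of_eventually_nhds (eventually_gt_nhds (zero_lt_one' ℝ))).and
          self_mem_nhdsWithin)
    exact h1.exists
  have hterm : ∀ l : ℕ, Tendsto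
      (fun β : ℝ => Real.sqrt β * gaussBox (((l : ℝ) + 1) * β * ((n : ℝ) / d))) atTop
      (𝓝 (1 / Real.sqrt (2 * Real.pi) / Real.sqrt (((l : ℝ) + 1) * ((n : ℝ) / d)))) := by
    intro l
    have hc : 0 < ((l : ℝ) + 1) * ((n : ℝ) / d) := by positivity
    have h1 := (tendsto_sqrt_mul_gaussBox.comp
      (tendsto_id.const_mul_atTop hc)).div_const (Real.sqrt (((l : ℝ) + 1) * ((n : ℝ) / d)))
    refine h1.congr' ?_
    filter_upwards [eventually_ge_atTop (0 : ℝ)] with β hβ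
    simp only [Function.comp_apply, id_eq]
    rw [Real.sqrt_mul hc.le, show ((l : ℝ) + 1) * β * ((n : ℝ) / d)
      = ((l : ℝ) + 1) * ((n : ℝ) / d) * β by ring]
    field_simp
  have hlim : Tendsto (fun β : ℝ => d * ∑ l ∈ Finset.range R, Real.exp (-(((l : ℝ) + 1) * a)) *
      (Real.sqrt β * gaussBox (((l : ℝ) + 1) * β * ((n : ℝ) / d))) ^ 3) atTop (𝓝 (P d)) :=
    (tendsto_finsetSum _ fun l _ => ((hterm l).pow 3).const_mul _).const_mul d
  have hbig : Tendsto (fun β : ℝ => β ^ (3 / 2 : ℝ) * ((n : ℝ) / 2 * (1 - d))) atTop atTop :=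
    (tendsto_rpow_atTop (by norm_num)).atTop_mul_const (mul_pos (by positivity) (by linarith))
  filter_upwards [eventually_gt_atTop (0 : ℝ), hlim.eventually (eventually_gt_nhds
      (show P d - η / 4 < P d by linarith)), hbig.eventually_ge_atTop C] with β hβ h1 h2
  have hs : β ^ (3 / 2 : ℝ) = Real.sqrt β ^ 3 := (sqrt_cube hβ.le).symm
  have he : Tendsto (fun N : ℕ => (2 : ℝ) / (2 * N + 1 : ℕ)) atTop (𝓝 0) :=
    tendsto_const_nhds.div_atTop (tendsto_natCast_atTop_atTop.comp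
      (tendsto_atTop_mono (fun N => show N ≤ 2 * N + 1 by omega) tendsto_id))
  have hl : Tendsto (fun N : ℕ => β ^ (3 / 2 : ℝ) *
      deficit n R β (a / β) d (2 / (2 * N + 1 : ℕ))) atTop
      (𝓝 (β ^ (3 / 2 : ℝ) * deficit n R β (a / β) d 0)) :=
    (((continuous_deficit n R β d).tendsto (a / β, 0)).comp
      (tendsto_const_nhds.prodMk_nhds he)).const_mul _
  have h0 : C - η / 2 ≤ β ^ (3 / 2 : ℝ) * deficit n R β (a / β) d 0 := by
    rw [deficit, mul_min_of_nonneg _ _ (Real.rpow_nonneg hβ.le _)]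
    refine le_min (by linarith) ?_
    have e : β ^ (3 / 2 : ℝ) * (d * ∑ l ∈ Finset.range R,
        Real.exp (-(((l : ℝ) + 1) * (β * (a / β)))) *
          (max (gaussBox (((l : ℝ) + 1) * β * ((n : ℝ) / d)) - 0) 0) ^ 3) =
        d * ∑ l ∈ Finset.range R, Real.exp (-(((l : ℝ) + 1) * a)) *
          (Real.sqrt β * gaussBox (((l : ℝ) + 1) * β * ((n : ℝ) / d))) ^ 3 := by
      rw [hs, mul_left_comm, Finset.mul_sum, mul_div_cancel₀ _ hβ.ne']
      congr 1
      refine Finset.sum_congr rfl fun l _ => ?_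
      rw [sub_zero, max_eq_left (gaussBox_nonneg _), mul_pow]
      ring
    rw [e]
    linarith
  filter_upwards [hl.eventually (eventually_gt_nhds
    (show C - η < β ^ (3 / 2 : ℝ) * deficit n R β (a / β) d 0 by linarith))] with N hN
  refine le_trans hN.le ?_
  rw [defN]
  have := magN_le_deficit (N := N) R hn hβ (div_pos ha hβ) hd0
  exact mul_le_mul_of_nonneg_left (by linarith) (Real.rpow_nonneg hβ.le _)

theorem telescope {Φ D B : ℕ → ℝ} {Δ : ℝ} (hΔ : 0 ≤ Δ)
    (h : ∀ i, Φ (i + 1) - Φ i ≤ -Δ * D i) (k : ℕ) (hB : ∀ i ∈ Finset.range k, B i ≤ D i) :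
    Φ k + Δ * ∑ i ∈ Finset.range k, B i ≤ Φ 0 := by
  induction k with
  | zero => simp
  | succ k ih =>
    rw [Finset.sum_range_succ, mul_add]
    have h1 := ih fun i hi => hB i (Finset.mem_range.2 (by
      have := Finset.mem_range.1 hi; omega))
    have h2 := mul_le_mul_of_nonneg_left (hB k (Finset.mem_range.2 (Nat.lt_succ_self k))) hΔ
    linarith [h k]

theorem geom_riemann {m Δ : ℝ} (hm : 0 < m) (hΔ : 0 < Δ) (k : ℕ) :
    Real.exp (-(m * Δ)) * (1 - Real.exp (-(m * Δ * k))) / m ≤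
      Δ * ∑ i ∈ Finset.range k, Real.exp (-(m * (((i : ℝ) + 1) * Δ))) := by
  set q := Real.exp (-(m * Δ)) with hq
  have hq1 : q < 1 := Real.exp_lt_one_iff.2 (neg_neg_iff_pos.2 (mul_pos hm hΔ))
  have e : ∑ i ∈ Finset.range k, Real.exp (-(m * (((i : ℝ) + 1) * Δ))) =
      q * ((1 - q ^ k) / (1 - q)) := by
    have hg := geom_sum_eq hq1.ne k
    rw [← neg_sub 1 (q ^ k), ← neg_sub 1 q, neg_div_neg_eq] at hg
    rw [← hg, Finset.mul_sum]
    refine Finset.sum_congr rfl fun i _ => ?_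
    rw [← pow_succ', hq, ← Real.exp_nat_mul]
    push_cast
    ring_nf
  have hk : Real.exp (-(m * Δ * k)) = q ^ k := by
    rw [hq, ← Real.exp_nat_mul]; ring_nf
  rw [e, hk]
  have h1 : 0 < 1 - q := by linarith
  have h2 : 1 - q ≤ m * Δ := by
    have := Real.add_one_le_exp (-(m * Δ))
    linarith
  have h3 : 0 ≤ q * (1 - q ^ k) :=
    mul_nonneg (Real.exp_pos _).le (sub_nonneg.2 (pow_le_one₀ (Real.exp_pos _).le hq1.le))
  rw [mul_div_assoc', mul_div_assoc', div_le_div_iff₀ hm h1]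
  have := mul_le_mul_of_nonneg_left h2 h3
  linarith

theorem lower_exc (hn : 1 ≤ n) {a η : ℝ} (ha : 0 < a) (hη : 0 < η) :
    ∀ᶠ β in atTop, ∀ᶠ N in atTop, free n a - η ≤ excN n N β a := by
  have hC := coefC_pos hn
  have hR : Tendsto (fun R => coefC n * ∑ l ∈ Finset.range R,
      Real.exp (-(((l : ℝ) + 1) * a)) / ((l : ℝ) + 1) ^ (5 / 2 : ℝ)) atTop (𝓝 (free n a)) :=
    (summable_free ha.le).hasSum.tendsto_sum_nat.const_mul _
  obtain ⟨R, hR'⟩ := (hR.eventually (eventually_gt_nhds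
    (show free n a - η / 3 < free n a by linarith))).exists
  set G : ℝ → ℝ := fun j => coefC n * ∑ l ∈ Finset.range R,
    Real.exp (-(((l : ℝ) + 1) * a)) / ((l : ℝ) + 1) ^ (5 / 2 : ℝ) *
      (Real.exp (-((((l : ℝ) + 1)) * (1 / j))) * (1 - Real.exp (-((((l : ℝ) + 1)) * j)))) with hG
  have hGlim : Tendsto (fun j : ℕ => G j) atTop (𝓝 (coefC n * ∑ l ∈ Finset.range R,
      Real.exp (-(((l : ℝ) + 1) * a)) / ((l : ℝ) + 1) ^ (5 / 2 : ℝ))) := by
    refine Tendsto.const_mul _ (tendsto_finsetSum _ fun l _ => ?_)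
    have h1 : Tendsto (fun j : ℕ => Real.exp (-(((l : ℝ) + 1) * (1 / (j : ℝ))))) atTop (𝓝 1) := by
      have := (tendsto_one_div_atTop_nhds_zero_nat (𝕜 := ℝ)).const_mul ((l : ℝ) + 1)
      simpa [Function.comp_def] using (Real.continuous_exp.tendsto _).comp this.neg
    have h2 : Tendsto (fun j : ℕ => 1 - Real.exp (-(((l : ℝ) + 1) * (j : ℝ)))) atTop (𝓝 1) := by
      simpa using ((Real.tendsto_exp_neg_atTop_nhds_zero.comp
        (tendsto_natCast_atTop_atTop.const_mul_atTop (show (0 : ℝ) < (l : ℝ) + 1 by positivity))).const_sub 1)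
    simpa using (h1.mul h2).const_mul
      (Real.exp (-(((l : ℝ) + 1) * a)) / ((l : ℝ) + 1) ^ (5 / 2 : ℝ))
  obtain ⟨j, hj, hj1⟩ := ((hGlim.eventually (eventually_gt_nhds hR')).and
    (eventually_ge_atTop 1)).exists
  have hj0 : (0 : ℝ) < j := by exact_mod_cast hj1
  set Δ : ℝ := 1 / (j : ℝ) with hΔ
  have hΔ0 : 0 < Δ := by positivity
  set η' : ℝ := η / (3 * (j : ℝ)) with hη'
  have hev : ∀ᶠ β in atTop, ∀ i ∈ Finset.range (j * j), ∀ᶠ N in atTop,
      coefC n * ∑ l ∈ Finset.range R, Real.exp (-(((l : ℝ) + 1) * (a + ((i : ℝ) + 1) * Δ))) /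
        ((l : ℝ) + 1) ^ (3 / 2 : ℝ) - η' ≤ defN n N β (a + ((i : ℝ) + 1) * Δ) :=
    (Filter.eventually_all_finset _).2 fun i _ => lower_def hn R (by positivity) (by positivity)
  filter_upwards [hev, eventually_gt_atTop (0 : ℝ)] with β hβev hβ
  filter_upwards [(Filter.eventually_all_finset _).2 hβev] with N hN
  have h := telescope (Φ := fun i : ℕ => excN n N β (a + (i : ℝ) * Δ))
    (D := fun i : ℕ => defN n N β (a + ((i : ℝ) + 1) * Δ))
    (B := fun i : ℕ => coefC n * (∑ l ∈ Finset.range R,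
      Real.exp (-(((l : ℝ) + 1) * (a + ((i : ℝ) + 1) * Δ))) / ((l : ℝ) + 1) ^ (3 / 2 : ℝ)) - η')
    hΔ0.le (fun i => by
      have := excN_supporting (n := n) (N := N) hβ (a + ((i : ℝ) + 1) * Δ) (a + (i : ℝ) * Δ)
      push_cast
      linarith) (j * j) hN
  simp only [Nat.cast_zero, zero_mul, add_zero] at h
  have h0 := excN_nonneg (N := N) hn hβ (a + ((j * j : ℕ) : ℝ) * Δ)
  have hsum : G j - η / 3 ≤ Δ * ∑ i ∈ Finset.range (j * j), (coefC n * (∑ l ∈ Finset.range R,
      Real.exp (-(((l : ℝ) + 1) * (a + ((i : ℝ) + 1) * Δ))) / ((l : ℝ) + 1) ^ (3 / 2 : ℝ)) - η') := by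
    rw [Finset.sum_sub_distrib, mul_sub, Finset.sum_const, Finset.card_range, nsmul_eq_mul]
    refine sub_le_sub ?_ (le_of_eq ?_)
    · rw [hG, ← Finset.mul_sum, mul_left_comm, Finset.sum_comm, Finset.mul_sum (a := Δ)]
      refine mul_le_mul_of_nonneg_left (Finset.sum_le_sum fun l _ => ?_) hC.le
      have hl : (0 : ℝ) < (l : ℝ) + 1 := by positivity
      have hg := geom_riemann hl hΔ0 (j * j)
      have e : ((l : ℝ) + 1) * Δ * ((j * j : ℕ) : ℝ) = ((l : ℝ) + 1) * (j : ℝ) := by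
        rw [hΔ]; push_cast; field_simp
      rw [e] at hg
      have hg2 := mul_le_mul_of_nonneg_left hg
        (show 0 ≤ Real.exp (-(((l : ℝ) + 1) * a)) / ((l : ℝ) + 1) ^ (3 / 2 : ℝ) by positivity)
      refine le_trans (le_of_eq ?_) (le_trans hg2 (le_of_eq ?_))
      · rw [rpow_five_halves hl, ← hΔ]; field_simp
      · simp only [Finset.mul_sum]
        refine Finset.sum_congr rfl fun i _ => ?_
        rw [show -(((l : ℝ) + 1) * (a + ((i : ℝ) + 1) * Δ)) =
          -(((l : ℝ) + 1) * a) + -(((l : ℝ) + 1) * (((i : ℝ) + 1) * Δ)) by ring, Real.exp_add]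
        ring
    · rw [hΔ, hη']; push_cast; field_simp
  linarith

theorem occ_asymptotic (hn : 1 ≤ n) {a η : ℝ} (ha : 0 < a) (hη : 0 < η) :
    ∀ᶠ β in atTop, ∀ᶠ N in atTop, |defN n N β a - magOcc n a| ≤ η := by
  have hR : Tendsto (fun R => coefC n * ∑ l ∈ Finset.range R,
      Real.exp (-(((l : ℝ) + 1) * a)) / ((l : ℝ) + 1) ^ (3 / 2 : ℝ)) atTop (𝓝 (magOcc n a)) :=
    (summable_magOcc ha.le).hasSum.tendsto_sum_nat.const_mul _
  obtain ⟨R, hR'⟩ := (hR.eventually (eventually_gt_nhds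
    (show magOcc n a - η / 2 < magOcc n a by linarith))).exists
  obtain ⟨b, hb, hb0, hba⟩ : ∃ b : ℝ, magOcc n b < magOcc n a + η / 2 ∧ 0 < b ∧ b < a := by
    have h1 : ∀ᶠ b in 𝓝[<] a, magOcc n b < magOcc n a + η / 2 ∧ 0 < b ∧ b < a :=
      (eventually_nhdsWithin_of_eventually_nhds
        ((continuousAt_magOcc ha).eventually (eventually_lt_nhds (by linarith)))).and
        ((eventually_nhdsWithin_of_eventually_nhds (eventually_gt_nhds ha)).and self_mem_nhdsWithin)
    exact h1.exists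
  have hab : 0 < a - b := by linarith
  have hη' : 0 < (a - b) * η / 4 := by positivity
  filter_upwards [lower_def hn R ha (half_pos hη), upper_exc hn hb0 hη', lower_exc hn ha hη',
    eventually_gt_atTop (0 : ℝ)] with β h1 h2 h3 hβ
  filter_upwards [h1, h2, h3] with N g1 g2 g3
  refine abs_le.2 ⟨by linarith, ?_⟩
  have h4 := excN_supporting (n := n) (N := N) hβ a b
  have h5 := free_sub_le hn hb0.le hba.le
  have h6 : (a - b) * defN n N β a ≤ (a - b) * (magOcc n b + η / 2) := by linarith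
  have h7 := le_of_mul_le_mul_left h6 hab
  linarith

theorem free_asymptotic (hn : 1 ≤ n) {a η : ℝ} (ha : 0 < a) (hη : 0 < η) :
    ∀ᶠ β in atTop, ∀ᶠ N in atTop,
      |β ^ (5 / 2 : ℝ) * (pressureN n N β (a / β) -
        (3 * ((n : ℝ) / 2) ^ 2 + (a / β) * ((n : ℝ) / 2))) - free n a| ≤ η := by
  filter_upwards [upper_exc hn ha (half_pos hη), lower_exc hn ha (half_pos hη)] with β h1 h2
  have h3 : Tendsto (fun N : ℕ => β ^ (5 / 2 : ℝ) *
      (3 * ((n : ℝ) / 2) ^ 2 * (1 / ((2 * N + 1 : ℕ) : ℝ)))) atTop (𝓝 0) := by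
    have : Tendsto (fun N : ℕ => (1 : ℝ) / (2 * N + 1 : ℕ)) atTop (𝓝 0) :=
      tendsto_const_nhds.div_atTop (tendsto_natCast_atTop_atTop.comp
        (tendsto_atTop_mono (fun N => show N ≤ 2 * N + 1 by omega) tendsto_id))
    simpa using (this.const_mul (3 * ((n : ℝ) / 2) ^ 2)).const_mul (β ^ (5 / 2 : ℝ))
  filter_upwards [h1, h2, h3.eventually (Icc_mem_nhds (show (-(η / 2) : ℝ) < 0 by linarith)
    (show (0 : ℝ) < η / 2 by linarith))] with N g1 g2 g3
  simp only [excN] at g1 g2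
  obtain ⟨g3l, g3r⟩ := g3
  exact abs_le.2 ⟨by linarith, by linarith⟩

/-- The infinite-volume pressure. -/
theorem pressure_asymptotic (hn : 1 ≤ n) {a η : ℝ} (ha : 0 < a) (hη : 0 < η) :
    ∀ᶠ β in atTop, |β ^ (5 / 2 : ℝ) * (pressure n β (a / β) -
      (3 * ((n : ℝ) / 2) ^ 2 + (a / β) * ((n : ℝ) / 2))) - free n a| ≤ η := by
  filter_upwards [free_asymptotic hn ha hη, eventually_gt_atTop (0 : ℝ)] with β h hβ
  set E := 3 * ((n : ℝ) / 2) ^ 2 + (a / β) * ((n : ℝ) / 2) with hE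
  have hb : 0 < β ^ (5 / 2 : ℝ) := Real.rpow_pos_of_pos hβ _
  have key : ∀ x : ℝ, |β ^ (5 / 2 : ℝ) * (x - E) - free n a| ≤ η ↔
      E + (free n a - η) / β ^ (5 / 2 : ℝ) ≤ x ∧ x ≤ E + (free n a + η) / β ^ (5 / 2 : ℝ) := by
    intro x
    rw [abs_le, ← le_sub_iff_add_le', div_le_iff₀ hb, ← sub_le_iff_le_add', le_div_iff₀ hb]
    constructor <;> rintro ⟨h1, h2⟩ <;> constructor <;> linarith
  rw [key]
  constructor
  · refine le_limsup_of_frequently_le (Eventually.frequently ?_) (isBoundedUnder_le hβ _)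
    filter_upwards [h] with N hN using ((key _).1 hN).1
  · refine limsup_le_of_le (isCoboundedUnder_le hβ _) ?_
    filter_upwards [h] with N hN using ((key _).1 hN).2

/-- A two-sided bound on increments of the pressure. -/
theorem pressure_increment {β x y c d : ℝ} (hβ : 0 < β) (hxy : x ≤ y)
    (hc : ∀ᶠ N in atTop, c ≤ magN n N β x) (hd : ∀ᶠ N in atTop, magN n N β y ≤ d) :
    pressure n β x + (y - x) * c ≤ pressure n β y ∧
      pressure n β y ≤ pressure n β x + (y - x) * d := by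
  constructor <;> refine le_of_forall_pos_le_add fun ε hε => ?_
  · have hy := eventually_lt_of_limsup_lt (lt_add_of_pos_right (pressure n β y) hε)
      (isBoundedUnder_le hβ y)
    have : pressure n β x ≤ pressure n β y + ε - (y - x) * c := by
      refine limsup_le_of_le (isCoboundedUnder_le hβ x) ?_
      filter_upwards [hy, hc] with N h1 h2
      have h3 := magN_supporting (n := n) (N := N) hβ x y
      have h4 := mul_le_mul_of_nonneg_left h2 (sub_nonneg.2 hxy)
      linarith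
    linarith
  · have hx := eventually_lt_of_limsup_lt (lt_add_of_pos_right (pressure n β x) hε)
      (isBoundedUnder_le hβ x)
    refine limsup_le_of_le (isCoboundedUnder_le hβ y) ?_
    filter_upwards [hx, hd] with N h1 h2
    have h3 := magN_supporting (n := n) (N := N) hβ y x
    have h4 := mul_le_mul_of_nonneg_left h2 (sub_nonneg.2 hxy)
    linarith

/-- The infinite-volume magnetization. -/
theorem deriv_asymptotic (hn : 1 ≤ n) {a η : ℝ} (ha : 0 < a) (hη : 0 < η) :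
    ∀ᶠ β in atTop, |β ^ (3 / 2 : ℝ) *
      ((n : ℝ) / 2 - derivWithin (pressure n β) (Set.Ioi (a / β)) (a / β)) - magOcc n a| ≤ η := by
  obtain ⟨r, hr, hr0, hr1, hr2⟩ : ∃ r : ℝ, |magOcc n (a + r) - magOcc n a| < η / 2 ∧ 0 < r ∧
      |magOcc n (a - r) - magOcc n a| < η / 2 ∧ r < a := by
    have hc := continuousAt_magOcc (n := n) ha
    have hp : Tendsto (fun r : ℝ => |magOcc n (a + r) - magOcc n a|) (𝓝[>] 0) (𝓝 0) := by
      have : Tendsto (fun r : ℝ => a + r) (𝓝 0) (𝓝 a) := by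
        have hh : Continuous fun r : ℝ => a + r := by fun_prop
        simpa using hh.tendsto 0
      simpa using (((hc.tendsto.comp this).sub_const (magOcc n a)).abs).mono_left nhdsWithin_le_nhds
    have hm : Tendsto (fun r : ℝ => |magOcc n (a - r) - magOcc n a|) (𝓝[>] 0) (𝓝 0) := by
      have : Tendsto (fun r : ℝ => a - r) (𝓝 0) (𝓝 a) := by
        have hh : Continuous fun r : ℝ => a - r := by fun_prop
        simpa using hh.tendsto 0
      simpa using (((hc.tendsto.comp this).sub_const (magOcc n a)).abs).mono_left nhdsWithin_le_nhds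
    exact ((hp.eventually (eventually_lt_nhds (half_pos hη))).and
      (eventually_mem_nhdsWithin.and ((hm.eventually (eventually_lt_nhds (half_pos hη))).and
        (eventually_nhdsWithin_of_eventually_nhds (eventually_lt_nhds ha))))).exists
  filter_upwards [occ_asymptotic hn (show 0 < a - r by linarith) (half_pos hη),
    occ_asymptotic hn ha (half_pos hη),
    occ_asymptotic hn (show 0 < a + r by linarith) (half_pos hη),
    eventually_gt_atTop (0 : ℝ)] with β hm hz hp hβ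
  have hb : 0 < β ^ (3 / 2 : ℝ) := Real.rpow_pos_of_pos hβ _
  have key : ∀ x, ∀ᶠ N in atTop, |defN n N β x - magOcc n x| ≤ η / 2 →
      (n : ℝ) / 2 - (magOcc n x + η / 2) / β ^ (3 / 2 : ℝ) ≤ magN n N β (x / β) ∧
        magN n N β (x / β) ≤ (n : ℝ) / 2 - (magOcc n x - η / 2) / β ^ (3 / 2 : ℝ) := by
    intro x
    refine Eventually.of_forall fun N hN => ?_
    rw [defN, abs_le] at hN
    constructor
    · rw [sub_le_comm, le_div_iff₀ hb]; linarith [hN.2]
    · rw [le_sub_comm, div_le_iff₀ hb]; linarith [hN.1]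
  set h := a / β with hh
  have hconv := pressure_convexOn (n := n) hβ
  set m := derivWithin (pressure n β) (Set.Ioi h) h with hmdef
  have hlow : (n : ℝ) / 2 - (magOcc n (a - r) + η / 2) / β ^ (3 / 2 : ℝ) ≤ m := by
    have hlt : (a - r) / β < h := div_lt_div_of_pos_right (by linarith) hβ
    have h1 := (pressure_increment (n := n) hβ hlt.le
      (((key _).and hm).mono fun N h => (h.1 h.2).1)
      (((key _).and hz).mono fun N h => (h.1 h.2).2)).1
    refine le_trans ?_ ((hconv.slope_le_leftDeriv_of_mem_interior (Set.mem_univ _)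
      (by simp) hlt).trans (hconv.leftDeriv_le_rightDeriv_of_mem_interior (by simp)))
    rw [slope_def_field, le_div_iff₀ (sub_pos.2 hlt)]
    linarith
  have hupp : m ≤ (n : ℝ) / 2 - (magOcc n (a + r) - η / 2) / β ^ (3 / 2 : ℝ) := by
    have hlt : h < (a + r) / β := div_lt_div_of_pos_right (by linarith) hβ
    have h1 := (pressure_increment (n := n) hβ hlt.le
      (((key _).and hz).mono fun N h => (h.1 h.2).1)
      (((key _).and hp).mono fun N h => (h.1 h.2).2)).2
    refine le_trans (hconv.rightDeriv_le_slope_of_mem_interior (by simp) (Set.mem_univ _) hlt) ?_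
    rw [slope_def_field, div_le_iff₀ (sub_pos.2 hlt)]
    linarith
  rw [sub_le_comm, le_div_iff₀ hb] at hlow
  rw [le_sub_comm, div_le_iff₀ hb] at hupp
  obtain ⟨hr', hr''⟩ := abs_lt.1 hr
  obtain ⟨hr1', hr1''⟩ := abs_lt.1 hr1
  exact abs_le.2 ⟨by linarith, by linarith⟩

end Vale.Agent.P361.Field
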