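import Mathlib

/-!
Spin-`n/2` ferromagnet on a finite graph, written with real matrices: local operators, the bond
operators and their commutators with one-magnon creation operators.
-/

open Matrix Finset

namespace Vale.Agent.P361.Field

variable {n : ℕ} {V : Type*}

/-- Basis labels: the number of deviations from full polarization at each vertex. -/
abbrev Cfg (n : ℕ) (V : Type*) := V → Fin (n + 1)

/-- Real one-site matrices. -/
abbrev Mat1 (n : ℕ) := Matrix (Fin (n + 1)) (Fin (n + 1)) ℝ

/-- Real operators on the configurations of `V`. -/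
abbrev ROp (n : ℕ) (V : Type*) := Matrix (Cfg n V) (Cfg n V) ℝ

/-- The raising matrix of spin `n/2`. -/
noncomputable def rai (n : ℕ) : Mat1 n :=
  Matrix.of fun a b =>
    if (a : ℕ) + 1 = (b : ℕ) then Real.sqrt ((b : ℝ) * ((n : ℝ) + 1 - (b : ℝ))) else 0

/-- The lowering matrix of spin `n/2`. -/
noncomputable def low (n : ℕ) : Mat1 n := (rai n)ᵀ

/-- The third spin matrix. -/
noncomputable def zed (n : ℕ) : Mat1 n := Matrix.diagonal fun a => (n : ℝ) / 2 - (a : ℕ)

theorem rai_nonneg (a b : Fin (n + 1)) : 0 ≤ rai n a b := by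
  simp only [rai, of_apply]; split_ifs; exacts [Real.sqrt_nonneg _, le_rfl]

theorem low_nonneg (a b : Fin (n + 1)) : 0 ≤ low n a b := rai_nonneg b a

theorem arg_nonneg (b : Fin (n + 1)) : 0 ≤ (b : ℝ) * ((n : ℝ) + 1 - (b : ℝ)) := by
  have : ((b : ℕ) : ℝ) ≤ n := by exact_mod_cast b.is_le
  exact mul_nonneg (by positivity) (by linarith)

theorem rai_mul_low (n : ℕ) : rai n * low n =
    diagonal fun a : Fin (n + 1) => ((((a : ℕ) : ℝ) + 1) * ((n : ℝ) - (a : ℕ))) := by
  ext a b
  rw [mul_apply]
  simp only [low, transpose_apply, rai, of_apply]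
  by_cases hab : a = b
  · subst hab
    rw [diagonal_apply_eq]
    rcases lt_or_eq_of_le a.is_le with ha | ha
    · rw [Fintype.sum_eq_single ⟨(a : ℕ) + 1, by omega⟩]
      · simp only [if_true]
        rw [Real.mul_self_sqrt (arg_nonneg (⟨(a : ℕ) + 1, by omega⟩ : Fin (n + 1)))]
        push_cast
        ring
      · intro c hc
        rw [if_neg fun h => hc (Fin.ext h.symm), zero_mul]
    · rw [Fintype.sum_eq_zero]
      · simp [ha]
      · intro c
        have := c.is_le
        rw [if_neg (by omega), zero_mul]
  · rw [diagonal_apply_ne _ hab]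
    refine Finset.sum_eq_zero fun c _ => ?_
    split_ifs with h1 h2
    · exact absurd (Fin.ext (by omega)) hab
    all_goals simp

theorem low_mul_rai (n : ℕ) : low n * rai n =
    diagonal fun a : Fin (n + 1) => (((a : ℕ) : ℝ) * ((n : ℝ) + 1 - (a : ℕ))) := by
  ext a b
  rw [mul_apply]
  simp only [low, transpose_apply, rai, of_apply]
  by_cases hab : a = b
  · subst hab
    rw [diagonal_apply_eq]
    rcases Nat.eq_zero_or_pos (a : ℕ) with ha | ha
    · rw [Fintype.sum_eq_zero]
      · simp [ha]
      · intro c
        rw [if_neg (by omega), zero_mul]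
    · rw [Fintype.sum_eq_single ⟨(a : ℕ) - 1, by omega⟩]
      · have : (a : ℕ) - 1 + 1 = (a : ℕ) := by omega
        simp only [this, if_true]
        rw [Real.mul_self_sqrt (arg_nonneg _)]
      · intro c hc
        rw [if_neg fun h => hc (Fin.ext (by simp only; omega)), zero_mul]
  · rw [diagonal_apply_ne _ hab]
    refine Finset.sum_eq_zero fun c _ => ?_
    split_ifs with h1 h2
    · exact absurd (Fin.ext (by omega)) hab
    all_goals simp

theorem rai_low_comm (n : ℕ) : rai n * low n - low n * rai n = (2 : ℝ) • zed n := by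
  rw [rai_mul_low, low_mul_rai, zed, diagonal_sub, ← diagonal_smul]
  congr 1
  funext a
  simp only [Pi.smul_apply, smul_eq_mul]
  ring

theorem rai_zed_comm (n : ℕ) : rai n * zed n - zed n * rai n = -rai n := by
  ext a b
  rw [zed, Matrix.sub_apply, mul_diagonal, diagonal_mul, Matrix.neg_apply]
  simp only [rai, of_apply]
  split_ifs with h
  · have hb : ((b : ℕ) : ℝ) = (a : ℕ) + 1 := by exact_mod_cast h.symm
    rw [hb]
    ring
  · ring

theorem zed_transpose (n : ℕ) : (zed n)ᵀ = zed n := diagonal_transpose _

theorem low_transpose (n : ℕ) : (low n)ᵀ = rai n := transpose_transpose _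

theorem rai_transpose (n : ℕ) : (rai n)ᵀ = low n := rfl

theorem low_zed_comm (n : ℕ) : low n * zed n - zed n * low n = low n := by
  have h := congrArg transpose (rai_zed_comm n)
  simp only [transpose_sub, transpose_mul, transpose_neg, zed_transpose, rai_transpose] at h
  rw [← neg_sub, h, neg_neg]

/-- The operator acting as `M` at `x`. -/
def loc [Fintype V] [DecidableEq V] (x : V) (M : Mat1 n) : ROp n V :=
  Matrix.of fun σ τ => if ∀ z, z ≠ x → σ z = τ z then M (σ x) (τ x) else 0

variable [Fintype V] [DecidableEq V]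

theorem loc_apply (x : V) (M : Mat1 n) (σ τ : Cfg n V) :
    loc x M σ τ = if ∀ z, z ≠ x → σ z = τ z then M (σ x) (τ x) else 0 := rfl

theorem loc_transpose (x : V) (M : Mat1 n) : (loc x M)ᵀ = loc x Mᵀ := by
  ext σ τ
  simp only [transpose_apply, loc_apply, eq_comm]

theorem loc_add (x : V) (M M' : Mat1 n) : loc x (M + M') = loc x M + loc x M' := by
  ext σ τ
  simp only [Matrix.add_apply, loc_apply]
  split_ifs <;> simp

theorem loc_sub (x : V) (M M' : Mat1 n) : loc x (M - M') = loc x M - loc x M' := by
  ext σ τ
  simp only [Matrix.sub_apply, loc_apply]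
  split_ifs <;> simp

theorem loc_neg (x : V) (M : Mat1 n) : loc x (-M) = -loc x M := by
  ext σ τ
  simp only [Matrix.neg_apply, loc_apply]
  split_ifs <;> simp

theorem loc_zero (x : V) : loc x (0 : Mat1 n) = 0 := by ext σ τ; simp [loc_apply]

theorem loc_smul (x : V) (c : ℝ) (M : Mat1 n) : loc x (c • M) = c • loc x M := by
  ext σ τ
  simp only [Matrix.smul_apply, loc_apply]
  split_ifs <;> simp

theorem loc_diagonal (x : V) (f : Fin (n + 1) → ℝ) :
    loc x (diagonal f) = diagonal fun σ : Cfg n V => f (σ x) := by
  ext σ τ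
  rw [loc_apply]
  by_cases h : σ = τ
  · subst h; simp
  · rw [diagonal_apply_ne _ h]
    split_ifs with hz
    · refine diagonal_apply_ne _ fun hx => h (funext fun z => ?_)
      by_cases hzx : z = x
      · subst hzx; exact hx
      · exact hz z hzx
    · rfl

theorem loc_mul (x : V) (A B : Mat1 n) : loc x A * loc x B = loc x (A * B) := by
  ext σ τ
  simp only [mul_apply, loc_apply]
  by_cases h : ∀ z, z ≠ x → σ z = τ z
  · rw [if_pos h]
    refine (Fintype.sum_of_injective (fun a => Function.update σ x a)
      (Function.update_injective σ x) _ _ ?_ ?_).symm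
    · intro ρ hρ
      have : ¬ ∀ z, z ≠ x → σ z = ρ z := by
        intro hz
        exact hρ ⟨ρ x, funext fun z => by
          by_cases hzx : z = x
          · subst hzx; simp
          · simp [hzx, hz z hzx]⟩
      rw [if_neg this, zero_mul]
    · intro a
      rw [if_pos fun z hz => by simp [hz], if_pos fun z hz => by simp [hz, h z hz]]
      simp
  · rw [if_neg h]
    refine Finset.sum_eq_zero fun ρ _ => ?_
    split_ifs with h1 h2
    · exact absurd (fun z hz => (h1 z hz).trans (h2 z hz)) h
    all_goals simp

theorem loc_mul_apply {x y : V} (hxy : x ≠ y) (A B : Mat1 n) (σ τ : Cfg n V) :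
    (loc x A * loc y B) σ τ =
      if ∀ z, z ≠ x → z ≠ y → σ z = τ z then A (σ x) (τ x) * B (σ y) (τ y) else 0 := by
  rw [mul_apply, Fintype.sum_eq_single (Function.update σ x (τ x))]
  · simp only [loc_apply, Function.update_self, Function.update_of_ne hxy.symm]
    rw [if_pos fun z hz => by simp [hz]]
    by_cases h : ∀ z, z ≠ x → z ≠ y → σ z = τ z
    · rw [if_pos h, if_pos]
      intro z hz
      by_cases hzx : z = x
      · subst hzx; simp
      · simp [hzx, h z hzx hz]
    · rw [if_neg h, if_neg, mul_zero]
      intro h'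
      refine h fun z hzx hzy => ?_
      simpa [hzx] using h' z hzy
  · intro ρ hρ
    simp only [loc_apply]
    split_ifs with h1 h2
    · refine absurd (funext fun z => ?_) hρ
      by_cases hzx : z = x
      · subst hzx; simp [h2 z hxy]
      · simp [hzx, (h1 z hzx).symm]
    all_goals simp

theorem loc_comm {x y : V} (hxy : x ≠ y) (A B : Mat1 n) :
    loc x A * loc y B = loc y B * loc x A := by
  ext σ τ
  rw [loc_mul_apply hxy, loc_mul_apply hxy.symm]
  refine if_congr ⟨fun h z a b => h z b a, fun h z a b => h z b a⟩ ?_ rfl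
  ring

theorem loc_nonneg (x : V) {M : Mat1 n} (hM : ∀ a b, 0 ≤ M a b) (σ τ : Cfg n V) :
    0 ≤ loc x M σ τ := by
  rw [loc_apply]; split_ifs; exacts [hM _ _, le_rfl]

/-- The bond operator `S^2 - S_x . S_y`. -/
noncomputable def bond (n : ℕ) (x y : V) : ROp n V :=
  ((n : ℝ) / 2) ^ 2 • 1 - (loc x (zed n) * loc y (zed n) +
    (1 / 2 : ℝ) • (loc x (rai n) * loc y (low n) + loc x (low n) * loc y (rai n)))

/-- The energy operator of a graph: half the sum of the bond operators over ordered pairs. -/
noncomputable def energy (n : ℕ) (G : V → V → Prop) [DecidableRel G] : ROp n V :=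
  (1 / 2 : ℝ) • ∑ x : V, ∑ y : V, if G x y then bond n x y else 0

/-- The one-magnon creation operator with amplitudes `g`. -/
noncomputable def crea (n : ℕ) (g : V → ℝ) : ROp n V := ∑ x, g x • loc x (low n)

/-- The fully polarized state. -/
def vac (n : ℕ) (V : Type*) [Fintype V] [DecidableEq V] : Cfg n V → ℝ :=
  fun σ => if σ = (fun _ => 0) then 1 else 0

/-- The number of magnons in a configuration. -/
def size (σ : Cfg n V) : ℕ := ∑ x, (σ x : ℕ)

/-- The commutator. -/
def com {ι : Type*} [Fintype ι] (X Y : Matrix ι ι ℝ) : Matrix ι ι ℝ := X * Y - Y * X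

theorem bond_transpose {x y : V} (hxy : x ≠ y) : (bond n x y)ᵀ = bond n x y := by
  simp only [bond, transpose_sub, transpose_add, transpose_smul, transpose_one, transpose_mul,
    loc_transpose, zed_transpose, low_transpose, rai_transpose, loc_comm hxy.symm]
  module

theorem bond_comm {x y : V} (hxy : x ≠ y) : bond n y x = bond n x y := by
  simp only [bond, loc_comm hxy.symm]
  module

section graph

variable {G : V → V → Prop} [DecidableRel G]

theorem energy_transpose (hG : ∀ x y, G x y → x ≠ y) : (energy n G)ᵀ = energy n G := by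
  simp only [energy, transpose_smul, transpose_sum]
  congr 1
  refine Finset.sum_congr rfl fun x _ => Finset.sum_congr rfl fun y _ => ?_
  split_ifs with h
  · exact bond_transpose (hG x y h)
  · simp

end graph

theorem com_crea (g : V → ℝ) (x : V) (U : Mat1 n) :
    com (loc x U) (crea n g) = g x • loc x (U * low n - low n * U) := by
  rw [com, crea, Finset.mul_sum, Finset.sum_mul, ← Finset.sum_sub_distrib,
    Fintype.sum_eq_single x]
  · rw [mul_smul_comm, smul_mul_assoc, loc_mul, loc_mul, ← smul_sub, ← loc_sub]
  · intro z hz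
    rw [mul_smul_comm, smul_mul_assoc, loc_comm hz, sub_self]

theorem com_bond_crea (g : V → ℝ) (x y : V) :
    com (bond n x y) (crea n g) = (g x - g y) •
      (loc x (low n) * loc y (zed n) - loc x (zed n) * loc y (low n)) := by
  have hz : zed n * low n - low n * zed n = -low n := by
    rw [← neg_sub, low_zed_comm]
  have hp := rai_low_comm n
  have e : ∀ a b c d : Mat1 n, com (loc x a * loc y b) (crea n g) =
      loc x a * com (loc y b) (crea n g) + com (loc x a) (crea n g) * loc y b := by
    intro a b _ _
    simp only [com, sub_mul, mul_sub, mul_assoc]; abel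
  have e0 : com (bond n x y) (crea n g) =
      -(com (loc x (zed n) * loc y (zed n)) (crea n g) +
        (1 / 2 : ℝ) • (com (loc x (rai n) * loc y (low n)) (crea n g) +
          com (loc x (low n) * loc y (rai n)) (crea n g))) := by
    simp only [com, bond, sub_mul, mul_sub, add_mul, mul_add, smul_mul_assoc, mul_smul_comm,
      one_mul, mul_one]
    module
  rw [e0, e _ _ 0 0, e _ _ 0 0, e _ _ 0 0]
  simp only [com_crea, hz, hp, sub_self, loc_neg, loc_smul, loc_zero, smul_zero, mul_zero,
    zero_mul, smul_mul_assoc, mul_smul_comm, neg_mul, mul_neg, smul_neg, smul_smul]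
  module

theorem com2_bond_crea (g c : V → ℝ) (x y : V) :
    com (com (bond n x y) (crea n g)) (crea n c) =
      ((g x - g y) * (c x - c y)) • (loc x (low n) * loc y (low n)) := by
  have hz : zed n * low n - low n * zed n = -low n := by
    rw [← neg_sub, low_zed_comm]
  have e : com ((g x - g y) • (loc x (low n) * loc y (zed n) - loc x (zed n) * loc y (low n)))
      (crea n c) = (g x - g y) •
      ((loc x (low n) * com (loc y (zed n)) (crea n c) + com (loc x (low n)) (crea n c) * loc y (zed n))
        - (loc x (zed n) * com (loc y (low n)) (crea n c)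
          + com (loc x (zed n)) (crea n c) * loc y (low n))) := by
    simp only [com, sub_mul, mul_sub, smul_mul_assoc, mul_smul_comm, smul_sub, mul_assoc, smul_add]
    abel
  rw [com_bond_crea, e]
  simp only [com_crea, hz, sub_self, loc_neg, loc_zero, smul_zero, mul_zero, zero_mul,
    smul_mul_assoc, mul_smul_comm, neg_mul, mul_neg, smul_neg]
  module

theorem crea_comm_loc_low (g : V → ℝ) (x : V) :
    crea n g * loc x (low n) = loc x (low n) * crea n g := by
  have h := com_crea g x (low n)
  rw [sub_self, loc_zero, smul_zero, com, sub_eq_zero] at h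
  exact h.symm

theorem crea_comm (g c : V → ℝ) : crea n g * crea n c = crea n c * crea n g := by
  calc crea n g * crea n c = ∑ x, c x • (crea n g * loc x (low n)) := by
        conv_lhs => arg 2; unfold crea
        rw [Finset.mul_sum]
        simp only [mul_smul_comm]
    _ = ∑ x, c x • (loc x (low n) * crea n g) := by simp only [crea_comm_loc_low]
    _ = _ := by
        conv_rhs => arg 1; unfold crea
        rw [Finset.sum_mul]
        simp only [smul_mul_assoc]

/-- The one-magnon generator. -/
noncomputable def hop (n : ℕ) (G : V → V → Prop) [DecidableRel G] (g : V → ℝ) : V → ℝ :=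
  fun x => (n : ℝ) / 2 * ∑ y, if G x y then g x - g y else 0

/-- The two-magnon interaction. -/
noncomputable def inter (n : ℕ) (G : V → V → Prop) [DecidableRel G] (g c : V → ℝ) : ROp n V :=
  (1 / 2 : ℝ) • ∑ x : V, ∑ y : V,
    if G x y then ((g x - g y) * (c x - c y)) • (loc x (low n) * loc y (low n)) else 0

section graph

variable {G : V → V → Prop} [DecidableRel G]

theorem com2_energy_crea (g c : V → ℝ) :
    com (com (energy n G) (crea n g)) (crea n c) = inter n G g c := by
  have hl : ∀ (a : ℝ) (X Y : ROp n V), com (a • X) Y = a • com X Y := by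
    intro a X Y; simp only [com, smul_mul_assoc, mul_smul_comm, smul_sub]
  have hs : ∀ (X : V → ROp n V) (Y : ROp n V), com (∑ x, X x) Y = ∑ x, com (X x) Y := by
    intro X Y; simp only [com, Finset.sum_mul, Finset.mul_sum, Finset.sum_sub_distrib]
  have h0 : ∀ Y : ROp n V, com 0 Y = 0 := by intro Y; simp [com]
  simp only [energy, hl, hs, apply_ite (fun X => com X (crea n g)),
    apply_ite (fun X => com X (crea n c)), h0, com2_bond_crea, inter]

theorem inter_comm_crea (g c d : V → ℝ) :
    inter n G g c * crea n d = crea n d * inter n G g c := by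
  simp only [inter, smul_mul_assoc, mul_smul_comm, Finset.sum_mul, Finset.mul_sum, ite_mul,
    mul_ite, zero_mul, mul_zero]
  congr 1
  refine Finset.sum_congr rfl fun x _ => Finset.sum_congr rfl fun y _ => ?_
  rw [mul_assoc, ← crea_comm_loc_low, ← mul_assoc, ← crea_comm_loc_low, mul_assoc]

omit [Fintype V] in
theorem eq_zero_of_forall {x : V} {σ : Cfg n V} (h : ∀ z, z ≠ x → σ z = 0) (hx : σ x = 0) :
    σ = fun _ => 0 := by
  funext z
  by_cases hz : z = x
  · subst hz; exact hx
  · exact h z hz

theorem loc_zed_mulVec_vac (x : V) :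
    loc x (zed n) *ᵥ vac n V = ((n : ℝ) / 2) • vac n V := by
  funext σ
  rw [zed, loc_diagonal, mulVec_diagonal]
  simp only [vac, Pi.smul_apply, smul_eq_mul]
  split_ifs with h
  · subst h; simp
  · simp

theorem loc_rai_mulVec_vac (x : V) : loc x (rai n) *ᵥ vac n V = 0 := by
  funext σ
  simp only [mulVec, dotProduct, vac, mul_ite, mul_one, mul_zero, Finset.sum_ite_eq',
    Finset.mem_univ, if_true, loc_apply, Pi.zero_apply]
  split_ifs
  · simp [rai]
  · rfl

theorem bond_mulVec_vac {x y : V} (hxy : x ≠ y) : bond n x y *ᵥ vac n V = 0 := by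
  rw [bond, loc_comm hxy (rai n) (low n)]
  simp only [sub_mulVec, add_mulVec, smul_mulVec, one_mulVec, ← mulVec_mulVec, loc_rai_mulVec_vac,
    loc_zed_mulVec_vac, mulVec_smul, mulVec_zero, smul_zero, smul_smul, add_zero]
  module

theorem energy_mulVec_vac (hG : ∀ x y, G x y → x ≠ y) : energy n G *ᵥ vac n V = 0 := by
  simp only [energy, smul_mulVec, sum_mulVec]
  rw [Finset.sum_eq_zero, smul_zero]
  intro x _
  refine Finset.sum_eq_zero fun y _ => ?_
  split_ifs with h
  · exact bond_mulVec_vac (hG x y h)
  · exact zero_mulVec _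

theorem com_energy_crea_vac (hG : ∀ x y, G x y → x ≠ y) (hGs : ∀ x y, G x y → G y x)
    (g : V → ℝ) :
    com (energy n G) (crea n g) *ᵥ vac n V = crea n (hop n G g) *ᵥ vac n V := by
  set w : V → Cfg n V → ℝ := fun x => loc x (low n) *ᵥ vac n V with hw
  have h1 : ∀ x y, x ≠ y → com (bond n x y) (crea n g) *ᵥ vac n V =
      ((g x - g y) * ((n : ℝ) / 2)) • (w x - w y) := by
    intro x y hxy
    rw [com_bond_crea, loc_comm hxy (zed n) (low n)]
    simp only [smul_mulVec, sub_mulVec, ← mulVec_mulVec, loc_zed_mulVec_vac, mulVec_smul, ← hw]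
    module
  have hl : ∀ (a : ℝ) (X Y : ROp n V), com (a • X) Y = a • com X Y := by
    intro a X Y; simp only [com, smul_mul_assoc, mul_smul_comm, smul_sub]
  have hs : ∀ (X : V → ROp n V) (Y : ROp n V), com (∑ x, X x) Y = ∑ x, com (X x) Y := by
    intro X Y; simp only [com, Finset.sum_mul, Finset.mul_sum, Finset.sum_sub_distrib]
  have h0 : com 0 (crea n g) = 0 := by simp [com]
  simp only [energy, hl, hs, apply_ite (fun X => com X (crea n g)), h0, smul_mulVec, sum_mulVec]
  have e : ∀ x y, (if G x y then com (bond n x y) (crea n g) else 0) *ᵥ vac n V =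
      (if G x y then ((g x - g y) * ((n : ℝ) / 2)) • w x else 0) +
      (if G y x then ((g y - g x) * ((n : ℝ) / 2)) • w y else 0) := by
    intro x y
    by_cases h : G x y
    · rw [if_pos h, if_pos h, if_pos (hGs x y h), h1 x y (hG x y h)]; module
    · rw [if_neg h, if_neg h, if_neg fun h' => h (hGs y x h'), zero_mulVec, add_zero]
  simp only [e, Finset.sum_add_distrib]
  rw [Finset.sum_comm (f := fun x y => if G y x then ((g y - g x) * ((n : ℝ) / 2)) • w y else 0)]
  simp only [crea, sum_mulVec, smul_mulVec, ← hw, hop, Finset.mul_sum, Finset.sum_smul]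
  rw [← two_smul ℝ, smul_smul, show (1 / 2 : ℝ) * 2 = 1 by norm_num, one_smul]
  refine Finset.sum_congr rfl fun x _ => Finset.sum_congr rfl fun y _ => ?_
  split_ifs <;> simp [mul_comm, hw]

end graph

end Vale.Agent.P361.Field
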