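import Vale.Agent.P361.Field.Cube

/-!
The permutation sum of a one-magnon kernel as the partition function of free bosons, and bounds on
the one-magnon traces of the cube.
-/

open Finset MeasureTheory

namespace Vale.Agent.P361.Field

section bosons

variable {κ V : Type*} [Fintype κ] [DecidableEq κ] [Fintype V] [DecidableEq V]

/-- The number of permutations fixing a tuple. -/
def stabCard {m : ℕ} (k : Fin m → κ) : ℕ :=
  (Finset.univ.filter fun e : Equiv.Perm (Fin m) => k ∘ e = k).card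

/-- The occupation numbers of a tuple of modes. -/
def occCount {m : ℕ} (k : Fin m → κ) : κ → ℕ :=
  fun a => (Finset.univ.filter fun i => k i = a).card

omit [DecidableEq V] in
theorem permSum_modes (φ : κ → V → ℝ) (lam : κ → ℝ)
    (horth : ∀ a b, ∑ v, φ a v * φ b v = if a = b then 1 else 0) (m : ℕ) :
    ∑ x : Fin m → V, ∑ e : Equiv.Perm (Fin m), ∏ i, ∑ a, lam a * (φ a (x (e i)) * φ a (x i)) =
      ∑ k : Fin m → κ, (stabCard k : ℝ) * ∏ i, lam (k i) := by
  simp only [Fintype.prod_sum, Finset.prod_mul_distrib]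
  rw [Finset.sum_comm]
  calc ∑ e : Equiv.Perm (Fin m), ∑ x : Fin m → V, ∑ k : Fin m → κ,
        (∏ i, lam (k i)) * ((∏ i, φ (k i) (x (e i))) * ∏ i, φ (k i) (x i))
      = ∑ e : Equiv.Perm (Fin m), ∑ k : Fin m → κ,
          (∏ i, lam (k i)) * if k ∘ e = k then 1 else 0 := by
        refine Finset.sum_congr rfl fun e _ => ?_
        rw [Finset.sum_comm]
        refine Finset.sum_congr rfl fun k _ => ?_
        rw [← Finset.mul_sum]
        congr 1
        have e1 : ∀ x : Fin m → V, (∏ i, φ (k i) (x (e i))) * ∏ i, φ (k i) (x i) =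
            ∏ i, φ (k (e.symm i)) (x i) * φ (k i) (x i) := by
          intro x
          rw [Finset.prod_mul_distrib]
          congr 1
          rw [← Equiv.prod_comp e (fun i => φ (k (e.symm i)) (x i))]
          simp
        simp only [e1]
        rw [← Fintype.prod_sum (fun i v => φ (k (e.symm i)) v * φ (k i) v)]
        simp only [horth]
        split_ifs with h
        · refine Finset.prod_eq_one fun i _ => if_pos ?_
          have := congrFun h (e.symm i)
          simpa using this.symm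
        · obtain ⟨i, hi⟩ := Function.ne_iff.1 h
          refine Finset.prod_eq_zero (Finset.mem_univ (e i)) (if_neg ?_)
          simpa using Ne.symm hi
    _ = _ := by
        rw [Finset.sum_comm]
        refine Finset.sum_congr rfl fun k _ => ?_
        rw [← Finset.mul_sum, Finset.sum_boole, mul_comm]
        rfl

theorem stab_fiber_sum {m : ℕ} (k0 : Fin m → κ) :
    ∑ k ∈ Finset.univ.filter (fun k : Fin m → κ => occCount k = occCount k0), stabCard k
      = m.factorial := by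
  have hfib : ∀ k : Fin m → κ, occCount k = occCount k0 →
      ∃ e0 : Equiv.Perm (Fin m), k0 ∘ e0 = k := by
    intro k hk
    have hc : ∀ a, Fintype.card {i // k i = a} = Fintype.card {i // k0 i = a} := fun a => by
      simpa [Fintype.card_subtype, occCount] using congrFun hk a
    refine ⟨Equiv.ofFiberEquiv fun a => Fintype.equivOfCardEq (hc a), funext fun i => ?_⟩
    exact Equiv.ofFiberEquiv_map _ i
  have hmem : ∀ e ∈ (Finset.univ : Finset (Equiv.Perm (Fin m))),
      k0 ∘ e ∈ Finset.univ.filter (fun k : Fin m → κ => occCount k = occCount k0) := by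
    intro e _
    refine Finset.mem_filter.2 ⟨Finset.mem_univ _, funext fun a => ?_⟩
    simp only [occCount, Function.comp_apply]
    refine Finset.card_equiv e fun i => ?_
    simp
  have h := Finset.card_eq_sum_card_fiberwise hmem
  rw [Finset.card_univ, Fintype.card_perm, Fintype.card_fin] at h
  rw [h]
  refine Finset.sum_congr rfl fun k hk => ?_
  obtain ⟨e0, he0⟩ := hfib k (Finset.mem_filter.1 hk).2
  refine Finset.card_equiv (Equiv.mulLeft e0) fun e => ?_
  simp only [Finset.mem_filter, Finset.mem_univ, true_and, Equiv.coe_mulLeft,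
    Equiv.Perm.coe_mul]
  rw [← Function.comp_assoc, he0]

omit [DecidableEq V] in
theorem boson_sum_le {lam : κ → ℝ} (h0 : ∀ a, 0 ≤ lam a) (h1 : ∀ a, lam a ≤ 1) {z : ℝ}
    (hz : 0 ≤ z) (hz1 : z < 1) (M : ℕ) :
    ∑ m ∈ Finset.range (M + 1), z ^ m / (m.factorial : ℝ) *
        ∑ k : Fin m → κ, (stabCard k : ℝ) * ∏ i, lam (k i) ≤
      ∏ a, 1 / (1 - z * lam a) := by
  have hzl : ∀ a, 0 ≤ z * lam a ∧ z * lam a < 1 := fun a =>
    ⟨mul_nonneg hz (h0 a), lt_of_le_of_lt (mul_le_of_le_one_right hz (h1 a)) hz1⟩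
  set T : ℕ → Finset (κ → ℕ) := fun m =>
    (Fintype.piFinset fun _ : κ => Finset.range (M + 1)).filter (fun c => ∑ a, c a = m) with hT
  have hm : ∀ m ∈ Finset.range (M + 1), z ^ m / (m.factorial : ℝ) *
      ∑ k : Fin m → κ, (stabCard k : ℝ) * ∏ i, lam (k i) ≤ ∑ c ∈ T m, ∏ a, (z * lam a) ^ c a := by
    intro m hmM
    rw [Finset.mem_range] at hmM
    rw [← Finset.sum_fiberwise_of_maps_to (t := T m) (g := fun k : Fin m → κ => occCount k),
      Finset.mul_sum]
    · refine Finset.sum_le_sum fun c hc => ?_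
      have hcs : ∑ a, c a = m := (Finset.mem_filter.1 hc).2
      have hval : ∀ k ∈ Finset.univ.filter (fun k : Fin m → κ => occCount k = c),
          (stabCard k : ℝ) * ∏ i, lam (k i) = (stabCard k : ℝ) * ∏ a, lam a ^ c a := by
        intro k hk
        congr 1
        rw [← Finset.prod_fiberwise' Finset.univ k lam]
        refine Finset.prod_congr rfl fun a _ => ?_
        rw [Finset.prod_const, ← (Finset.mem_filter.1 hk).2]
        rfl
      rw [Finset.sum_congr rfl hval, ← Finset.sum_mul]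
      have hpow : ∏ a, (z * lam a) ^ c a = z ^ m * ∏ a, lam a ^ c a := by
        simp only [mul_pow, Finset.prod_mul_distrib, Finset.prod_pow_eq_pow_sum, hcs]
      rw [hpow]
      rcases (Finset.univ.filter (fun k : Fin m → κ => occCount k = c)).eq_empty_or_nonempty with
        he | ⟨k0, hk0⟩
      · rw [he, Finset.sum_empty, zero_mul, mul_zero]
        exact mul_nonneg (pow_nonneg hz m) (Finset.prod_nonneg fun a _ => pow_nonneg (h0 a) _)
      · have := stab_fiber_sum k0
        rw [(Finset.mem_filter.1 hk0).2] at this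
        rw [← Nat.cast_sum, this]
        refine le_of_eq ?_
        field_simp
    · intro k _
      have hsum : ∑ a, occCount k a = m := by
        simp only [occCount]
        rw [← Finset.card_eq_sum_card_fiberwise (fun i _ => Finset.mem_univ (k i)),
          Finset.card_univ, Fintype.card_fin]
      refine Finset.mem_filter.2 ⟨Fintype.mem_piFinset.2 fun a => Finset.mem_range.2 ?_, hsum⟩
      have h' := Finset.single_le_sum (f := fun b => occCount k b) (fun _ _ => Nat.zero_le _)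
        (Finset.mem_univ a)
      omega
  refine le_trans (Finset.sum_le_sum hm) ?_
  calc ∑ m ∈ Finset.range (M + 1), ∑ c ∈ T m, ∏ a, (z * lam a) ^ c a
      ≤ ∑ c ∈ Fintype.piFinset (fun _ : κ => Finset.range (M + 1)), ∏ a, (z * lam a) ^ c a :=
        Finset.sum_fiberwise_le_sum_of_sum_fiber_nonneg fun m _ =>
          Finset.sum_nonneg fun c _ => Finset.prod_nonneg fun a _ => pow_nonneg (hzl a).1 _
    _ = ∏ a, ∑ j ∈ Finset.range (M + 1), (z * lam a) ^ j := (Finset.prod_univ_sum _ _).symm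
    _ ≤ _ := Finset.prod_le_prod
        (fun a _ => Finset.sum_nonneg fun j _ => pow_nonneg (hzl a).1 _)
        (fun a _ => by
          rw [one_div]
          exact le_trans ((summable_geometric_of_lt_one (hzl a).1 (hzl a).2).sum_le_tsum _
            fun j _ => pow_nonneg (hzl a).1 j)
            (le_of_eq (tsum_geometric_of_lt_one (hzl a).1 (hzl a).2)))

theorem neg_log_le {x z : ℝ} (hx : 0 ≤ x) (hxz : x ≤ z) (hz : z < 1) (R : ℕ) :
    -Real.log (1 - x) ≤
      ∑ l ∈ Finset.range R, x ^ (l + 1) / ((l : ℝ) + 1) + x ^ (R + 1) / (1 - z) := by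
  have hx1 : x < 1 := lt_of_le_of_lt hxz hz
  have h := Real.hasSum_pow_div_log_of_abs_lt_one (x := x) (by rwa [abs_of_nonneg hx])
  rw [← h.tsum_eq, ← h.summable.sum_add_tsum_nat_add R]
  refine add_le_add (le_refl _) ?_
  have hg := (summable_geometric_of_lt_one hx hx1).mul_left (x ^ (R + 1))
  refine le_trans (Summable.tsum_le_tsum (fun i => ?_) ((summable_nat_add_iff R).2 h.summable) hg) ?_
  · rw [← pow_add]
    push_cast
    rw [show R + 1 + i = i + R + 1 by ring]
    exact div_le_self (pow_nonneg hx _) (by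
      have : (0 : ℝ) ≤ i := Nat.cast_nonneg _
      have : (0 : ℝ) ≤ R := Nat.cast_nonneg _
      linarith)
  · rw [tsum_mul_left, tsum_geometric_of_lt_one hx hx1, div_eq_mul_inv]
    gcongr

omit [DecidableEq V] [DecidableEq κ] in
theorem log_prod_le {lam : κ → ℝ} (h0 : ∀ a, 0 ≤ lam a) (h1 : ∀ a, lam a ≤ 1) {z : ℝ}
    (hz : 0 ≤ z) (hz1 : z < 1) (R : ℕ) :
    Real.log (∏ a, 1 / (1 - z * lam a)) ≤
      ∑ l ∈ Finset.range R, z ^ (l + 1) / ((l : ℝ) + 1) * ∑ a, lam a ^ (l + 1) +
        z ^ (R + 1) / (1 - z) * ∑ a, lam a := by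
  have hzl : ∀ a, z * lam a ≤ z := fun a => mul_le_of_le_one_right hz (h1 a)
  rw [Real.log_prod]
  · simp only [one_div, Real.log_inv]
    refine le_trans (Finset.sum_le_sum fun a _ =>
      neg_log_le (mul_nonneg hz (h0 a)) (hzl a) hz1 R) ?_
    rw [Finset.sum_add_distrib, Finset.sum_comm]
    refine add_le_add (le_of_eq (Finset.sum_congr rfl fun l _ => ?_)) ?_
    · rw [Finset.mul_sum]
      exact Finset.sum_congr rfl fun a _ => by rw [mul_pow]; ring
    · rw [Finset.mul_sum]
      refine Finset.sum_le_sum fun a _ => ?_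
      rw [mul_pow, div_mul_eq_mul_div]
      have h2 : lam a ^ (R + 1) ≤ lam a := pow_le_of_le_one (h0 a) (h1 a) (Nat.succ_ne_zero R)
      gcongr
  · intro a _
    exact one_div_ne_zero (by have := hzl a; linarith)

end bosons

variable {ℓ : ℕ}

/-- The one-magnon modes of the cube. -/
noncomputable def cubeMode (ℓ : ℕ) (k x : Cube ℓ) : ℝ := ∏ d, mode ℓ (k d) (x d)

/-- The one-magnon Boltzmann factor of a mode. -/
noncomputable def cubeWt (n ℓ : ℕ) (s : ℝ) (k : Cube ℓ) : ℝ :=
  ∏ d, Real.exp (-(s * modeE n ℓ (k d)))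

theorem cubeWt_nonneg (n : ℕ) (s : ℝ) (k : Cube ℓ) : 0 ≤ cubeWt n ℓ s k :=
  Finset.prod_nonneg fun _ _ => (Real.exp_pos _).le

theorem cubeWt_le_one (n : ℕ) {s : ℝ} (hs : 0 ≤ s) (k : Cube ℓ) : cubeWt n ℓ s k ≤ 1 :=
  Finset.prod_le_one (fun _ _ => (Real.exp_pos _).le)
    fun _ _ => Real.exp_le_one_iff.2 (neg_nonpos.2 (mul_nonneg hs (modeE_nonneg n _)))

theorem cubeMode_orth (a b : Cube ℓ) :
    ∑ v, cubeMode ℓ a v * cubeMode ℓ b v = if a = b then 1 else 0 := by
  simp only [cubeMode, ← Finset.prod_mul_distrib]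
  rw [← Fintype.prod_sum (fun d c => mode ℓ (a d) c * mode ℓ (b d) c)]
  simp only [mode_orth]
  split_ifs with h
  · subst h; simp
  · obtain ⟨d, hd⟩ := Function.ne_iff.1 h
    exact Finset.prod_eq_zero (Finset.mem_univ d) (if_neg hd)

theorem cubeKer_eq (n : ℕ) (s : ℝ) (x y : Cube ℓ) :
    cubeKer n ℓ s x y = ∑ k, cubeWt n ℓ s k * (cubeMode ℓ k x * cubeMode ℓ k y) := by
  simp only [cubeKer, lineKer, Fintype.prod_sum, cubeWt, cubeMode, ← Finset.prod_mul_distrib]

/-- The one-magnon trace on a segment. -/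
noncomputable def lineTr (n ℓ : ℕ) (s : ℝ) : ℝ := ∑ j : Fin ℓ, Real.exp (-(s * modeE n ℓ j))

theorem lineTr_nonneg (n ℓ : ℕ) (s : ℝ) : 0 ≤ lineTr n ℓ s :=
  Finset.sum_nonneg fun _ _ => (Real.exp_pos _).le

theorem sum_cubeWt_pow (n : ℕ) (s : ℝ) (l : ℕ) :
    ∑ k : Cube ℓ, cubeWt n ℓ s k ^ l = lineTr n ℓ ((l : ℝ) * s) ^ 3 := by
  have e : ∀ k : Cube ℓ, cubeWt n ℓ s k ^ l =
      ∏ d, Real.exp (-(((l : ℝ) * s) * modeE n ℓ (k d))) := by
    intro k
    rw [cubeWt, ← Finset.prod_pow]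
    refine Finset.prod_congr rfl fun d _ => ?_
    rw [← Real.exp_nat_mul]
    ring_nf
  simp only [e]
  rw [← Fintype.prod_sum (fun _ a => Real.exp (-(((l : ℝ) * s) * modeE n ℓ a))),
    Finset.prod_const, Finset.card_univ, Fintype.card_fin]
  rfl

/-- The Gaussian upper bound for the one-magnon trace on a segment. -/
theorem lineTr_le (n : ℕ) {δ τ : ℝ} (hn : 1 ≤ n) (hℓ : 0 < ℓ) (hδ : 0 < δ) (hδ1 : δ < 1)
    (hτ : 0 < τ) :
    lineTr n ℓ τ ≤ 1 + (ℓ : ℝ) / Real.sqrt (2 * Real.pi * τ * n * (1 - δ)) +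
      ℓ * Real.exp (-(τ * (2 * n * δ ^ 2 / Real.pi ^ 2))) := by
  have hℓ' : (0 : ℝ) < ℓ := by exact_mod_cast hℓ
  have hn' : (0 : ℝ) < n := by exact_mod_cast hn
  set b : ℝ := τ * n * (1 - δ) * Real.pi ^ 2 / (2 * (ℓ : ℝ) ^ 2) with hb
  have hb0 : 0 < b := by
    have : 0 < 1 - δ := by linarith
    positivity
  set f : ℝ → ℝ := fun x => Real.exp (-b * x ^ 2) with hf
  set E : ℝ := Real.exp (-(τ * (2 * n * δ ^ 2 / Real.pi ^ 2))) with hE
  have hterm : ∀ j : Fin ℓ, Real.exp (-(τ * modeE n ℓ j)) ≤ f (j : ℕ) + E := by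
    intro j
    set θ : ℝ := Real.pi * ((j : ℕ) : ℝ) / ℓ with hθ
    have hθ0 : 0 ≤ θ := by positivity
    by_cases hsmall : θ ≤ δ
    · refine le_trans (Real.exp_le_exp.2 ?_) (le_add_of_nonneg_right (Real.exp_pos _).le)
      have hc := (abs_le.1 (Real.cos_bound (x := θ) (by rw [abs_of_nonneg hθ0]; linarith))).2
      rw [abs_of_nonneg hθ0] at hc
      have h4 : θ ^ 4 * (5 / 96) ≤ δ * θ ^ 2 / 2 := by
        have h2 : θ * θ ≤ δ * 1 := mul_le_mul hsmall (by linarith) hθ0 hδ.le
        nlinarith [mul_le_mul_of_nonneg_left h2 (sq_nonneg θ), mul_nonneg hδ.le (sq_nonneg θ)]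
      have h5 : (n : ℝ) * ((1 - δ) * θ ^ 2 / 2) ≤ modeE n ℓ j :=
        mul_le_mul_of_nonneg_left (by linarith) hn'.le
      have h6 := mul_le_mul_of_nonneg_left h5 hτ.le
      have e : τ * ((n : ℝ) * ((1 - δ) * θ ^ 2 / 2)) = b * ((j : ℕ) : ℝ) ^ 2 := by
        rw [hb, hθ]; field_simp
      linarith
    · refine le_trans (Real.exp_le_exp.2 ?_) (le_add_of_nonneg_left (Real.exp_pos _).le)
      have h := modeE_ge n j
      have h7 : δ ≤ θ := (not_le.1 hsmall).le
      have h8 : 2 * (n : ℝ) * δ ^ 2 / Real.pi ^ 2 ≤ 2 * (n : ℝ) * θ ^ 2 / Real.pi ^ 2 := by gcongr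
      have e : 2 * (n : ℝ) * θ ^ 2 / Real.pi ^ 2 = 2 * n * ((j : ℕ) : ℝ) ^ 2 / (ℓ : ℝ) ^ 2 := by
        rw [hθ]; field_simp
      have h9 := mul_le_mul_of_nonneg_left (show 2 * (n : ℝ) * δ ^ 2 / Real.pi ^ 2 ≤ modeE n ℓ j by
        linarith) hτ.le
      linarith
  refine le_trans (Finset.sum_le_sum fun j _ => hterm j) ?_
  rw [Finset.sum_add_distrib, Finset.sum_const, Finset.card_univ, Fintype.card_fin, nsmul_eq_mul]
  refine add_le_add ?_ (le_refl _)
  rw [Fin.sum_univ_eq_sum_range (fun i : ℕ => f (i : ℝ))]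
  obtain ⟨k, rfl⟩ : ∃ k, ℓ = k + 1 := ⟨ℓ - 1, by omega⟩
  rw [Finset.sum_range_succ']
  have h0 : f ((0 : ℕ) : ℝ) = 1 := by simp [hf]
  rw [h0, add_comm]
  refine add_le_add (le_refl _) ?_
  have hanti : AntitoneOn f (Set.Icc 0 (0 + (k : ℝ))) := by
    intro x hx y _ hxy
    refine Real.exp_le_exp.mpr ?_
    nlinarith [mul_le_mul_of_nonneg_left (pow_le_pow_left₀ hx.1 hxy 2) hb0.le]
  have h1 := AntitoneOn.sum_le_integral (a := k) hanti
  simp only [zero_add] at h1
  refine le_trans h1 ?_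
  have hint := integrable_exp_neg_mul_sq hb0
  have h2 : ∫ x in (0 : ℝ)..(k : ℝ), f x ≤ ∫ x in Set.Ioi (0 : ℝ), f x := by
    rw [intervalIntegral.integral_of_le (Nat.cast_nonneg k)]
    exact setIntegral_mono_set hint.integrableOn
      (Filter.Eventually.of_forall fun x => (Real.exp_pos _).le)
      (Filter.Eventually.of_forall fun x hx => hx.1)
  refine le_trans h2 ?_
  rw [integral_gaussian_Ioi]
  refine le_of_eq ?_
  have h1δ : 0 < 1 - δ := by linarith
  set L : ℝ := ((k + 1 : ℕ) : ℝ) with hL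
  have hkey : Real.pi / b = (2 * L) ^ 2 / (2 * Real.pi * τ * n * (1 - δ)) := by
    rw [hb]; field_simp
  rw [hkey, Real.sqrt_div (sq_nonneg _), Real.sqrt_sq (by positivity)]
  field_simp

end Vale.Agent.P361.Field
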