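import Vale.Agent.P361.Field.Upper

/-!
The zero-temperature limit of the box bound.
-/

open Matrix Finset Filter
open scoped Topology

namespace Vale.Agent.P361.Field

variable {n : ℕ}

theorem tendsto_shell (ℓ : ℕ) (hℓ : 0 < ℓ) :
    Tendsto (fun L : ℕ => ((L ^ 3 - (L / ℓ * ℓ) ^ 3 : ℕ) : ℝ) / (L : ℝ) ^ 3) atTop (𝓝 0) := by
  have h : Tendsto (fun L : ℕ => 1 - (1 - (ℓ : ℝ) / (L : ℝ)) ^ 3) atTop (𝓝 0) := by
    have h1 : Tendsto (fun L : ℕ => (ℓ : ℝ) / (L : ℝ)) atTop (𝓝 0) :=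
      tendsto_const_nhds.div_atTop tendsto_natCast_atTop_atTop
    simpa using (((h1.const_sub (1 : ℝ)).pow 3).const_sub 1)
  refine squeeze_zero' (Eventually.of_forall fun L => by positivity) ?_ h
  filter_upwards [eventually_ge_atTop ℓ] with L hL
  have hL0 : (0 : ℝ) < L := by exact_mod_cast lt_of_lt_of_le hℓ hL
  have hle : L / ℓ * ℓ ≤ L := Nat.div_mul_le_self L ℓ
  rw [Nat.cast_sub (Nat.pow_le_pow_left hle 3)]
  push_cast
  have h2 : (L : ℝ) - ℓ ≤ ((L / ℓ : ℕ) : ℝ) * ℓ := by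
    have h3 := Nat.div_add_mod L ℓ
    have h4 := Nat.mod_lt L hℓ
    have h5 : L ≤ L / ℓ * ℓ + ℓ := by rw [Nat.mul_comm]; omega
    have : (L : ℝ) ≤ ((L / ℓ : ℕ) : ℝ) * ℓ + ℓ := by exact_mod_cast h5
    linarith
  have h6 : (0 : ℝ) ≤ (L : ℝ) - ℓ := sub_nonneg.2 (by exact_mod_cast hL)
  have h7 := pow_le_pow_left₀ h6 h2 3
  rw [div_le_iff₀ (by positivity)]
  have e : (1 - (1 - (ℓ : ℝ) / L) ^ 3) * (L : ℝ) ^ 3 = (L : ℝ) ^ 3 - ((L : ℝ) - ℓ) ^ 3 := by
    field_simp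
  linarith

theorem log_zPart_tiling {L ℓ : ℕ} (hn : 1 ≤ n) (hℓ : 0 < ℓ) (hL : 0 < L) {t z : ℝ} (ht : 0 ≤ t)
    (hz : 0 < z) (hz1 : z < 1) :
    Real.log (zPart n (@cAdj L) t z) / (L : ℝ) ^ 3 ≤
      Real.log (zPart n (@cAdj ℓ) t z) / (ℓ : ℝ) ^ 3 +
        ((L ^ 3 - (L / ℓ * ℓ) ^ 3 : ℕ) : ℝ) / (L : ℝ) ^ 3 * Real.log (1 / (1 - z)) := by
  have h1 := zPart_cube_tiling (n := n) (L := L) (ℓ := ℓ) ht hz hz1
  have hZ := one_le_zPart (ℓ := ℓ) hn ht hz.le
  have hZL := one_le_zPart (ℓ := L) hn ht hz.le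
  have hz' : 0 < 1 / (1 - z) := one_div_pos.2 (by linarith)
  have h2 := Real.log_le_log (lt_of_lt_of_le one_pos hZL) h1
  rw [Real.log_mul (pow_ne_zero _ (by linarith)) (pow_ne_zero _ hz'.ne'), Real.log_pow,
    Real.log_pow] at h2
  set a := Real.log (zPart n (@cAdj ℓ) t z) with ha
  have ha0 : 0 ≤ a := Real.log_nonneg hZ
  have hL' : (0 : ℝ) < L := by exact_mod_cast hL
  have hℓ' : (0 : ℝ) < ℓ := by exact_mod_cast hℓ
  have h3 : (((L / ℓ) ^ 3 : ℕ) : ℝ) * (ℓ : ℝ) ^ 3 ≤ (L : ℝ) ^ 3 := by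
    push_cast
    rw [← mul_pow]
    exact pow_le_pow_left₀ (by positivity) (by exact_mod_cast Nat.div_mul_le_self L ℓ) 3
  rw [div_le_iff₀ (by positivity), add_mul]
  have h4 : (((L / ℓ) ^ 3 : ℕ) : ℝ) * a ≤ a / (ℓ : ℝ) ^ 3 * (L : ℝ) ^ 3 := by
    have := mul_le_mul_of_nonneg_left h3 (div_nonneg ha0 (by positivity : (0 : ℝ) ≤ (ℓ : ℝ) ^ 3))
    refine le_trans (le_of_eq ?_) this
    field_simp
  have e : ((L ^ 3 - (L / ℓ * ℓ) ^ 3 : ℕ) : ℝ) / (L : ℝ) ^ 3 * Real.log (1 / (1 - z)) * (L : ℝ) ^ 3 =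
      ((L ^ 3 - (L / ℓ * ℓ) ^ 3 : ℕ) : ℝ) * Real.log (1 / (1 - z)) := by
    field_simp
  linarith

/-- The partial sums of the free-magnon pressure with two regularizing parameters. -/
noncomputable def regSum (n R : ℕ) (z δ u : ℝ) : ℝ :=
  ∑ l ∈ Finset.range R, z ^ (l + 1) / ((l : ℝ) + 1) *
    (u + 1 / Real.sqrt (2 * Real.pi * ((l : ℝ) + 1) * n * (1 - δ))) ^ 3

theorem regSum_zero_le {R : ℕ} {z : ℝ} (hz : 0 ≤ z) (hz1 : z < 1) :
    regSum n R z 0 0 ≤ bosePressure n z := by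
  rw [bosePressure]
  refine le_trans (le_of_eq ?_) (mul_le_mul_of_nonneg_left
    ((bosePressure_summable hz hz1).sum_le_tsum (Finset.range R) fun l _ => by positivity)
    (by positivity))
  rw [regSum, Finset.mul_sum]
  refine Finset.sum_congr rfl fun l _ => ?_
  rw [zero_add, sub_zero, mul_one, show 2 * Real.pi * ((l : ℝ) + 1) * n =
    (2 * Real.pi * n) * ((l : ℝ) + 1) by ring, Real.sqrt_mul (by positivity)]
  rw [div_pow, mul_pow, one_pow, div_pow, one_pow]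
  field_simp

theorem tendsto_gauss_error {d : ℝ} (hd : 0 < d) :
    Tendsto (fun β : ℝ => Real.sqrt β * Real.exp (-(β * d))) atTop (𝓝 0) := by
  have h := tendsto_rpow_mul_exp_neg_mul_atTop_nhds_zero (1 / 2) d hd
  refine h.congr fun β => ?_
  rw [Real.sqrt_eq_rpow]
  ring_nf

theorem log_le_log_add {Z P e : ℝ} (hZ : 1 ≤ Z) (h : Z ≤ P + e) (hP : 1 ≤ P) (he : 0 ≤ e) :
    Real.log Z ≤ Real.log P + e := by
  refine le_trans (Real.log_le_log (by linarith) h) ?_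
  have h1 : P + e ≤ P * Real.exp e := by
    nlinarith [mul_le_mul_of_nonneg_left (Real.add_one_le_exp e) (show (0 : ℝ) ≤ P by linarith)]
  refine le_trans (Real.log_le_log (by linarith) h1) (le_of_eq ?_)
  rw [Real.log_mul (by linarith) (Real.exp_pos e).ne', Real.log_exp]

theorem scaled_term {β ℓ D : ℝ} (hβ : 0 < β) (hℓ : 0 < ℓ) (hD : 0 < D) (E : ℝ) :
    Real.sqrt β / ℓ * (1 + ℓ / Real.sqrt (β * D) + ℓ * E) =
      Real.sqrt β / ℓ + 1 / Real.sqrt D + Real.sqrt β * E := by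
  rw [Real.sqrt_mul hβ.le]
  have hs := Real.sqrt_pos.2 hβ
  have hd := Real.sqrt_pos.2 hD
  field_simp

theorem scaled_bound {β ℓ δ g z e : ℝ} (hn : 1 ≤ n) (hβ : 0 < β) (hℓ : 0 < ℓ) (hδ1 : δ < 1) (R : ℕ) :
    (Real.sqrt β / ℓ) ^ 3 * (∑ l ∈ Finset.range R, z ^ (l + 1) / ((l : ℝ) + 1) *
        (1 + ℓ / Real.sqrt (2 * Real.pi * (((l : ℝ) + 1) * β) * n * (1 - δ)) +
          ℓ * Real.exp (-(((l : ℝ) + 1) * β * g))) ^ 3 +
        z ^ (R + 1) / (1 - z) * (1 + ℓ / Real.sqrt (2 * Real.pi * β * n * (1 - δ)) +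
          ℓ * Real.exp (-(β * g))) ^ 3 + e) =
      ∑ l ∈ Finset.range R, z ^ (l + 1) / ((l : ℝ) + 1) * (Real.sqrt β / ℓ +
          1 / Real.sqrt (2 * Real.pi * ((l : ℝ) + 1) * n * (1 - δ)) +
            Real.sqrt β * Real.exp (-(β * (((l : ℝ) + 1) * g)))) ^ 3 +
        z ^ (R + 1) / (1 - z) * (Real.sqrt β / ℓ +
          1 / Real.sqrt (2 * Real.pi * ((((0 : ℕ) : ℝ)) + 1) * n * (1 - δ)) +
            Real.sqrt β * Real.exp (-(β * (((((0 : ℕ) : ℝ)) + 1) * g)))) ^ 3 +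
        (Real.sqrt β / ℓ) ^ 3 * e := by
  have hn0 : (0 : ℝ) < n := by exact_mod_cast hn
  have h1 : 0 < 1 - δ := by linarith
  have key : ∀ a : ℝ, 0 < a → Real.sqrt β / ℓ *
      (1 + ℓ / Real.sqrt (2 * Real.pi * (a * β) * n * (1 - δ)) + ℓ * Real.exp (-(a * β * g))) =
      Real.sqrt β / ℓ + 1 / Real.sqrt (2 * Real.pi * a * n * (1 - δ)) +
        Real.sqrt β * Real.exp (-(β * (a * g))) := by
    intro a ha
    rw [show 2 * Real.pi * (a * β) * n * (1 - δ) = β * (2 * Real.pi * a * n * (1 - δ)) by ring,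
      show a * β * g = β * (a * g) by ring]
    exact scaled_term hβ hℓ (by positivity) _
  rw [Nat.cast_zero, zero_add, ← key 1 one_pos, one_mul, mul_add, mul_add, Finset.mul_sum]
  congr 1
  congr 1
  · refine Finset.sum_congr rfl fun l _ => ?_
    rw [← key _ (by positivity), mul_pow, mul_left_comm]
  · rw [mul_pow, mul_left_comm]

/-- The sharp upper bound on the pressure at fixed fugacity. -/
theorem zPart_cube_upper (hn : 1 ≤ n) {z : ℝ} (hz : 0 < z) (hz1 : z < 1) {η : ℝ} (hη : 0 < η) :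
    ∀ᶠ β in atTop, ∀ᶠ N in atTop,
      Real.sqrt β ^ 3 * (Real.log (zPart n (@cAdj (2 * N + 1)) β z) /
        ((2 * N + 1 : ℕ) : ℝ) ^ 3) ≤ bosePressure n z + η := by
  have hn0 : (0 : ℝ) < n := by exact_mod_cast hn
  set cT : ℝ := Real.sqrt ((n : ℝ) / (4 * tileRatio n)) with hcT
  have hR1 := one_le_tileRatio hn
  have hcT0 : 0 < cT := Real.sqrt_pos.2 (by positivity)
  -- the cut-off of the geometric series
  set W : ℝ := (1 + 1 / Real.sqrt (Real.pi * n)) ^ 3 with hW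
  obtain ⟨R, hR⟩ : ∃ R : ℕ, z ^ (R + 1) / (1 - z) * W < η / 5 := by
    have h : Tendsto (fun R : ℕ => z ^ (R + 1) / (1 - z) * W) atTop (𝓝 0) := by
      simpa using (((tendsto_pow_atTop_nhds_zero_of_lt_one hz.le hz1).comp
        (tendsto_add_atTop_nat 1)).div_const (1 - z)).mul_const W
    exact (h.eventually (eventually_lt_nhds (show (0 : ℝ) < η / 5 by linarith))).exists
  -- the tile count
  set uM : ℕ → ℝ := fun M => 1 / ((M : ℝ) * cT) with huM
  have hreg : Tendsto (fun M : ℕ => regSum n R z (1 / ((M : ℝ) + 2)) (uM M)) atTop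
      (𝓝 (regSum n R z 0 0)) := by
    have h1 : Tendsto (fun M : ℕ => (1 : ℝ) / ((M : ℝ) + 2)) atTop (𝓝 0) :=
      tendsto_const_nhds.div_atTop (tendsto_atTop_add_const_right _ _ tendsto_natCast_atTop_atTop)
    have h2 : Tendsto uM atTop (𝓝 0) :=
      tendsto_const_nhds.div_atTop (tendsto_natCast_atTop_atTop.atTop_mul_const hcT0)
    simp only [regSum]
    refine tendsto_finsetSum _ fun l _ => Tendsto.const_mul _ (Tendsto.pow (h2.add ?_) 3)
    refine tendsto_const_nhds.div ?_ ?_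
    · exact ((h1.const_sub 1).const_mul _).sqrt
    · have : 0 < 2 * Real.pi * ((l : ℝ) + 1) * n * (1 - 0) := by positivity
      positivity
  have huM1 : ∀ᶠ M : ℕ in atTop, uM M ≤ 1 :=
    (tendsto_const_nhds.div_atTop
      (tendsto_natCast_atTop_atTop.atTop_mul_const hcT0)).eventually (eventually_le_nhds zero_lt_one)
  obtain ⟨M, ⟨hM, hMu⟩, hM1⟩ := (((hreg.eventually (eventually_lt_nhds
    (show regSum n R z 0 0 < regSum n R z 0 0 + η / 5 by linarith))).and huM1).and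
      (eventually_ge_atTop 1)).exists
  set δ : ℝ := 1 / ((M : ℝ) + 2) with hδdef
  have hM0 : (0 : ℝ) < M := by exact_mod_cast hM1
  have hδ : 0 < δ := by positivity
  have hδ2 : δ ≤ 1 / 2 := one_div_le_one_div_of_le two_pos (by linarith)
  set u : ℝ := uM M with hu
  have hu0 : 0 < u := by positivity
  -- the cut-off in the magnon number
  set r : ℝ := Real.sqrt z with hr
  have hr0 : 0 ≤ r := Real.sqrt_nonneg z
  have hr1 : r < 1 := by rw [hr, Real.sqrt_lt' one_pos]; simpa using hz1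
  set B : ℝ := (2 / (1 - r)) ^ (M ^ 3) with hB
  obtain ⟨J, hJ⟩ : ∃ J : ℕ, B * (r ^ (J + 1) / (1 - r)) < η / 5 := by
    have h : Tendsto (fun J : ℕ => B * (r ^ (J + 1) / (1 - r))) atTop (𝓝 0) := by
      simpa using ((((tendsto_pow_atTop_nhds_zero_of_lt_one hr0 hr1).comp
        (tendsto_add_atTop_nat 1)).div_const (1 - r)).const_mul B)
    exact (h.eventually (eventually_lt_nhds (show (0 : ℝ) < η / 5 by linarith))).exists
  set c : ℝ := (n : ℝ) / (4 * cT ^ 2 * (M : ℝ) ^ 2) with hc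
  have hc0 : 0 < c := by positivity
  set Q : ℝ := 1 + 2 / (Real.exp c - 1) with hQ
  set ℓ0 : ℝ → ℕ := fun β => ⌈cT * Real.sqrt β⌉₊ with hℓ0
  -- limits along β
  have hq : Tendsto (fun β : ℝ => Real.sqrt β / ((M * ℓ0 β : ℕ) : ℝ)) atTop (𝓝 u) := by
    have h1 : Tendsto (fun β : ℝ => (ℓ0 β : ℝ) / Real.sqrt β) atTop (𝓝 cT) :=
      (tendsto_nat_ceil_mul_div_atTop hcT0.le).comp Real.tendsto_sqrt_atTop
    have h2 := ((h1.const_mul (M : ℝ)).inv₀ (by positivity))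
    rw [hu, huM]; simp only [one_div]
    refine h2.congr fun β => ?_
    push_cast
    rw [← mul_div_assoc, inv_div]
  set A1 : ℝ := ∑ m ∈ Finset.range (J + 1), errConst n 6 m * Q ^ (3 * m) with hA1
  set A2 : ℝ := ∑ m ∈ Finset.range (J + 1), (n : ℝ) ^ (m - 2) * (m : ℝ) ^ m * Q ^ (3 * m) with hA2
  have herr : Tendsto (fun β : ℝ => (A1 * β + A2) / ((M * ℓ0 β : ℕ) : ℝ) ^ 3) atTop (𝓝 0) := by
    have h0 : Tendsto (fun β : ℝ => 1 / Real.sqrt β) atTop (𝓝 0) :=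
      tendsto_const_nhds.div_atTop Real.tendsto_sqrt_atTop
    have h1 : Tendsto (fun β : ℝ => (Real.sqrt β / ((M * ℓ0 β : ℕ) : ℝ)) ^ 3 *
        (A1 * (1 / Real.sqrt β) + A2 * (1 / Real.sqrt β) ^ 3)) atTop (𝓝 0) := by
      simpa using (hq.pow 3).mul ((h0.const_mul A1).add ((h0.pow 3).const_mul A2))
    refine h1.congr' ?_
    filter_upwards [eventually_gt_atTop (0 : ℝ)] with β hβ
    have hs := Real.sqrt_pos.2 hβ
    have e2 := Real.sq_sqrt hβ.le
    generalize hsdef : Real.sqrt β = s at hs e2 ⊢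
    have e3 : β = s ^ 2 := e2.symm
    subst e3
    field_simp
  set g : ℝ := 2 * n * δ ^ 2 / Real.pi ^ 2 with hg
  have hg0 : 0 < g := by positivity
  set T : ℕ → ℝ → ℝ := fun l β => Real.sqrt β / ((M * ℓ0 β : ℕ) : ℝ) +
    1 / Real.sqrt (2 * Real.pi * ((l : ℝ) + 1) * n * (1 - δ)) +
      Real.sqrt β * Real.exp (-(β * (((l : ℝ) + 1) * g))) with hT
  have hTlim : ∀ l : ℕ, Tendsto (T l) atTop
      (𝓝 (u + 1 / Real.sqrt (2 * Real.pi * ((l : ℝ) + 1) * n * (1 - δ)) + 0)) := fun l =>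
    (hq.add_const _).add (tendsto_gauss_error (mul_pos (by positivity) hg0))
  have hmain : Tendsto (fun β : ℝ => (∑ l ∈ Finset.range R, z ^ (l + 1) / ((l : ℝ) + 1) * T l β ^ 3) +
      z ^ (R + 1) / (1 - z) * T 0 β ^ 3 + (Real.sqrt β / ((M * ℓ0 β : ℕ) : ℝ)) ^ 3 *
        ((A1 * β + A2) / ((M * ℓ0 β : ℕ) : ℝ) ^ 3 + B * (r ^ (J + 1) / (1 - r)))) atTop
      (𝓝 ((∑ l ∈ Finset.range R, z ^ (l + 1) / ((l : ℝ) + 1) *
          (u + 1 / Real.sqrt (2 * Real.pi * ((l : ℝ) + 1) * n * (1 - δ)) + 0) ^ 3) +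
        z ^ (R + 1) / (1 - z) *
          (u + 1 / Real.sqrt (2 * Real.pi * (((0 : ℕ) : ℝ) + 1) * n * (1 - δ)) + 0) ^ 3 +
        u ^ 3 * (0 + B * (r ^ (J + 1) / (1 - r))))) :=
    ((tendsto_finsetSum _ fun l _ => ((hTlim l).pow 3).const_mul _).add
      (((hTlim 0).pow 3).const_mul _)).add ((hq.pow 3).mul (herr.add_const _))
  have hlimval : (∑ l ∈ Finset.range R, z ^ (l + 1) / ((l : ℝ) + 1) *
          (u + 1 / Real.sqrt (2 * Real.pi * ((l : ℝ) + 1) * n * (1 - δ)) + 0) ^ 3) +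
        z ^ (R + 1) / (1 - z) *
          (u + 1 / Real.sqrt (2 * Real.pi * (((0 : ℕ) : ℝ) + 1) * n * (1 - δ)) + 0) ^ 3 +
        u ^ 3 * (0 + B * (r ^ (J + 1) / (1 - r))) < bosePressure n z + 4 * η / 5 := by
    simp only [add_zero, zero_add, Nat.cast_zero, mul_one]
    have h1 : u ^ 3 * (B * (r ^ (J + 1) / (1 - r))) ≤ η / 5 := by
      refine le_trans ?_ hJ.le
      exact mul_le_of_le_one_left (mul_nonneg (pow_nonneg (div_nonneg two_pos.le (by linarith)) _)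
        (div_nonneg (pow_nonneg hr0 _) (by linarith))) (pow_le_one₀ hu0.le hMu)
    have h2 : z ^ (R + 1) / (1 - z) *
        (u + 1 / Real.sqrt (2 * Real.pi * n * (1 - δ))) ^ 3 ≤ η / 5 := by
      refine le_trans ?_ hR.le
      rw [hW]
      refine mul_le_mul_of_nonneg_left (pow_le_pow_left₀ (by positivity) (add_le_add hMu ?_) 3)
        (div_nonneg (pow_nonneg hz.le _) (by linarith))
      refine one_div_le_one_div_of_le (Real.sqrt_pos.2 (by positivity)) (Real.sqrt_le_sqrt ?_)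
      have := mul_le_mul_of_nonneg_left (show (1 : ℝ) / 2 ≤ 1 - δ by linarith)
        (show (0 : ℝ) ≤ 2 * Real.pi * n by positivity)
      linarith
    have h3 := regSum_zero_le (n := n) (R := R) hz.le hz1
    simp only [regSum] at hM h3
    linarith
  have hev1 := hmain.eventually (eventually_lt_nhds hlimval)
  filter_upwards [hev1, eventually_gt_atTop (0 : ℝ),
    (Real.tendsto_sqrt_atTop.const_mul_atTop hcT0).eventually (eventually_ge_atTop 1)]
    with β hβ1 hβ0 hβc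
  set l0 := ℓ0 β with hl0
  set ℓ := M * l0 with hℓ
  have hl0pos : 0 < l0 := Nat.ceil_pos.2 (by positivity)
  have hℓpos : 0 < ℓ := Nat.mul_pos hM1 hl0pos
  have hℓR : (0 : ℝ) < (ℓ : ℝ) := by exact_mod_cast hℓpos
  have hl02 : (l0 : ℝ) ≤ 2 * (cT * Real.sqrt β) := by
    have := Nat.ceil_lt_add_one (show 0 ≤ cT * Real.sqrt β by positivity)
    simp only [hl0, hℓ0]
    linarith
  have hl0sq : (l0 : ℝ) ^ 2 ≤ 4 * cT ^ 2 * β := by
    refine le_trans (pow_le_pow_left₀ (Nat.cast_nonneg l0) hl02 2) (le_of_eq ?_)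
    rw [mul_pow, mul_pow, Real.sq_sqrt hβ0.le]
    ring
  have hcT2 : 4 * cT ^ 2 * tileRatio n = n := by
    rw [hcT, Real.sq_sqrt (by positivity)]; field_simp
  have ht : tileRatio n * (l0 : ℝ) ^ 2 ≤ n * β := by
    refine le_trans (mul_le_mul_of_nonneg_left hl0sq (by linarith)) (le_of_eq ?_)
    calc tileRatio n * (4 * cT ^ 2 * β) = 4 * cT ^ 2 * tileRatio n * β := by ring
      _ = _ := by rw [hcT2]
  have hct : c ≤ (n : ℝ) * β / ((ℓ : ℕ) : ℝ) ^ 2 := by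
    rw [hc, div_le_div_iff₀ (by positivity) (by positivity)]
    have e : ((ℓ : ℕ) : ℝ) ^ 2 = (M : ℝ) ^ 2 * (l0 : ℝ) ^ 2 := by rw [hℓ]; push_cast; ring
    rw [e]
    have := mul_le_mul_of_nonneg_left hl0sq (show (0 : ℝ) ≤ (n : ℝ) * (M : ℝ) ^ 2 by positivity)
    linarith
  have hbox := zPart_box_le (J := J) hn hl0pos hM1 ht hc0 hct hz hz1
  set e : ℝ := (A1 * β + A2) / ((ℓ : ℕ) : ℝ) ^ 3 + B * (r ^ (J + 1) / (1 - r)) with he
  have hsum : ((∑ m ∈ Finset.range (J + 1), (errConst n 6 m * Q ^ (3 * m) * β +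
      (n : ℝ) ^ (m - 2) * (m : ℝ) ^ m * Q ^ (3 * m))) / ((ℓ : ℕ) : ℝ) ^ 3 +
        B * (r ^ (J + 1) / (1 - r))) = e := by
    rw [he, hA1, hA2, Finset.sum_mul, ← Finset.sum_add_distrib]
  rw [← hℓ, hsum] at hbox
  set prodB := ∏ k : Cube ℓ, 1 / (1 - z * cubeWt n ℓ β k) with hprod
  have hprod1 : 1 ≤ prodB := Finset.one_le_prod fun k _ => by
    have h1 := mul_le_of_le_one_right hz.le (cubeWt_le_one n hβ0.le k)
    have h2 := mul_nonneg hz.le (cubeWt_nonneg n β k)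
    rw [one_le_div (by linarith)]
    linarith
  have he0 : 0 ≤ e := by
    have hQ0 : 0 ≤ Q := by
      have := sub_pos.mpr (Real.one_lt_exp_iff.mpr hc0)
      positivity
    have : 0 ≤ A1 := Finset.sum_nonneg fun m _ => by unfold errConst; positivity
    have : 0 ≤ A2 := Finset.sum_nonneg fun m _ => by positivity
    have : 0 ≤ r ^ (J + 1) / (1 - r) := div_nonneg (pow_nonneg hr0 _) (by linarith)
    have : 0 ≤ B := pow_nonneg (div_nonneg two_pos.le (by linarith)) _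
    positivity
  have hlog : Real.log (zPart n (@cAdj ℓ) β z) ≤ Real.log prodB + e :=
    log_le_log_add (one_le_zPart (ℓ := ℓ) hn hβ0.le hz.le) hbox hprod1 he0
  have hlog2 := log_boson_le (ℓ := ℓ) hn hℓpos hβ0 hz.le hz1 hδ (by linarith : δ < 1) R
  rw [← hg] at hlog2
  have hscaled : (Real.sqrt β / (ℓ : ℝ)) ^ 3 * Real.log (zPart n (@cAdj ℓ) β z) ≤
      bosePressure n z + 4 * η / 5 := by
    refine le_trans (mul_le_mul_of_nonneg_left (le_trans hlog (add_le_add hlog2 (le_refl e)))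
      (by positivity)) (le_trans (le_of_eq ?_) hβ1.le)
    rw [scaled_bound hn hβ0 hℓR (by linarith) R]
  have htend : Tendsto (fun N : ℕ => Real.sqrt β ^ 3 *
      ((((2 * N + 1) ^ 3 - ((2 * N + 1) / ℓ * ℓ) ^ 3 : ℕ) : ℝ) / ((2 * N + 1 : ℕ) : ℝ) ^ 3 *
        Real.log (1 / (1 - z)))) atTop (𝓝 0) := by
    have h := (((tendsto_shell ℓ hℓpos).comp (tendsto_atTop_mono (fun N : ℕ =>
      show N ≤ 2 * N + 1 by omega) tendsto_id)).mul_const (Real.log (1 / (1 - z)))).const_mul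
        (Real.sqrt β ^ 3)
    simpa using h
  filter_upwards [htend.eventually (eventually_lt_nhds (show (0 : ℝ) < η / 5 by linarith))] with N hN
  have h := mul_le_mul_of_nonneg_left
    (log_zPart_tiling (L := 2 * N + 1) hn hℓpos (Nat.succ_pos _) hβ0.le hz hz1)
    (show (0 : ℝ) ≤ Real.sqrt β ^ 3 by positivity)
  rw [mul_add] at h
  have e2 : Real.sqrt β ^ 3 * (Real.log (zPart n (@cAdj ℓ) β z) / (ℓ : ℝ) ^ 3) =
      (Real.sqrt β / (ℓ : ℝ)) ^ 3 * Real.log (zPart n (@cAdj ℓ) β z) := by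
    rw [div_pow]; ring
  linarith

end Vale.Agent.P361.Field
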