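import Vale.Agent.P361.Main
import Vale.Agent.P361.Field.UpperLimit

/-!
The Heisenberg model on the cube, expressed through the magnon partition function of the graph.
-/

open Matrix Finset

namespace Vale.Agent.P361.Field

variable {n N : ℕ}

/-- The real matrix of a real operator, read over the complex numbers. -/
noncomputable abbrev cx {ι : Type*} (X : Matrix ι ι ℝ) : Matrix ι ι ℂ := X.map Complex.ofRealHom

theorem atSite_cx (x : Site N) (M : Mat1 n) : atSite x (cx M) = cx (loc x M) := by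
  ext σ τ
  simp only [atSite_apply, cx, Matrix.map_apply, loc_apply]
  split_ifs <;> simp

theorem raiseMat_cx (n : ℕ) : raiseMat n = cx (rai n) := by
  ext a b
  simp only [raiseMat, rai, cx, Matrix.map_apply, of_apply]
  split_ifs <;> simp

theorem lowerMat_cx (n : ℕ) : lowerMat n = cx (low n) := by
  rw [lowerMat, raiseMat_cx, low, cx, cx, transpose_map]

theorem spin3_cx (n : ℕ) : spin3 n = cx (zed n) := by
  rw [spin3, zed, cx, diagonal_map (map_zero _)]
  congr 1

theorem cx_mul {ι : Type*} [Fintype ι] (X Y : Matrix ι ι ℝ) : cx X * cx Y = cx (X * Y) :=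
  (Matrix.map_mul).symm

theorem spinDot_cx (x y : Site N) :
    spinDot n x y = cx (((n : ℝ) / 2) ^ 2 • 1 - bond n x y) := by
  rw [spinDot_eq, spin3_cx, lowerMat_cx, raiseMat_cx, bond, sub_sub_cancel]
  simp only [atSite_cx, cx_mul]
  ext σ τ
  simp [Matrix.add_apply, Matrix.smul_apply, Matrix.mul_apply]

theorem sum_fin_ind (L k : ℕ) :
    (∑ b : Fin L, if (b : ℕ) = k then (1 : ℝ) else 0) = if k < L then 1 else 0 := by
  rw [Fin.sum_univ_eq_sum_range (fun b => if b = k then (1 : ℝ) else 0), Finset.sum_ite_eq']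
  simp

theorem line_pairs (m : ℕ) :
    (∑ a : Fin (m + 1), ∑ b : Fin (m + 1), if lineAdj a b then (1 : ℝ) else 0) = 2 * m := by
  have e : ∀ a b : Fin (m + 1), (if lineAdj a b then (1 : ℝ) else 0) =
      (if (b : ℕ) = (a : ℕ) + 1 then 1 else 0) +
        (if 0 < (a : ℕ) then (if (b : ℕ) = (a : ℕ) - 1 then 1 else 0) else 0) := by
    intro a b
    simp only [lineAdj, abs_eq (zero_le_one' ℤ)]
    split_ifs <;> first | (exfalso; omega) | norm_num
  have e2 : ∀ a : Fin (m + 1), (∑ b : Fin (m + 1), if lineAdj a b then (1 : ℝ) else 0) =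
      (if (a : ℕ) < m then (1 : ℝ) else 0) + (if 0 < (a : ℕ) then 1 else 0) := by
    intro a
    have ha := a.isLt
    simp only [e, Finset.sum_add_distrib]
    congr 1
    · rw [sum_fin_ind]
      simp only [Nat.add_lt_add_iff_right]
    · split_ifs
      · rw [sum_fin_ind, if_pos (by omega)]
      · exact Finset.sum_const_zero
  simp only [e2, Finset.sum_add_distrib]
  rw [Fin.sum_univ_eq_sum_range (fun a => if a < m then (1 : ℝ) else 0),
    Fin.sum_univ_eq_sum_range (fun a => if 0 < a then (1 : ℝ) else 0), Finset.sum_range_succ,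
    Finset.sum_range_succ', Finset.sum_congr rfl (fun a ha => if_pos (Finset.mem_range.1 ha))]
  simp
  ring

theorem cube_pairs (m : ℕ) :
    (∑ x : Cube (m + 1), ∑ y : Cube (m + 1), if cAdj x y then (1 : ℝ) else 0) =
      6 * ((m : ℝ) + 1) ^ 2 * m := by
  simp only [sum_cAdj]
  rw [Finset.sum_comm]
  have e : ∀ d : Fin 3, (∑ x : Cube (m + 1), ∑ a, if lineAdj (x d) a then (1 : ℝ) else 0) =
      ((m : ℝ) + 1) ^ 2 * (2 * m) := by
    intro d
    have h := Fintype.prod_sum (fun (j : Fin 3) (b : Fin (m + 1)) =>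
      if j = d then ∑ a, (if lineAdj b a then (1 : ℝ) else 0) else 1)
    simp only [Finset.prod_ite_eq', Finset.mem_univ, if_true] at h
    rw [← h, ← Finset.mul_prod_erase _ _ (Finset.mem_univ d)]
    simp only [↓reduceIte]
    rw [line_pairs,
      Finset.prod_congr rfl (g := fun _ => ((m : ℝ) + 1)) (fun j hj => by
        simp [Finset.ne_of_mem_erase hj]), Finset.prod_const,
      Finset.card_erase_of_mem (Finset.mem_univ d), Finset.card_univ, Fintype.card_fin]
    ring
  simp only [e, Finset.sum_const, Finset.card_univ, Fintype.card_fin, nsmul_eq_mul]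
  push_cast
  ring

/-- The ground-state energy (with opposite sign). -/
noncomputable def groundC (n N : ℕ) : ℝ :=
  3 * ((n : ℝ) / 2) ^ 2 * ((2 * N + 1 : ℕ) : ℝ) ^ 2 * (2 * N : ℕ)

theorem hamiltonian_cx (n N : ℕ) :
    hamiltonian n N = cx (energy n (@cAdj (2 * N + 1))) - (groundC n N : ℂ) • 1 := by
  have e : ∀ x y : Site N, (if Adj x y then spinDot n x y else 0) =
      ((((n : ℝ) / 2) ^ 2 * (if cAdj x y then 1 else 0) : ℝ) : ℂ) • (1 : Op n N) -
        cx (if cAdj x y then bond n x y else 0) := by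
    intro x y
    by_cases h : cAdj x y
    · have hA : Adj x y := h
      simp only [h, hA, if_true, spinDot_cx]
      ext σ τ
      simp [cx, one_apply]
      split_ifs <;> simp
    · have hA : ¬ Adj x y := h
      simp only [h, hA, if_false]
      ext σ τ
      simp [cx]
  rw [hamiltonian]
  simp only [e, Finset.sum_sub_distrib, ← Finset.sum_smul, ← Complex.ofReal_sum, ← Finset.mul_sum]
  rw [cube_pairs (2 * N), energy]
  have es : ∀ f : Site N → Site N → ROp n (Site N),
      (∑ x, ∑ y, cx (f x y)) = cx (∑ x, ∑ y, f x y) := by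
    intro f; ext σ τ; simp [cx, Matrix.sum_apply]
  rw [es]
  ext σ τ
  simp only [cx, Matrix.sub_apply, Matrix.smul_apply, Matrix.map_apply, smul_eq_mul, groundC,
    Complex.ofRealHom_eq_coe]
  push_cast
  ring

theorem magnetization_cx (n N : ℕ) :
    magnetization n N = (((n : ℝ) / 2 * Fintype.card (Site N) : ℝ) : ℂ) • 1 -
      cx (numOp n (Site N)) := by
  simp only [magnetization, spin3_cx, atSite_cx, zed, loc_diagonal]
  ext σ τ
  simp only [Matrix.sum_apply, cx, Matrix.map_apply, Matrix.sub_apply, Matrix.smul_apply, numOp,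
    diagonal_apply, one_apply, smul_eq_mul]
  split_ifs with h
  · simp [size, Finset.sum_sub_distrib, Finset.card_univ]
    ring
  · simp

/-- The scalar part of the Gibbs exponent. -/
noncomputable def shiftC (n N : ℕ) (β h : ℝ) : ℝ :=
  β * (groundC n N + h * ((n : ℝ) / 2 * Fintype.card (Site N)))

theorem gibbsMat_cx (n N : ℕ) (β h : ℝ) :
    gibbsMat n N β h = expo n (@cAdj (2 * N + 1)) β (β * h) - (shiftC n N β h : ℂ) • 1 := by
  rw [gibbsMat, hamiltonian_cx, magnetization_cx, expo]
  ext σ τ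
  simp only [cx, Matrix.sub_apply, Matrix.smul_apply, Matrix.map_apply, Matrix.add_apply,
    smul_eq_mul, shiftC, Complex.ofRealHom_eq_coe]
  push_cast
  ring

open scoped Matrix.Norms.Operator in
theorem partFn_shift {ι : Type*} [Fintype ι] [DecidableEq ι] (K : Matrix ι ι ℂ) (a : ℝ) :
    partFn (K - (a : ℂ) • 1) = Real.exp a * partFn K := by
  have h : -(K - (a : ℂ) • (1 : Matrix ι ι ℂ)) = -K + (a : ℂ) • 1 := by abel
  rw [partFn, partFn, h, Matrix.exp_add_of_commute _ _ ((Commute.one_right _).smul_right _)]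
  have e : NormedSpace.exp ((a : ℂ) • (1 : Matrix ι ι ℂ)) = ((Real.exp a : ℝ) : ℂ) • 1 := by
    rw [smul_one_eq_diagonal, Matrix.exp_diagonal, smul_one_eq_diagonal]
    congr 1
    funext i
    rw [Pi.coe_exp, Complex.ofReal_exp, Complex.exp_eq_exp_ℂ]
  rw [e, mul_smul_comm, mul_one, trace_smul, smul_eq_mul, Complex.re_ofReal_mul]

/-- The excess pressure above the ground state, from the magnon partition function. -/
theorem pressureN_zPart {β : ℝ} (hn : 1 ≤ n) (hβ : 0 < β) (h : ℝ) :
    pressureN n N β h = 3 * ((n : ℝ) / 2) ^ 2 * (1 - 1 / ((2 * N + 1 : ℕ) : ℝ)) +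
      h * ((n : ℝ) / 2) + Real.log (zPart n (@cAdj (2 * N + 1)) β (Real.exp (-(β * h)))) /
        (β * ((2 * N + 1 : ℕ) : ℝ) ^ 3) := by
  have hz := one_le_zPart (ℓ := 2 * N + 1) hn hβ.le (Real.exp_pos (-(β * h))).le
  have hp := partFn_expo (n := n) (G := @cAdj (2 * N + 1)) cAdj_ne β (β * h)
  have hL : ((2 * N + 1 : ℕ) : ℝ) ≠ 0 := by positivity
  have hcard : (Fintype.card (Site N) : ℝ) = ((2 * N + 1 : ℕ) : ℝ) ^ 3 := by simp
  rw [pressureN_eq, gibbsMat_cx, partFn_shift, hp,
    Real.log_mul (Real.exp_pos _).ne' (by linarith), Real.log_exp, shiftC, groundC, hcard]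
  field_simp
  push_cast
  ring

end Vale.Agent.P361.Field
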