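import Vale.Agent.P361.Field.Heat

/-!
The cube with free boundary: its exact one-magnon eigenmodes (discrete cosine transform) and the
resulting heat kernel.
-/

open Matrix Finset

namespace Vale.Agent.P361.Field

/-- The cube of side `ℓ`. -/
abbrev Cube (ℓ : ℕ) := Fin 3 → Fin ℓ

/-- Nearest neighbours on the cube. -/
def cAdj {ℓ : ℕ} (x y : Cube ℓ) : Prop :=
  ∑ j, |((x j : ℕ) : ℤ) - ((y j : ℕ) : ℤ)| = 1

instance {ℓ : ℕ} : DecidableRel (@cAdj ℓ) := fun x y =>
  inferInstanceAs (Decidable ((∑ j, |((x j : ℕ) : ℤ) - ((y j : ℕ) : ℤ)|) = 1))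

/-- Nearest neighbours on the segment. -/
def lineAdj {ℓ : ℕ} (a b : Fin ℓ) : Prop := |((a : ℕ) : ℤ) - ((b : ℕ) : ℤ)| = 1

instance {ℓ : ℕ} : DecidableRel (@lineAdj ℓ) := fun a b =>
  inferInstanceAs (Decidable (|((a : ℕ) : ℤ) - ((b : ℕ) : ℤ)| = 1))

variable {ℓ : ℕ}

theorem cAdj_ne (x y : Cube ℓ) (h : cAdj x y) : x ≠ y := by
  rintro rfl; simp [cAdj] at h

theorem cAdj_symm (x y : Cube ℓ) (h : cAdj x y) : cAdj y x := by
  simp only [cAdj] at h ⊢
  rw [← h]
  exact Finset.sum_congr rfl fun j _ => abs_sub_comm _ _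

theorem cAdj_update (x : Cube ℓ) (d : Fin 3) (a : Fin ℓ) :
    cAdj x (Function.update x d a) ↔ lineAdj (x d) a := by
  simp only [cAdj, lineAdj]
  rw [Finset.sum_eq_single d (fun i _ hi => by simp [hi]) (by simp), Function.update_self]

theorem cAdj_exists {x y : Cube ℓ} (h : cAdj x y) :
    ∃ d, y = Function.update x d (y d) ∧ lineAdj (x d) (y d) := by
  obtain ⟨d, hd⟩ : ∃ d, x d ≠ y d := by
    by_contra! hc; exact cAdj_ne x y h (funext hc)
  have hd' : 1 ≤ |((x d : ℕ) : ℤ) - (y d : ℕ)| :=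
    Int.one_le_abs (sub_ne_zero.2 fun e => hd (Fin.ext (by exact_mod_cast e)))
  have hsplit : |((x d : ℕ) : ℤ) - (y d : ℕ)| + ∑ i ∈ Finset.univ.erase d,
      |((x i : ℕ) : ℤ) - (y i : ℕ)| = 1 := by
    rw [Finset.add_sum_erase _ (fun i => |((x i : ℕ) : ℤ) - (y i : ℕ)|) (Finset.mem_univ d)]
    exact h
  have h0 : 0 ≤ ∑ i ∈ Finset.univ.erase d, |((x i : ℕ) : ℤ) - (y i : ℕ)| :=
    Finset.sum_nonneg fun i _ => abs_nonneg _
  refine ⟨d, funext fun i => ?_, show |((x d : ℕ) : ℤ) - (y d : ℕ)| = 1 by omega⟩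
  by_cases hi : i = d
  · subst hi; simp
  · rw [Function.update_of_ne hi]
    have h1 := Finset.single_le_sum (f := fun i => |((x i : ℕ) : ℤ) - (y i : ℕ)|)
      (fun i _ => abs_nonneg _) (Finset.mem_erase.2 ⟨hi, Finset.mem_univ i⟩)
    have h2 := abs_nonneg (((x i : ℕ) : ℤ) - (y i : ℕ))
    have h3 : |((x i : ℕ) : ℤ) - (y i : ℕ)| = 0 := by omega
    rw [abs_eq_zero, sub_eq_zero] at h3
    exact Fin.ext (by omega)

/-- Neighbour sums decompose over the coordinate directions. -/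
theorem sum_cAdj {M : Type*} [AddCommMonoid M] (x : Cube ℓ) (f : Cube ℓ → M) :
    (∑ y, if cAdj x y then f y else 0) =
      ∑ d, ∑ a, if lineAdj (x d) a then f (Function.update x d a) else 0 := by
  rw [← Finset.sum_filter, ← Finset.sum_product']
  rw [← Finset.sum_filter]
  symm
  refine Finset.sum_bij (fun q _ => Function.update x q.1 q.2) ?_ ?_ ?_ ?_
  · intro q hq
    exact Finset.mem_filter.2
      ⟨Finset.mem_univ _, (cAdj_update x q.1 q.2).2 (Finset.mem_filter.1 hq).2⟩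
  · intro q hq q' hq' h
    have hq1 := (Finset.mem_filter.1 hq).2
    have hne : q.2 ≠ x q.1 := by
      intro e; rw [e] at hq1; simp [lineAdj] at hq1
    have hd : q.1 = q'.1 := by
      by_contra hd
      have := congrFun h q.1
      rw [Function.update_self, Function.update_of_ne hd] at this
      exact hne this
    have := congrFun h q.1
    rw [Function.update_self, hd, Function.update_self] at this
    exact Prod.ext hd this
  · intro y hy
    obtain ⟨d, hyd, hl⟩ := cAdj_exists (Finset.mem_filter.1 hy).2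
    exact ⟨(d, y d), Finset.mem_filter.2 ⟨by simp, hl⟩, hyd.symm⟩
  · intros; rfl

theorem cAdj_card_le (x : Cube ℓ) : (Finset.univ.filter fun y => cAdj x y).card ≤ 6 := by
  rw [Finset.card_eq_sum_ones, Finset.sum_filter, sum_cAdj x fun _ => (1 : ℕ)]
  calc ∑ d, ∑ a, (if lineAdj (x d) a then (1 : ℕ) else 0) ≤ ∑ _d : Fin 3, 2 := by
        refine Finset.sum_le_sum fun d _ => ?_
        rw [← Finset.sum_filter, ← Finset.card_eq_sum_ones]
        have h : (Finset.univ.filter fun a => lineAdj (x d) a).image (fun a : Fin ℓ => (a : ℕ)) ⊆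
            {(x d : ℕ) - 1, (x d : ℕ) + 1} := by
          intro k hk
          obtain ⟨a, ha, rfl⟩ := Finset.mem_image.1 hk
          have ha' := (Finset.mem_filter.1 ha).2
          simp only [lineAdj] at ha'
          simp only [Finset.mem_insert, Finset.mem_singleton]
          rcases (abs_eq zero_le_one).1 ha' with e | e <;> omega
        have h2 := Finset.card_le_card h
        rw [Finset.card_image_of_injective _ Fin.val_injective] at h2
        exact le_trans h2 Finset.card_le_two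
    _ = 6 := by simp

/-- Normalization of the cosine modes. -/
noncomputable def modeC (ℓ j : ℕ) : ℝ := Real.sqrt ((if j = 0 then 1 else 2) / ℓ)

/-- The cosine modes of the segment. -/
noncomputable def mode (ℓ : ℕ) (j a : Fin ℓ) : ℝ :=
  modeC ℓ j * Real.cos (Real.pi * (j : ℕ) / (2 * ℓ) * (2 * (a : ℕ) + 1))

/-- The one-magnon eigenvalues on the segment. -/
noncomputable def modeE (n ℓ : ℕ) (j : Fin ℓ) : ℝ :=
  (n : ℝ) * (1 - Real.cos (Real.pi * (j : ℕ) / ℓ))

theorem modeE_nonneg (n : ℕ) (j : Fin ℓ) : 0 ≤ modeE n ℓ j :=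
  mul_nonneg (Nat.cast_nonneg n) (sub_nonneg.2 (Real.cos_le_one _))

/-- The kernel of the one-dimensional heat flow. -/
noncomputable def lineKer (n ℓ : ℕ) (s : ℝ) (a b : Fin ℓ) : ℝ :=
  ∑ j, Real.exp (-(s * modeE n ℓ j)) * (mode ℓ j a * mode ℓ j b)

/-- The kernel of the heat flow of one magnon on the cube. -/
noncomputable def cubeKer (n ℓ : ℕ) (s : ℝ) (x y : Cube ℓ) : ℝ :=
  ∏ d, lineKer n ℓ s (x d) (y d)

theorem sum_lineAdj (a : Fin ℓ) (g : ℤ → ℝ) :
    (∑ b : Fin ℓ, if lineAdj a b then g (b : ℕ) else 0) =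
      (if (a : ℕ) = 0 then 0 else g ((a : ℕ) - 1 : ℤ)) +
        if (a : ℕ) + 1 = ℓ then 0 else g ((a : ℕ) + 1 : ℤ) := by
  have hsp : ∀ b : Fin ℓ, (if lineAdj a b then g (b : ℕ) else 0) =
      (if (b : ℕ) + 1 = (a : ℕ) then g (b : ℕ) else 0) +
        if (b : ℕ) = (a : ℕ) + 1 then g (b : ℕ) else 0 := by
    intro b
    by_cases h : lineAdj a b
    · rw [if_pos h]
      simp only [lineAdj] at h
      rcases (abs_eq zero_le_one).1 h with e | e
      · rw [if_pos (by omega), if_neg (by omega), add_zero]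
      · rw [if_neg (by omega), if_pos (by omega), zero_add]
    · rw [if_neg h]
      rw [if_neg, if_neg, add_zero]
      · intro e; apply h; simp only [lineAdj]; rw [e]; push_cast; simp
      · intro e; apply h; simp only [lineAdj]; rw [← e]; push_cast; simp
  simp only [hsp, Finset.sum_add_distrib]
  have ha := a.isLt
  congr 1
  · by_cases h0 : (a : ℕ) = 0
    · rw [if_pos h0]
      exact Finset.sum_eq_zero fun b _ => if_neg (by omega)
    · rw [if_neg h0, Fintype.sum_eq_single ⟨(a : ℕ) - 1, by omega⟩]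
      · rw [if_pos (by simp only; omega)]
        congr 1
        simp only
        omega
      · intro b hb
        exact if_neg fun e => hb (Fin.ext (by simp only; omega))
  · by_cases h1 : (a : ℕ) + 1 = ℓ
    · rw [if_pos h1]
      exact Finset.sum_eq_zero fun b _ => if_neg (by have := b.isLt; omega)
    · rw [if_neg h1, Fintype.sum_eq_single ⟨(a : ℕ) + 1, by omega⟩]
      · rw [if_pos rfl]
        congr 1
      · intro b hb
        exact if_neg fun e => hb (Fin.ext (by simp only; omega))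

theorem mode_eigen (n : ℕ) (j a : Fin ℓ) :
    (n : ℝ) / 2 * ∑ b, (if lineAdj a b then mode ℓ j a - mode ℓ j b else 0) =
      modeE n ℓ j * mode ℓ j a := by
  have hℓ : (ℓ : ℝ) ≠ 0 := by exact_mod_cast (Nat.pos_iff_ne_zero.1 (Fin.pos a))
  set α : ℝ := Real.pi * (j : ℕ) / (2 * ℓ) with hα
  set C : ℤ → ℝ := fun b => Real.cos (α * (2 * (b : ℝ) + 1)) with hC
  have hm : ∀ b : Fin ℓ, mode ℓ j b = modeC ℓ j * C (b : ℕ) := by
    intro b; simp [mode, hC, hα]
  have hzero : ∀ b : Fin ℓ, (if lineAdj a b then mode ℓ j a - mode ℓ j b else 0) =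
      modeC ℓ j * (if lineAdj a b then (fun z => C (a : ℕ) - C z) ((b : ℕ) : ℤ) else 0) := by
    intro b
    split_ifs
    · rw [hm, hm]; ring
    · ring
  simp only [hzero, ← Finset.mul_sum]
  rw [sum_lineAdj a (fun z => C (a : ℕ) - C z)]
  have e1 : (if (a : ℕ) = 0 then 0 else C (a : ℕ) - C ((a : ℕ) - 1 : ℤ)) =
      C (a : ℕ) - C ((a : ℕ) - 1 : ℤ) := by
    split_ifs with h
    · simp only [hC, h]; norm_num
    · rfl
  have e2 : (if (a : ℕ) + 1 = ℓ then 0 else C (a : ℕ) - C ((a : ℕ) + 1 : ℤ)) =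
      C (a : ℕ) - C ((a : ℕ) + 1 : ℤ) := by
    split_ifs with h
    · have h' : ((a : ℕ) : ℝ) + 1 = ℓ := by exact_mod_cast h
      simp only [hC]
      push_cast
      rw [show α * (2 * (((a : ℕ) : ℝ) + 1) + 1) =
          ((2 * (j : ℕ) : ℕ) : ℝ) * Real.pi - α * (2 * ((a : ℕ) : ℝ) + 1) by
        push_cast; rw [hα, ← h']; field_simp; ring]
      have e3 : ((2 * (j : ℕ) : ℕ) : ℝ) * Real.pi = ((j : ℕ) : ℝ) * (2 * Real.pi) := by
        push_cast; ring
      rw [e3, Real.cos_nat_mul_two_pi_sub, sub_self]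
    · rfl
  rw [e1, e2, hm a, modeE]
  have e4 : C ((a : ℕ) - 1 : ℤ) + C ((a : ℕ) + 1 : ℤ) =
      2 * Real.cos (Real.pi * (j : ℕ) / ℓ) * C (a : ℕ) := by
    simp only [hC]
    push_cast
    rw [Real.two_mul_cos_mul_cos, hα]
    congr 1
    · rw [← Real.cos_neg (Real.pi * (j : ℕ) / ℓ - _)]
      congr 1; field_simp; ring
    · congr 1; field_simp; ring
  linear_combination (-((n : ℝ) / 2) * modeC ℓ j) * e4

theorem sum_cos_odd {k : ℕ} (hk : 0 < k) (hk2 : k < 2 * ℓ) :
    ∑ a : Fin ℓ, Real.cos (Real.pi * k / (2 * ℓ) * (2 * ((a : ℕ) : ℝ) + 1)) = 0 := by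
  have hℓ : 0 < (ℓ : ℝ) := by exact_mod_cast (by omega : 0 < ℓ)
  set α : ℝ := Real.pi * k / (2 * ℓ) with hα
  have hsin : Real.sin α ≠ 0 := by
    refine (Real.sin_pos_of_pos_of_lt_pi ?_ ?_).ne'
    · rw [hα]; positivity
    · rw [hα, div_lt_iff₀ (by positivity)]
      have : (k : ℝ) < 2 * ℓ := by exact_mod_cast hk2
      exact mul_lt_mul_of_pos_left this Real.pi_pos
  have key : ∀ a : ℕ, 2 * Real.sin α * Real.cos (α * (2 * (a : ℝ) + 1)) =
      Real.sin (2 * α * ((a + 1 : ℕ) : ℝ)) - Real.sin (2 * α * (a : ℝ)) := by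
    intro a
    rw [Real.sin_sub_sin]
    push_cast
    congr 2 <;> ring_nf
  rw [Fin.sum_univ_eq_sum_range (fun a : ℕ => Real.cos (α * (2 * (a : ℝ) + 1)))]
  have h := Finset.sum_range_sub (fun a : ℕ => Real.sin (2 * α * (a : ℝ))) ℓ
  simp only [← key, Nat.cast_zero, mul_zero, Real.sin_zero, sub_zero, ← Finset.mul_sum] at h
  rw [show 2 * α * (ℓ : ℝ) = (k : ℝ) * Real.pi by rw [hα]; field_simp,
    Real.sin_nat_mul_pi] at h
  exact (mul_eq_zero.1 h).resolve_left (mul_ne_zero two_ne_zero hsin)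

theorem mode_orth (j k : Fin ℓ) : ∑ a, mode ℓ j a * mode ℓ k a = if j = k then 1 else 0 := by
  have hℓ' : 0 < ℓ := Fin.pos j
  have hℓ : (0 : ℝ) < ℓ := by exact_mod_cast hℓ'
  set B : ℕ → ℝ := fun q => ∑ a : Fin ℓ, Real.cos (Real.pi * q / (2 * ℓ) * (2 * ((a : ℕ) : ℝ) + 1))
    with hB
  have hB0 : B 0 = ℓ := by simp [hB]
  have hBz : ∀ q : ℕ, 0 < q → q < 2 * ℓ → B q = 0 := fun q h1 h2 => sum_cos_odd h1 h2
  wlog hjk : (k : ℕ) ≤ (j : ℕ) generalizing j k
  · rw [Finset.sum_congr rfl fun a _ => mul_comm (mode ℓ j a) (mode ℓ k a),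
      this k j (le_of_not_ge hjk)]
    simp only [eq_comm]
  have hsum : ∑ a, mode ℓ j a * mode ℓ k a =
      modeC ℓ j * modeC ℓ k / 2 * (B ((j : ℕ) - k) + B ((j : ℕ) + k)) := by
    simp only [hB, ← Finset.sum_add_distrib, Finset.mul_sum]
    refine Finset.sum_congr rfl fun a _ => ?_
    rw [Nat.cast_sub hjk, Nat.cast_add, mode, mode]
    have h := Real.two_mul_cos_mul_cos (Real.pi * (j : ℕ) / (2 * ℓ) * (2 * (a : ℕ) + 1))
      (Real.pi * (k : ℕ) / (2 * ℓ) * (2 * (a : ℕ) + 1))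
    rw [show Real.pi * (((j : ℕ) : ℝ) - (k : ℕ)) / (2 * ℓ) * (2 * ((a : ℕ) : ℝ) + 1) =
        Real.pi * (j : ℕ) / (2 * ℓ) * (2 * (a : ℕ) + 1) -
          Real.pi * (k : ℕ) / (2 * ℓ) * (2 * (a : ℕ) + 1) by ring,
      show Real.pi * (((j : ℕ) : ℝ) + (k : ℕ)) / (2 * ℓ) * (2 * ((a : ℕ) : ℝ) + 1) =
        Real.pi * (j : ℕ) / (2 * ℓ) * (2 * (a : ℕ) + 1) +
          Real.pi * (k : ℕ) / (2 * ℓ) * (2 * (a : ℕ) + 1) by ring, ← h]
    ring
  rw [hsum]
  by_cases h : j = k
  · subst h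
    rw [if_pos rfl, Nat.sub_self, hB0]
    by_cases h0 : (j : ℕ) = 0
    · rw [h0, hB0, modeC, if_pos rfl, Real.mul_self_sqrt (by positivity)]
      field_simp
      ring
    · rw [hBz ((j : ℕ) + (j : ℕ)) (by omega) (by have := j.isLt; omega), modeC, if_neg h0,
        Real.mul_self_sqrt (by positivity)]
      field_simp
      ring
  · have hne : (j : ℕ) ≠ (k : ℕ) := fun e => h (Fin.ext e)
    have := j.isLt
    rw [if_neg h, hBz ((j : ℕ) - (k : ℕ)) (by omega) (by omega),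
      hBz ((j : ℕ) + (k : ℕ)) (by omega) (by omega)]
    ring

theorem mode_complete (a b : Fin ℓ) : ∑ j, mode ℓ j a * mode ℓ j b = if a = b then 1 else 0 := by
  set O : Matrix (Fin ℓ) (Fin ℓ) ℝ := Matrix.of fun j a => mode ℓ j a with hO
  have h : O * Oᵀ = 1 := by
    ext j k; simp [hO, Matrix.mul_apply, Matrix.one_apply, mode_orth]
  have h2 := mul_eq_one_comm.1 h
  have := congrFun (congrFun h2 a) b
  simpa [hO, Matrix.mul_apply, Matrix.one_apply] using this

theorem lineKer_zero (n : ℕ) (a b : Fin ℓ) : lineKer n ℓ 0 a b = if a = b then 1 else 0 := by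
  simp [lineKer, mode_complete]

theorem lineKer_comm (n : ℕ) (s : ℝ) (a b : Fin ℓ) : lineKer n ℓ s a b = lineKer n ℓ s b a :=
  Finset.sum_congr rfl fun j _ => by ring

theorem mode_zero {j : Fin ℓ} (hj : (j : ℕ) = 0) (a : Fin ℓ) : mode ℓ j a = Real.sqrt (1 / ℓ) := by
  simp [mode, modeC, hj]

theorem lineKer_sum (n : ℕ) (s : ℝ) (b : Fin ℓ) : ∑ a, lineKer n ℓ s a b = 1 := by
  have hℓ : 0 < ℓ := Fin.pos b
  have hℓ' : (0 : ℝ) < ℓ := by exact_mod_cast hℓ
  set j0 : Fin ℓ := ⟨0, hℓ⟩ with hj0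
  simp only [lineKer]
  rw [Finset.sum_comm, Fintype.sum_eq_single j0]
  · have h0 : modeE n ℓ j0 = 0 := by simp [modeE, hj0]
    simp only [h0, mul_zero, neg_zero, Real.exp_zero, one_mul, mode_zero (show (j0 : ℕ) = 0 from rfl),
      Finset.sum_const, Finset.card_univ, Fintype.card_fin, nsmul_eq_mul]
    rw [Real.mul_self_sqrt (by positivity)]
    field_simp
  · intro j hj
    have hj' : (j : ℕ) ≠ 0 := fun e => hj (Fin.ext e)
    rw [← Finset.mul_sum, ← Finset.sum_mul]
    have : ∑ a, mode ℓ j a = 0 := by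
      simp only [mode, ← Finset.mul_sum]
      rw [sum_cos_odd (by omega) (by have := j.isLt; omega), mul_zero]
    rw [this, zero_mul, mul_zero]

theorem lineKer_deriv (n : ℕ) (s : ℝ) (a b : Fin ℓ) :
    HasDerivAt (fun r => lineKer n ℓ r a b)
      (-((n : ℝ) / 2 * ∑ c, if lineAdj a c then lineKer n ℓ s a b - lineKer n ℓ s c b else 0))
      s := by
  have h := HasDerivAt.fun_sum (u := Finset.univ) fun j (_ : j ∈ Finset.univ) =>
    (((hasDerivAt_id s).mul_const (modeE n ℓ j)).fun_neg.exp).mul_const (mode ℓ j a * mode ℓ j b)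
  refine h.congr_deriv ?_
  simp only [id_eq, one_mul]
  have e : (n : ℝ) / 2 * ∑ c, (if lineAdj a c then lineKer n ℓ s a b - lineKer n ℓ s c b else 0) =
      ∑ j, Real.exp (-(s * modeE n ℓ j)) * mode ℓ j b *
        ((n : ℝ) / 2 * ∑ c, if lineAdj a c then mode ℓ j a - mode ℓ j c else 0) := by
    simp only [lineKer, Finset.mul_sum, mul_ite, mul_zero]
    rw [Finset.sum_comm]
    refine Finset.sum_congr rfl fun c _ => ?_
    split_ifs
    · rw [← Finset.sum_sub_distrib, Finset.mul_sum]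
      exact Finset.sum_congr rfl fun j _ => by ring
    · simp
  rw [e, ← Finset.sum_neg_distrib]
  refine Finset.sum_congr rfl fun j _ => ?_
  rw [mode_eigen]
  ring

theorem cubeKer_heatFamily (n : ℕ) : HeatFamily n (@cAdj ℓ) (cubeKer n ℓ) where
  deriv s u v := by
    have h := HasDerivAt.fun_finsetProd (u := (Finset.univ : Finset (Fin 3)))
      (f := fun d r => lineKer n ℓ r (u d) (v d)) fun d _ => lineKer_deriv n s (u d) (v d)
    refine h.congr_deriv ?_
    simp only [hop, smul_eq_mul]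
    rw [sum_cAdj u (fun y => cubeKer n ℓ s u v - cubeKer n ℓ s y v), Finset.mul_sum,
      ← Finset.sum_neg_distrib]
    refine Finset.sum_congr rfl fun d _ => ?_
    simp only [Finset.mul_sum, mul_neg]
    congr 1
    refine Finset.sum_congr rfl fun a _ => ?_
    split_ifs
    · simp only [cubeKer]
      rw [← Finset.mul_prod_erase _ (fun e => lineKer n ℓ s (u e) (v e)) (Finset.mem_univ d),
        ← Finset.mul_prod_erase _
          (fun e => lineKer n ℓ s (Function.update u d a e) (v e)) (Finset.mem_univ d),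
        Function.update_self,
        Finset.prod_congr rfl (s₁ := Finset.univ.erase d)
          (f := fun e => lineKer n ℓ s (Function.update u d a e) (v e))
          (g := fun e => lineKer n ℓ s (u e) (v e))
          (fun e he => by rw [Function.update_of_ne (Finset.mem_erase.1 he).1])]
      ring
    · simp
  init u v := by
    simp only [cubeKer, lineKer_zero]
    split_ifs with h
    · subst h; simp
    · obtain ⟨d, hd⟩ : ∃ d, u d ≠ v d := by
        by_contra! hc; exact h (funext hc)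
      exact Finset.prod_eq_zero (Finset.mem_univ d) (if_neg hd)
  symm s u v := Finset.prod_congr rfl fun d _ => lineKer_comm n s _ _
  colsum s v := by
    simp only [cubeKer]
    rw [← Fintype.prod_sum (fun d a => lineKer n ℓ s a (v d))]
    simp [lineKer_sum]

theorem modeE_ge (n : ℕ) (j : Fin ℓ) :
    2 * (n : ℝ) * ((j : ℕ) : ℝ) ^ 2 / (ℓ : ℝ) ^ 2 ≤ modeE n ℓ j := by
  have hℓ : (0 : ℝ) < ℓ := by exact_mod_cast Fin.pos j
  have hj : ((j : ℕ) : ℝ) ≤ ℓ := by exact_mod_cast j.isLt.le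
  have habs : |Real.pi * ((j : ℕ) : ℝ) / ℓ| ≤ Real.pi := by
    rw [abs_of_nonneg (by positivity), div_le_iff₀ hℓ]
    exact mul_le_mul_of_nonneg_left hj Real.pi_pos.le
  have h := mul_le_mul_of_nonneg_left (Real.cos_le_one_sub_mul_cos_sq habs)
    (Nat.cast_nonneg (α := ℝ) n)
  have e : (n : ℝ) * (2 / Real.pi ^ 2 * (Real.pi * ((j : ℕ) : ℝ) / ℓ) ^ 2) =
      2 * (n : ℝ) * ((j : ℕ) : ℝ) ^ 2 / (ℓ : ℝ) ^ 2 := by
    field_simp
  simp only [modeE]
  linarith

theorem geom_tail_le {c : ℝ} (hc : 0 < c) (k : ℕ) :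
    ∑ i ∈ Finset.range k, Real.exp (-(c * ((i : ℝ) + 1))) ≤ 1 / (Real.exp c - 1) := by
  rw [le_div_iff₀ (sub_pos.mpr (Real.one_lt_exp_iff.mpr hc))]
  have key : (∑ i ∈ Finset.range k, Real.exp (-(c * ((i : ℝ) + 1)))) * (Real.exp c - 1)
      = 1 - Real.exp (-(c * k)) := by
    induction k with
    | zero => simp
    | succ k ih =>
        rw [Finset.sum_range_succ, add_mul, ih, mul_sub, ← Real.exp_add]
        push_cast
        ring_nf
  rw [key]
  linarith [Real.exp_pos (-(c * (k : ℝ)))]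

theorem lineKer_le (n : ℕ) {c s : ℝ} (hc : 0 < c) (hs : 0 ≤ s)
    (hcs : c ≤ 2 * n * s / (ℓ : ℝ) ^ 2) (a b : Fin ℓ) :
    |lineKer n ℓ s a b| ≤ (1 + 2 / (Real.exp c - 1)) / ℓ := by
  obtain ⟨k, rfl⟩ : ∃ k, ℓ = k + 1 := ⟨ℓ - 1, by have := a.isLt; omega⟩
  set L : ℝ := ((k + 1 : ℕ) : ℝ) with hL
  have hL0 : 0 < L := by positivity
  have hterm : ∀ j : Fin (k + 1),
      |Real.exp (-(s * modeE n (k + 1) j)) * (mode (k + 1) j a * mode (k + 1) j b)| ≤
        Real.exp (-(s * modeE n (k + 1) j)) * ((if (j : ℕ) = 0 then 1 else 2) / L) := by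
    intro j
    rw [abs_mul, abs_of_pos (Real.exp_pos _)]
    refine mul_le_mul_of_nonneg_left ?_ (Real.exp_pos _).le
    simp only [mode, abs_mul]
    have h1 := Real.abs_cos_le_one (Real.pi * (j : ℕ) / (2 * L) * (2 * (a : ℕ) + 1))
    have h2 := Real.abs_cos_le_one (Real.pi * (j : ℕ) / (2 * L) * (2 * (b : ℕ) + 1))
    have hC : |modeC (k + 1) j| * |modeC (k + 1) j| = (if (j : ℕ) = 0 then 1 else 2) / L := by
      rw [abs_mul_abs_self, modeC, Real.mul_self_sqrt]
      split_ifs <;> positivity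
    calc _ = (|modeC (k + 1) j| * |modeC (k + 1) j|) *
          (|Real.cos (Real.pi * (j : ℕ) / (2 * L) * (2 * (a : ℕ) + 1))| *
            |Real.cos (Real.pi * (j : ℕ) / (2 * L) * (2 * (b : ℕ) + 1))|) := by
          simp only [hL]; ring
      _ ≤ (|modeC (k + 1) j| * |modeC (k + 1) j|) * 1 :=
          mul_le_mul_of_nonneg_left (mul_le_one₀ h1 (abs_nonneg _) h2) (by positivity)
      _ = _ := by rw [mul_one, hC]
  refine le_trans (Finset.abs_sum_le_sum_abs _ _) (le_trans (Finset.sum_le_sum fun j _ => hterm j) ?_)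
  rw [Fin.sum_univ_succ]
  have h0 : modeE n (k + 1) 0 = 0 := by simp [modeE]
  simp only [h0, Fin.val_zero, if_true, mul_zero, neg_zero, Real.exp_zero, one_mul, Fin.val_succ,
    Nat.add_eq_zero_iff, one_ne_zero, and_false, if_false]
  rw [← Finset.sum_mul, add_div]
  refine add_le_add (le_refl _) ?_
  have hsum : ∑ j : Fin k, Real.exp (-(s * modeE n (k + 1) j.succ)) ≤ 1 / (Real.exp c - 1) := by
    refine le_trans (Finset.sum_le_sum fun j _ =>
      (show Real.exp (-(s * modeE n (k + 1) j.succ)) ≤ Real.exp (-(c * (((j : ℕ) : ℝ) + 1))) from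
        Real.exp_le_exp.2 (neg_le_neg ?_))) ?_
    · have h1 := mul_le_mul_of_nonneg_left (modeE_ge n j.succ) hs
      rw [Fin.val_succ] at h1
      push_cast at h1
      have h2 : (((j : ℕ) : ℝ) + 1) ≤ (((j : ℕ) : ℝ) + 1) ^ 2 := by
        have : (0 : ℝ) ≤ ((j : ℕ) : ℝ) := Nat.cast_nonneg _
        nlinarith
      refine le_trans (le_trans (mul_le_mul hcs h2 (by positivity) (le_trans hc.le hcs)) ?_) h1
      refine le_of_eq ?_
      rw [hL]
      push_cast
      ring
    · rw [Fin.sum_univ_eq_sum_range (fun i : ℕ => Real.exp (-(c * ((i : ℝ) + 1))))]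
      exact geom_tail_le hc k
  calc (∑ j : Fin k, Real.exp (-(s * modeE n (k + 1) j.succ))) * (2 / L)
      ≤ 1 / (Real.exp c - 1) * (2 / L) := mul_le_mul_of_nonneg_right hsum (by positivity)
    _ = _ := by ring

/-- The bound on the kernel of the cube. -/
noncomputable def supBd (ℓ : ℕ) (c : ℝ) : ℝ := ((1 + 2 / (Real.exp c - 1)) / ℓ) ^ 3

theorem supBd_nonneg (ℓ : ℕ) {c : ℝ} (hc : 0 < c) : 0 ≤ supBd ℓ c := by
  have := sub_pos.mpr (Real.one_lt_exp_iff.mpr hc)
  unfold supBd; positivity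

theorem cubeKer_le (n : ℕ) {c s : ℝ} (hc : 0 < c) (hs : 0 ≤ s)
    (hcs : c ≤ 2 * n * s / (ℓ : ℝ) ^ 2) (x y : Cube ℓ) :
    cubeKer n ℓ s x y ≤ supBd ℓ c := by
  refine le_trans (le_abs_self _) ?_
  rw [cubeKer, Finset.abs_prod]
  refine le_trans (Finset.prod_le_prod (fun d _ => abs_nonneg _)
    fun d _ => lineKer_le n hc hs hcs (x d) (y d)) (le_of_eq ?_)
  simp [supBd, div_pow]

end Vale.Agent.P361.Field
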