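import Vale.Agent.P361.Field.Gap
import Vale.Agent.P361.Field.Cube

/-!
The spectral gap of the cube and the uniform bound on the sector traces of small cubes.
-/

open Matrix Finset

namespace Vale.Agent.P361.Field

variable {n ℓ : ℕ}

/-- The bond towards the next site in direction `d`. -/
noncomputable def stepBond (v : Cfg n (Cube ℓ) → ℝ) (d : Fin 3) (w : Cube ℓ) : ℝ :=
  if h : (w d : ℕ) + 1 < ℓ then dist2 v w (Function.update w d ⟨(w d : ℕ) + 1, h⟩) else 0

theorem stepBond_nonneg (v : Cfg n (Cube ℓ) → ℝ) (d : Fin 3) (w : Cube ℓ) :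
    0 ≤ stepBond v d w := by
  unfold stepBond; split_ifs; exacts [dist2_nonneg v _ _, le_rfl]

/-- The sum of the bonds along the line through `x` in direction `d`. -/
noncomputable def lineBond (v : Cfg n (Cube ℓ) → ℝ) (d : Fin 3) (x : Cube ℓ) : ℝ :=
  ∑ i : Fin ℓ, stepBond v d (Function.update x d i)

theorem dist2_le_line (hn : 1 ≤ n) (v : Cfg n (Cube ℓ) → ℝ) (d : Fin 3) (x : Cube ℓ) (a : Fin ℓ) :
    dist2 v x (Function.update x d a) ≤ ℓ * lineBond v d x := by
  have hℓ : 0 < ℓ := Fin.pos a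
  have : NeZero ℓ := ⟨Nat.pos_iff_ne_zero.1 hℓ⟩
  have main : ∀ p q : ℕ, p ≤ q → q < ℓ →
      dist2 v (Function.update x d (Fin.ofNat ℓ p)) (Function.update x d (Fin.ofNat ℓ q))
        ≤ ℓ * lineBond v d x := by
    intro p q hpq hq
    set u : ℕ → Cube ℓ := fun i => Function.update x d (Fin.ofNat ℓ (p + i)) with hu
    have h := dist2_chain hn v u (q - p)
    simp only [hu, add_zero, Nat.add_sub_cancel' hpq] at h
    refine le_trans h ?_
    refine mul_le_mul (by exact_mod_cast (by omega : q - p ≤ ℓ)) ?_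
      (Finset.sum_nonneg fun i _ => dist2_nonneg v _ _) (Nat.cast_nonneg ℓ)
    calc ∑ i ∈ Finset.range (q - p), dist2 v (Function.update x d (Fin.ofNat ℓ (p + i)))
          (Function.update x d (Fin.ofNat ℓ (p + (i + 1))))
        = ∑ i ∈ Finset.range (q - p),
            stepBond v d (Function.update x d (Fin.ofNat ℓ (p + i))) := by
          refine Finset.sum_congr rfl fun i hi => ?_
          rw [Finset.mem_range] at hi
          have e0 : ((Fin.ofNat ℓ (p + i) : Fin ℓ) : ℕ) = p + i := by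
            rw [Fin.val_ofNat, Nat.mod_eq_of_lt (by omega)]
          rw [stepBond, dif_pos (by rw [Function.update_self, e0]; omega)]
          congr 1
          rw [Function.update_idem]
          congr 1
          refine Fin.ext ?_
          simp only [Function.update_self, Fin.val_ofNat]
          rw [Nat.mod_eq_of_lt (show p + i < ℓ by omega),
            Nat.mod_eq_of_lt (show p + (i + 1) < ℓ by omega)]
          omega
      _ = ∑ b ∈ (Finset.range (q - p)).image (fun i => (Fin.ofNat ℓ (p + i) : Fin ℓ)),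
            stepBond v d (Function.update x d b) := by
          rw [Finset.sum_image]
          intro i hi j hj hij
          have := congrArg Fin.val hij
          simp only [Finset.coe_range, Set.mem_Iio] at hi hj
          rw [Fin.val_ofNat, Fin.val_ofNat, Nat.mod_eq_of_lt (by omega),
            Nat.mod_eq_of_lt (by omega)] at this
          omega
      _ ≤ _ := Finset.sum_le_univ_sum_of_nonneg fun b => stepBond_nonneg v d _
  have e1 : ∀ b : Fin ℓ, Fin.ofNat ℓ (b : ℕ) = b := fun b => Fin.ext (by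
    rw [Fin.val_ofNat, Nat.mod_eq_of_lt b.isLt])
  have ex : Function.update x d (x d) = x := Function.update_eq_self d x
  rcases le_total (x d : ℕ) (a : ℕ) with h | h
  · have := main (x d) a h a.isLt
    rwa [e1, e1, ex] at this
  · have := main a (x d) h (x d).isLt
    rw [e1, e1, ex] at this
    rwa [dist2_comm]

/-- Exchanging coordinates between two points. -/
def swapCoord (D : Finset (Fin 3)) : Cube ℓ × Cube ℓ ≃ Cube ℓ × Cube ℓ where
  toFun q := (fun i => if i ∈ D then q.2 i else q.1 i, fun i => if i ∈ D then q.1 i else q.2 i)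
  invFun q := (fun i => if i ∈ D then q.2 i else q.1 i, fun i => if i ∈ D then q.1 i else q.2 i)
  left_inv q := by ext i <;> by_cases h : i ∈ D <;> simp [h]
  right_inv q := by ext i <;> by_cases h : i ∈ D <;> simp [h]

theorem sum_segment (D : Finset (Fin 3)) (d : Fin 3) (hd : d ∉ D) (F : Cube ℓ → Fin ℓ → ℝ) :
    ∑ x : Cube ℓ, ∑ z : Cube ℓ, F (fun i => if i ∈ D then z i else x i) (z d) =
      (ℓ : ℝ) ^ 2 * ∑ w : Cube ℓ, ∑ a, F w a := by
  rw [Finset.mul_sum, ← Fintype.sum_prod_type']
  rw [← Equiv.sum_comp (swapCoord D) (fun q : Cube ℓ × Cube ℓ =>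
    F (fun i => if i ∈ D then q.2 i else q.1 i) (q.2 d))]
  have e : ∀ q : Cube ℓ × Cube ℓ,
      F (fun i => if i ∈ D then ((swapCoord D) q).2 i else ((swapCoord D) q).1 i)
        (((swapCoord D) q).2 d) = F q.1 (q.2 d) := by
    intro q
    congr 1
    · funext i; by_cases h : i ∈ D <;> simp [swapCoord, h]
    · simp [swapCoord, hd]
  simp only [e]
  rw [Fintype.sum_prod_type]
  refine Finset.sum_congr rfl fun w _ => ?_
  rw [← Finset.sum_fiberwise Finset.univ (fun z : Cube ℓ => z d), Finset.mul_sum]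
  refine Finset.sum_congr rfl fun a _ => ?_
  rw [Finset.sum_congr rfl (g := fun _ => F w a) (fun z hz => by
      simp only []; rw [(Finset.mem_filter.1 hz).2]), Finset.sum_const,
    nsmul_eq_mul]
  congr 1
  have hc : (Finset.univ.filter fun z : Cube ℓ => z d = a).card = ℓ ^ 2 := by
    have hset : (Finset.univ.filter fun z : Cube ℓ => z d = a) =
        Fintype.piFinset (Function.update (fun _ : Fin 3 => (Finset.univ : Finset (Fin ℓ))) d {a}) := by
      ext z
      simp only [Finset.mem_filter, Finset.mem_univ, true_and, Fintype.mem_piFinset]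
      constructor
      · intro h i
        by_cases hi : i = d
        · subst hi; simp [h]
        · simp [hi]
      · intro h; simpa using h d
    rw [hset, Fintype.card_piFinset, ← Finset.mul_prod_erase _ _ (Finset.mem_univ d),
      Function.update_self, Finset.card_singleton, one_mul,
      Finset.prod_congr rfl (g := fun _ => ℓ) (fun i hi => by
        rw [Function.update_of_ne (Finset.mem_erase.1 hi).1, Finset.card_univ, Fintype.card_fin]),
      Finset.prod_const, Finset.card_erase_of_mem (Finset.mem_univ d), Finset.card_univ,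
      Fintype.card_fin]
  exact_mod_cast hc

theorem sum_lineBond (v : Cfg n (Cube ℓ) → ℝ) (d : Fin 3) :
    ∑ x : Cube ℓ, lineBond v d x = ℓ * ∑ w : Cube ℓ, stepBond v d w := by
  simp only [lineBond]
  rw [← Fintype.sum_prod_type']
  let e : Cube ℓ × Fin ℓ ≃ Cube ℓ × Fin ℓ :=
    { toFun := fun q => (Function.update q.1 d q.2, q.1 d)
      invFun := fun q => (Function.update q.1 d q.2, q.1 d)
      left_inv := fun q => by ext <;> simp
      right_inv := fun q => by ext <;> simp }
  rw [← Equiv.sum_comp e.symm (fun q : Cube ℓ × Fin ℓ => stepBond v d (Function.update q.1 d q.2))]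
  simp only [e, Equiv.coe_fn_symm_mk, Function.update_idem, Function.update_eq_self]
  rw [Fintype.sum_prod_type, Finset.mul_sum]
  simp

theorem stepBond_le_adj (v : Cfg n (Cube ℓ) → ℝ) :
    ∑ d, ∑ w : Cube ℓ, stepBond v d w ≤
      ∑ x : Cube ℓ, ∑ y : Cube ℓ, if cAdj x y then dist2 v x y else 0 := by
  rw [Finset.sum_comm]
  refine Finset.sum_le_sum fun x _ => ?_
  rw [sum_cAdj x (fun y => dist2 v x y)]
  refine Finset.sum_le_sum fun d _ => ?_
  have h0 : ∀ a, 0 ≤ if lineAdj (x d) a then dist2 v x (Function.update x d a) else 0 := fun a => by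
    split_ifs; exacts [dist2_nonneg v _ _, le_rfl]
  unfold stepBond
  split_ifs with h
  · refine le_trans ?_ (Finset.single_le_sum (fun a _ => h0 a)
      (Finset.mem_univ (⟨(x d : ℕ) + 1, h⟩ : Fin ℓ)))
    rw [if_pos]
    simp [lineAdj]
  · exact Finset.sum_nonneg fun a _ => h0 a

theorem sum_dist2_le (hn : 1 ≤ n) (v : Cfg n (Cube ℓ) → ℝ) :
    ∑ x : Cube ℓ, ∑ z : Cube ℓ, dist2 v x z ≤
      3 * (ℓ : ℝ) ^ 5 * ∑ x : Cube ℓ, ∑ y : Cube ℓ, if cAdj x y then dist2 v x y else 0 := by
  set D : Fin 3 → Finset (Fin 3) := fun d => Finset.univ.filter fun i => i < d with hD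
  set F : Fin 3 → Cube ℓ → Fin ℓ → ℝ := fun d w a => dist2 v w (Function.update w d a) with hF
  have hpath : ∀ x z : Cube ℓ, dist2 v x z ≤
      3 * ∑ d, F d (fun i => if i ∈ D d then z i else x i) (z d) := by
    intro x z
    set a1 : Cube ℓ := Function.update x 0 (z 0) with ha1
    set a2 : Cube ℓ := Function.update a1 1 (z 1) with ha2
    have e0 : (fun i => if i ∈ D 0 then z i else x i) = x := by funext i; simp [hD]
    have e1 : (fun i => if i ∈ D 1 then z i else x i) = a1 := by
      funext i; fin_cases i <;> simp [hD, ha1]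
    have e2 : (fun i => if i ∈ D 2 then z i else x i) = a2 := by
      funext i; fin_cases i <;> simp [hD, ha1, ha2]
    have e3 : Function.update a2 2 (z 2) = z := by
      funext i; fin_cases i <;> simp [ha1, ha2]
    have t1 := dist2_triangle hn x a1 z (s := 2) two_pos v
    have t2 := dist2_triangle hn a1 a2 z (s := 1) one_pos v
    simp only [Fin.sum_univ_three, hF, e0, e1, e2, e3]
    have h1 := dist2_nonneg v a1 a2
    have h2 := dist2_nonneg v a2 z
    norm_num at t1 t2
    linarith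
  calc ∑ x : Cube ℓ, ∑ z : Cube ℓ, dist2 v x z
      ≤ ∑ x : Cube ℓ, ∑ z : Cube ℓ, 3 * ∑ d, F d (fun i => if i ∈ D d then z i else x i) (z d) :=
        Finset.sum_le_sum fun x _ => Finset.sum_le_sum fun z _ => hpath x z
    _ = 3 * ∑ d, (ℓ : ℝ) ^ 2 * ∑ w : Cube ℓ, ∑ a, F d w a := by
        simp only [← Finset.mul_sum]
        congr 1
        rw [Finset.sum_congr rfl fun x _ => Finset.sum_comm, Finset.sum_comm, Finset.mul_sum]
        exact Finset.sum_congr rfl fun d _ => sum_segment (D d) d (by simp [hD]) (F d)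
    _ ≤ 3 * ∑ d, (ℓ : ℝ) ^ 2 * ∑ w : Cube ℓ, ∑ _a : Fin ℓ, (ℓ : ℝ) * lineBond v d w := by
        gcongr with d _ w _ a _
        exact dist2_le_line hn v d w a
    _ = 3 * (ℓ : ℝ) ^ 5 * ∑ d, ∑ w : Cube ℓ, stepBond v d w := by
        simp only [Finset.sum_const, Finset.card_univ, Fintype.card_fin, nsmul_eq_mul,
          ← Finset.mul_sum, sum_lineBond]
        ring
    _ ≤ _ := mul_le_mul_of_nonneg_left (stepBond_le_adj v) (by positivity)

theorem form_energy_cube (v : Cfg n (Cube ℓ) → ℝ) :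
    form (energy n (@cAdj ℓ)) v =
      (1 / 4 : ℝ) * ∑ x : Cube ℓ, ∑ y : Cube ℓ, if cAdj x y then dist2 v x y else 0 := by
  simp only [energy, form_smul, form_sum, Finset.mul_sum]
  refine Finset.sum_congr rfl fun x _ => Finset.sum_congr rfl fun y _ => ?_
  split_ifs with h
  · rw [form_bond (cAdj_ne x y h), dist2, if_neg (cAdj_ne x y h)]; ring
  · simp [form]

theorem card_cube : Fintype.card (Cube ℓ) = ℓ ^ 3 := by simp

theorem cube_gap (hn : 1 ≤ n) (hℓ : 0 < ℓ) {m : ℕ}
    (hm : 2 * m ≤ n * Fintype.card (Cube ℓ) + 1) (v : Cfg n (Cube ℓ) → ℝ) (hv : SuppAt v m)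
    (hR : (totLow n (Cube ℓ))ᵀ *ᵥ v = 0) :
    (m : ℝ) * n / (12 * (ℓ : ℝ) ^ 2) * ∑ σ, v σ ^ 2 ≤ form (energy n (@cAdj ℓ)) v := by
  have h1 := sum_dist2_ge hm v hv hR
  have h2 := sum_dist2_le hn v
  have h3 := form_energy_cube v
  have hℓ' : (0 : ℝ) < ℓ := by exact_mod_cast hℓ
  rw [card_cube] at h1
  push_cast at h1
  rw [div_mul_eq_mul_div, div_le_iff₀ (by positivity)]
  have h4 : (ℓ : ℝ) ^ 3 * ((m : ℝ) * n * ∑ σ, v σ ^ 2) ≤
      (ℓ : ℝ) ^ 3 * (form (energy n (@cAdj ℓ)) v * (12 * (ℓ : ℝ) ^ 2)) := by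
    have : (ℓ : ℝ) ^ 3 * (form (energy n (@cAdj ℓ)) v * (12 * (ℓ : ℝ) ^ 2)) =
        3 * (ℓ : ℝ) ^ 5 * (4 * form (energy n (@cAdj ℓ)) v) := by ring
    rw [this, h3]
    linarith
  exact le_of_mul_le_mul_left h4 (by positivity)

/-- The threshold for the ratio of time to squared side beyond which sector traces stay bounded. -/
noncomputable def tileRatio (n : ℕ) : ℝ := 24 * Real.log (54 * n * Real.exp 1) + 1

theorem one_le_tileRatio (hn : 1 ≤ n) : 1 ≤ tileRatio n := by
  have h1 : (1 : ℝ) ≤ n := by exact_mod_cast hn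
  have h2 := Real.one_le_exp (show (0 : ℝ) ≤ 1 by norm_num)
  have : 0 ≤ Real.log (54 * n * Real.exp 1) := Real.log_nonneg (by nlinarith)
  unfold tileRatio; linarith

theorem sectorTr_tile_half (hn : 1 ≤ n) (hℓ : 0 < ℓ) {t : ℝ}
    (ht : tileRatio n * (ℓ : ℝ) ^ 2 ≤ n * t) (m : ℕ)
    (hm : 2 * m ≤ n * Fintype.card (Cube ℓ) + 1) :
    sectorTr n (@cAdj ℓ) t m ≤ 2 - (1 / 2 : ℝ) ^ m := by
  have hℓ' : (0 : ℝ) < ℓ := by exact_mod_cast hℓ
  have hn' : (0 : ℝ) < n := by exact_mod_cast hn
  have hR := one_le_tileRatio hn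
  have hnt : (ℓ : ℝ) ^ 2 ≤ n * t := le_trans (le_mul_of_one_le_left (by positivity) hR) ht
  have ht0 : 0 < t := by nlinarith [pow_pos hℓ' 2]
  have hp : ∀ s, t / 2 ≤ s → ∀ u v, cubeKer n ℓ s u v ≤ supBd ℓ 1 := by
    intro s hs u v
    refine cubeKer_le n one_pos (by linarith) ?_ u v
    rw [le_div_iff₀ (by positivity), one_mul]
    nlinarith [mul_le_mul_of_nonneg_left hs hn'.le]
  have hsup : supBd ℓ 1 ≤ 27 / (ℓ : ℝ) ^ 3 := by
    rw [supBd, div_pow]
    refine div_le_div_of_nonneg_right ?_ (by positivity)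
    have he : 2 ≤ Real.exp 1 := by have := Real.add_one_le_exp (1 : ℝ); linarith
    have : 2 / (Real.exp 1 - 1) ≤ 2 := by rw [div_le_iff₀ (by linarith)]; linarith
    calc (1 + 2 / (Real.exp 1 - 1)) ^ 3 ≤ (3 : ℝ) ^ 3 :=
          pow_le_pow_left₀ (by have : 0 < Real.exp 1 - 1 := by linarith
                               positivity) (by linarith) 3
      _ = 27 := by norm_num
  induction m with
  | zero =>
      have := sectorTr_crude hn cAdj_ne cAdj_symm (cubeKer_heatFamily n) ht0.le
        (supBd_nonneg ℓ one_pos) (hp t (by linarith)) 0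
      simp only [pow_zero, Nat.factorial_zero, Nat.cast_one, div_one, mul_one] at this
      norm_num
      exact this
  | succ m ih =>
      have h1 := sectorTr_succ_le cAdj_ne hm (γ := ((m + 1 : ℕ) : ℝ) * n / (12 * (ℓ : ℝ) ^ 2))
        (fun v hv hR => cube_gap hn hℓ hm v hv hR) ht0.le
      have h2 := sectorTr_crude hn cAdj_ne cAdj_symm (cubeKer_heatFamily n)
        (show 0 ≤ t / 2 by linarith) (supBd_nonneg ℓ one_pos) (hp _ le_rfl) (m + 1)
      set k : ℕ := m + 1 with hk
      set q : ℝ := Real.exp (-((k : ℝ) * n / (12 * (ℓ : ℝ) ^ 2) * t / 2)) with hq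
      have hfac : ((k : ℝ) ^ k / k.factorial) ≤ Real.exp 1 ^ k := by
        rw [← Real.exp_nat_mul, mul_one]
        exact Real.pow_div_factorial_le_exp _ (Nat.cast_nonneg k) k
      have h3 : sectorTr n (@cAdj ℓ) (t / 2) k ≤ (27 * n * Real.exp 1) ^ k := by
        refine le_trans h2 ?_
        rw [card_cube]
        push_cast
        calc ((n : ℝ) * (ℓ : ℝ) ^ 3) ^ k / k.factorial * ((k : ℝ) * supBd ℓ 1) ^ k
            ≤ ((n : ℝ) * (ℓ : ℝ) ^ 3) ^ k / k.factorial * ((k : ℝ) * (27 / (ℓ : ℝ) ^ 3)) ^ k := by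
              have := supBd_nonneg ℓ one_pos
              gcongr
          _ = ((27 : ℝ) * n) ^ k * ((k : ℝ) ^ k / k.factorial) := by
              rw [mul_pow, mul_pow (k : ℝ), div_pow, mul_pow (27 : ℝ)]
              field_simp
          _ ≤ _ := by
              rw [mul_pow (27 * (n : ℝ))]
              exact mul_le_mul_of_nonneg_left hfac (by positivity)
      have h4 : q ≤ (1 / (54 * n * Real.exp 1)) ^ k := by
        have hpos : 0 < 54 * (n : ℝ) * Real.exp 1 := by positivity
        rw [one_div, inv_pow, hq, ← Real.exp_log (pow_pos hpos k), ← Real.exp_neg, Real.exp_le_exp,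
          Real.log_pow, neg_le_neg_iff]
        have hRt : 24 * Real.log (54 * n * Real.exp 1) ≤ (n : ℝ) * t / (ℓ : ℝ) ^ 2 := by
          rw [le_div_iff₀ (by positivity)]
          refine le_trans (mul_le_mul_of_nonneg_right ?_ (by positivity)) ht
          simp [tileRatio]
        have := mul_le_mul_of_nonneg_left hRt (show (0 : ℝ) ≤ (k : ℝ) / 24 by positivity)
        calc (k : ℝ) * Real.log (54 * n * Real.exp 1)
            = (k : ℝ) / 24 * (24 * Real.log (54 * n * Real.exp 1)) := by ring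
          _ ≤ (k : ℝ) / 24 * ((n : ℝ) * t / (ℓ : ℝ) ^ 2) := this
          _ = _ := by field_simp; ring
      have h5 : q * sectorTr n (@cAdj ℓ) (t / 2) k ≤ (1 / 2 : ℝ) ^ k := by
        refine le_trans (mul_le_mul h4 h3 (sectorTr_nonneg cAdj_ne (by linarith) k)
          (by positivity)) (le_of_eq ?_)
        rw [← mul_pow]
        congr 1
        field_simp
        ring
      have h6 := ih (by omega)
      have h7 : (1 / 2 : ℝ) ^ m = 2 * (1 / 2 : ℝ) ^ k := by rw [hk, pow_succ]; ring
      linarith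

/-- Small cubes have bounded sector traces. -/
theorem sectorTr_tile (hn : 1 ≤ n) (hℓ : 0 < ℓ) {t : ℝ}
    (ht : tileRatio n * (ℓ : ℝ) ^ 2 ≤ n * t) (m : ℕ) :
    sectorTr n (@cAdj ℓ) t m ≤ 2 := by
  by_cases hbig : n * Fintype.card (Cube ℓ) < m
  · rw [sectorTr, Finset.sum_eq_zero]
    · norm_num
    · intro σ hσ
      have := size_le σ
      have := (Finset.mem_filter.1 hσ).2
      omega
  by_cases hm : 2 * m ≤ n * Fintype.card (Cube ℓ) + 1
  · have := sectorTr_tile_half hn hℓ ht m hm
    have : (0 : ℝ) < (1 / 2 : ℝ) ^ m := by positivity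
    linarith
  · rw [sectorTr_flip cAdj_ne t (not_lt.1 hbig)]
    have := sectorTr_tile_half hn hℓ ht (n * Fintype.card (Cube ℓ) - m) (by omega)
    have : (0 : ℝ) < (1 / 2 : ℝ) ^ (n * Fintype.card (Cube ℓ) - m) := by positivity
    linarith

end Vale.Agent.P361.Field
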