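import Vale.Agent.P361.Field.Split

/-!
The bond operator as a sum of squares, the triangle inequality between bonds, and the spectral gap
on highest weight states.
-/

open Matrix Finset

namespace Vale.Agent.P361.Field

variable {n : ℕ} {V : Type*} [Fintype V] [DecidableEq V]

/-- The pair annihilation amplitude of a bond. -/
noncomputable def pairAmp (v : Cfg n V → ℝ) (x z : V) (ρ : Cfg n V) : ℝ :=
  if (ρ x : ℕ) = 0 ∨ (ρ z : ℕ) = 0 then 0 else
    Real.sqrt ((ρ x : ℕ) * ((n : ℝ) + 1 - (ρ z : ℕ))) * v (dec ρ z) -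
      Real.sqrt (((n : ℝ) + 1 - (ρ x : ℕ)) * (ρ z : ℕ)) * v (dec ρ x)

/-- Twice the bond form. -/
noncomputable def pairSq (v : Cfg n V → ℝ) (x z : V) : ℝ := ∑ ρ, pairAmp v x z ρ ^ 2

theorem sum_dec (z : V) (F : Cfg n V → ℝ) :
    (∑ ρ : Cfg n V, if (ρ z : ℕ) = 0 then 0 else F (dec ρ z)) =
      ∑ σ : Cfg n V, if (σ z : ℕ) = n then 0 else F σ := by
  rw [show (∑ ρ : Cfg n V, if (ρ z : ℕ) = 0 then 0 else F (dec ρ z)) =
      ∑ ρ ∈ Finset.univ.filter (fun ρ : Cfg n V => ¬(ρ z : ℕ) = 0), F (dec ρ z) by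
        rw [Finset.sum_filter]; simp,
    show (∑ σ : Cfg n V, if (σ z : ℕ) = n then 0 else F σ) =
      ∑ σ ∈ Finset.univ.filter (fun σ : Cfg n V => ¬(σ z : ℕ) = n), F σ by
        rw [Finset.sum_filter]; simp]
  refine Finset.sum_bij' (fun ρ _ => dec ρ z)
    (fun σ _ => Function.update σ z (Fin.ofNat (n + 1) ((σ z : ℕ) + 1))) ?_ ?_ ?_ ?_ ?_
  · intro ρ hρ
    have h := (Finset.mem_filter.1 hρ).2
    refine Finset.mem_filter.2 ⟨Finset.mem_univ _, ?_⟩
    have := (ρ z).is_le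
    simp [dec]
    omega
  · intro σ hσ
    have h := (Finset.mem_filter.1 hσ).2
    refine Finset.mem_filter.2 ⟨Finset.mem_univ _, ?_⟩
    have := (σ z).is_le
    rw [Function.update_self, Fin.val_ofNat, Nat.mod_eq_of_lt (by omega)]
    omega
  · intro ρ hρ
    have h := (Finset.mem_filter.1 hρ).2
    have := (ρ z).is_le
    funext u
    by_cases hu : u = z
    · subst hu
      apply Fin.ext
      simp only [dec, Function.update_self, Fin.val_ofNat]
      rw [Nat.mod_eq_of_lt (by omega)]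
      omega
    · simp [dec, hu]
  · intro σ hσ
    have h := (Finset.mem_filter.1 hσ).2
    have := (σ z).is_le
    funext u
    by_cases hu : u = z
    · subst hu
      apply Fin.ext
      simp only [dec, Function.update_self, Fin.val_ofNat]
      rw [Nat.mod_eq_of_lt (by omega)]
      omega
    · simp [dec, hu]
  · intro ρ _; rfl

theorem form_bond {x z : V} (hxz : x ≠ z) (v : Cfg n V → ℝ) :
    form (bond n x z) v = pairSq v x z / 2 := by
  have e : ∀ ρ : Cfg n V, pairAmp v x z ρ ^ 2 =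
      (if (ρ z : ℕ) = 0 then 0 else
          ((dec ρ z x : ℕ) : ℝ) * ((n : ℝ) - (dec ρ z z : ℕ)) * v (dec ρ z) ^ 2) +
        (if (ρ x : ℕ) = 0 then 0 else
          ((n : ℝ) - (dec ρ x x : ℕ)) * ((dec ρ x z : ℕ) : ℝ) * v (dec ρ x) ^ 2) -
        2 * ((loc x (low n) *ᵥ v) ρ * (loc z (low n) *ᵥ v) ρ) := by
    intro ρ
    rw [loc_low_mulVec, loc_low_mulVec, pairAmp]
    by_cases hx : (ρ x : ℕ) = 0
    · rw [if_pos (Or.inl hx), if_pos hx, if_pos hx]
      simp [dec, Function.update_of_ne hxz, hx]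
    by_cases hz : (ρ z : ℕ) = 0
    · rw [if_pos (Or.inr hz), if_pos hz, if_neg hx]
      simp [dec, Function.update_of_ne hxz.symm, hz]
    rw [if_neg (by tauto), if_neg hz, if_neg hz, if_neg hx, if_neg hx]
    simp only [dec, Function.update_of_ne hxz, Function.update_of_ne hxz.symm,
      Function.update_self]
    rw [Nat.cast_sub (by omega), Nat.cast_sub (by omega), wgt, wgt]
    set a : ℝ := ((ρ x : ℕ) : ℝ) with ha
    set b : ℝ := ((ρ z : ℕ) : ℝ) with hb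
    have ha0 : 0 ≤ a := Nat.cast_nonneg _
    have hb0 : 0 ≤ b := Nat.cast_nonneg _
    have ha1 : 0 ≤ (n : ℝ) + 1 - a := by
      have : a ≤ n := by rw [ha]; exact_mod_cast (ρ x).is_le
      linarith
    have hb1 : 0 ≤ (n : ℝ) + 1 - b := by
      have : b ≤ n := by rw [hb]; exact_mod_cast (ρ z).is_le
      linarith
    rw [Real.sqrt_mul ha0, Real.sqrt_mul ha1, Real.sqrt_mul ha0, Real.sqrt_mul hb0]
    have s1 := Real.mul_self_sqrt ha0
    have s2 := Real.mul_self_sqrt ha1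
    have s3 := Real.mul_self_sqrt hb0
    have s4 := Real.mul_self_sqrt hb1
    push_cast
    linear_combination (v (Function.update ρ z ⟨(ρ z : ℕ) - 1, _⟩) ^ 2 *
      (Real.sqrt ((n : ℝ) + 1 - b) * Real.sqrt ((n : ℝ) + 1 - b))) * s1 +
      (v (Function.update ρ z ⟨(ρ z : ℕ) - 1, _⟩) ^ 2 * a) * s4 +
      (v (Function.update ρ x ⟨(ρ x : ℕ) - 1, _⟩) ^ 2 * (Real.sqrt b * Real.sqrt b)) * s2 +
      (v (Function.update ρ x ⟨(ρ x : ℕ) - 1, _⟩) ^ 2 * ((n : ℝ) + 1 - a)) * s3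
  have hdot : ∀ x z : V, form (loc x (rai n) * loc z (low n)) v =
      ∑ ρ, (loc x (low n) *ᵥ v) ρ * (loc z (low n) *ᵥ v) ρ := by
    intro x z
    rw [form, ← mulVec_mulVec, dotProduct_mulVec, ← low_transpose, ← loc_transpose,
      vecMul_transpose]
    rfl
  rw [pairSq]
  simp only [e, Finset.sum_sub_distrib, Finset.sum_add_distrib, ← Finset.mul_sum]
  rw [sum_dec z (fun σ => ((σ x : ℕ) : ℝ) * ((n : ℝ) - (σ z : ℕ)) * v σ ^ 2),
    sum_dec x (fun σ => ((n : ℝ) - (σ x : ℕ)) * ((σ z : ℕ) : ℝ) * v σ ^ 2)]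
  rw [bond, form_sub, form_add, form_smul, form_smul, form_add, loc_comm hxz (low n) (rai n),
    hdot, hdot]
  have h1 : form (1 : ROp n V) v = ∑ σ, v σ ^ 2 := by simp [form, dotProduct, sq]
  have h2 : form (loc x (zed n) * loc z (zed n)) v =
      ∑ σ : Cfg n V, ((n : ℝ) / 2 - (σ x : ℕ)) * ((n : ℝ) / 2 - (σ z : ℕ)) * v σ ^ 2 := by
    rw [zed, loc_diagonal, loc_diagonal, diagonal_mul_diagonal, form]
    simp only [dotProduct, mulVec_diagonal]
    exact Finset.sum_congr rfl fun σ _ => by ring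
  have h3 : (∑ ρ, (loc z (low n) *ᵥ v) ρ * (loc x (low n) *ᵥ v) ρ) =
      ∑ ρ, (loc x (low n) *ᵥ v) ρ * (loc z (low n) *ᵥ v) ρ :=
    Finset.sum_congr rfl fun ρ _ => mul_comm _ _
  rw [h1, h2, h3]
  have g1 : ∀ σ : Cfg n V, (if (σ z : ℕ) = n then 0 else
      ((σ x : ℕ) : ℝ) * ((n : ℝ) - (σ z : ℕ)) * v σ ^ 2) =
      ((σ x : ℕ) : ℝ) * ((n : ℝ) - (σ z : ℕ)) * v σ ^ 2 := by
    intro σ; split_ifs with h
    · rw [h]; ring
    · rfl
  have g2 : ∀ σ : Cfg n V, (if (σ x : ℕ) = n then 0 else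
      ((n : ℝ) - (σ x : ℕ)) * ((σ z : ℕ) : ℝ) * v σ ^ 2) =
      ((n : ℝ) - (σ x : ℕ)) * ((σ z : ℕ) : ℝ) * v σ ^ 2 := by
    intro σ; split_ifs with h
    · rw [h]; ring
    · rfl
  simp only [g1, g2]
  have g3 : ((n : ℝ) / 2) ^ 2 * (∑ σ, v σ ^ 2) -
      ∑ σ : Cfg n V, ((n : ℝ) / 2 - (σ x : ℕ)) * ((n : ℝ) / 2 - (σ z : ℕ)) * v σ ^ 2 =
      ((∑ σ : Cfg n V, ((σ x : ℕ) : ℝ) * ((n : ℝ) - (σ z : ℕ)) * v σ ^ 2) +
        ∑ σ : Cfg n V, ((n : ℝ) - (σ x : ℕ)) * ((σ z : ℕ) : ℝ) * v σ ^ 2) / 2 := by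
    rw [← Finset.sum_add_distrib, Finset.sum_div, Finset.mul_sum, ← Finset.sum_sub_distrib]
    exact Finset.sum_congr rfl fun σ _ => by ring
  linarith

theorem pairSq_nonneg (v : Cfg n V → ℝ) (x z : V) : 0 ≤ pairSq v x z :=
  Finset.sum_nonneg fun _ _ => sq_nonneg _

theorem weight_sum {x y z : V} (v : Cfg n V → ℝ) :
    (∑ ρ : Cfg n V, ((if (ρ y : ℕ) = 0 then 0 else
        ((n : ℝ) + 1 - (ρ y : ℕ)) * pairAmp v x z (dec ρ y) ^ 2) +
      ((ρ y : ℕ) : ℝ) * pairAmp v x z ρ ^ 2)) = n * pairSq v x z := by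
  have e : ∀ ρ : Cfg n V, (if (ρ y : ℕ) = 0 then (0 : ℝ) else
      ((n : ℝ) + 1 - (ρ y : ℕ)) * pairAmp v x z (dec ρ y) ^ 2) =
      if (ρ y : ℕ) = 0 then 0 else
        ((n : ℝ) - (dec ρ y y : ℕ)) * pairAmp v x z (dec ρ y) ^ 2 := by
    intro ρ
    split_ifs with h
    · rfl
    · simp only [dec, Function.update_self]
      rw [Nat.cast_sub (by omega)]
      push_cast; ring
  simp only [Finset.sum_add_distrib, e]
  rw [sum_dec y (fun σ => ((n : ℝ) - (σ y : ℕ)) * pairAmp v x z σ ^ 2),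
    ← Finset.sum_add_distrib, pairSq, Finset.mul_sum]
  refine Finset.sum_congr rfl fun σ _ => ?_
  split_ifs with h
  · rw [h]; ring
  · ring

omit [Fintype V] in
theorem dec_comm {x y : V} (hxy : x ≠ y) (ρ : Cfg n V) : dec (dec ρ x) y = dec (dec ρ y) x := by
  funext u
  by_cases hux : u = x
  · subst hux; simp [dec, hxy]
  · by_cases huy : u = y
    · subst huy; simp [dec, hux]
    · simp [dec, hux, huy]

omit [Fintype V] in
theorem plucker_high {x y z : V} (v : Cfg n V → ℝ)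
    (ρ : Cfg n V) :
    Real.sqrt (ρ y : ℕ) * pairAmp v x z ρ =
      Real.sqrt (ρ z : ℕ) * pairAmp v x y ρ + Real.sqrt (ρ x : ℕ) * pairAmp v y z ρ := by
  by_cases hx : (ρ x : ℕ) = 0
  · simp [pairAmp, hx]
  by_cases hy : (ρ y : ℕ) = 0
  · simp [pairAmp, hy]
  by_cases hz : (ρ z : ℕ) = 0
  · simp [pairAmp, hz]
  simp only [pairAmp, hx, hy, hz, or_self, if_false]
  have n1 : ∀ u : V, (0 : ℝ) ≤ (ρ u : ℕ) := fun u => Nat.cast_nonneg _
  have n2 : ∀ u : V, (0 : ℝ) ≤ (n : ℝ) + 1 - (ρ u : ℕ) := fun u => by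
    have : ((ρ u : ℕ) : ℝ) ≤ n := by exact_mod_cast (ρ u).is_le
    linarith
  rw [Real.sqrt_mul (n1 x), Real.sqrt_mul (n2 x), Real.sqrt_mul (n1 x), Real.sqrt_mul (n2 x),
    Real.sqrt_mul (n1 y), Real.sqrt_mul (n2 y)]
  ring

theorem plucker_low {x y z : V} (hxy : x ≠ y) (hyz : y ≠ z) (hxz : x ≠ z) (v : Cfg n V → ℝ)
    (ρ : Cfg n V) :
    (if (ρ y : ℕ) = 0 then 0 else
        Real.sqrt ((n : ℝ) + 1 - (ρ y : ℕ)) * pairAmp v x z (dec ρ y)) =
      (if (ρ z : ℕ) = 0 then 0 else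
        Real.sqrt ((n : ℝ) + 1 - (ρ z : ℕ)) * pairAmp v x y (dec ρ z)) +
      (if (ρ x : ℕ) = 0 then 0 else
        Real.sqrt ((n : ℝ) + 1 - (ρ x : ℕ)) * pairAmp v y z (dec ρ x)) := by
  have d1 : ∀ u w : V, u ≠ w → (dec ρ w u : ℕ) = (ρ u : ℕ) := fun u w h => by simp [dec, h]
  by_cases hx : (ρ x : ℕ) = 0
  · simp [pairAmp, hx, d1 x y hxy, d1 x z hxz]
  by_cases hy : (ρ y : ℕ) = 0
  · simp [pairAmp, hy, d1 y z hyz, d1 y x hxy.symm]
  by_cases hz : (ρ z : ℕ) = 0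
  · simp [pairAmp, hz, d1 z y hyz.symm, d1 z x hxz.symm]
  simp only [pairAmp, d1 x y hxy, d1 x z hxz, d1 y z hyz, d1 y x hxy.symm, d1 z y hyz.symm,
    d1 z x hxz.symm, hx, hy, hz, or_self, if_false, dec_comm hxy, dec_comm hxz,
    dec_comm hyz.symm]
  have n1 : ∀ u : V, (0 : ℝ) ≤ (ρ u : ℕ) := fun u => Nat.cast_nonneg _
  have n2 : ∀ u : V, (0 : ℝ) ≤ (n : ℝ) + 1 - (ρ u : ℕ) := fun u => by
    have : ((ρ u : ℕ) : ℝ) ≤ n := by exact_mod_cast (ρ u).is_le
    linarith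
  rw [Real.sqrt_mul (n1 x), Real.sqrt_mul (n2 x), Real.sqrt_mul (n1 x), Real.sqrt_mul (n2 x),
    Real.sqrt_mul (n1 y), Real.sqrt_mul (n2 y)]
  ring

theorem sq_add_le {s : ℝ} (hs : 0 < s) (u w : ℝ) :
    (u + w) ^ 2 ≤ (1 + s) * u ^ 2 + (1 + 1 / s) * w ^ 2 := by
  have h : 0 ≤ (s * u - w) ^ 2 / s := div_nonneg (sq_nonneg _) hs.le
  have e : (1 + s) * u ^ 2 + (1 + 1 / s) * w ^ 2 - (u + w) ^ 2 = (s * u - w) ^ 2 / s := by
    field_simp; ring
  linarith

theorem pairSq_triangle (hn : 1 ≤ n) {x y z : V} (hxy : x ≠ y) (hyz : y ≠ z) (hxz : x ≠ z)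
    {s : ℝ} (hs : 0 < s) (v : Cfg n V → ℝ) :
    pairSq v x z ≤ (1 + s) * pairSq v x y + (1 + 1 / s) * pairSq v y z := by
  have hsq : ∀ (u : V) (ρ : Cfg n V) (A : ℝ),
      (Real.sqrt (ρ u : ℕ) * A) ^ 2 = ((ρ u : ℕ) : ℝ) * A ^ 2 := fun u ρ A => by
    rw [mul_pow, Real.sq_sqrt (Nat.cast_nonneg _)]
  have hsq2 : ∀ (u : V) (ρ : Cfg n V) (A : ℝ),
      (if (ρ u : ℕ) = 0 then 0 else Real.sqrt ((n : ℝ) + 1 - (ρ u : ℕ)) * A) ^ 2 =
        if (ρ u : ℕ) = 0 then 0 else ((n : ℝ) + 1 - (ρ u : ℕ)) * A ^ 2 := fun u ρ A => by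
    split_ifs
    · simp
    · rw [mul_pow, Real.sq_sqrt]
      have : ((ρ u : ℕ) : ℝ) ≤ n := by exact_mod_cast (ρ u).is_le
      linarith
  have key : ∀ ρ : Cfg n V,
      (if (ρ y : ℕ) = 0 then 0 else ((n : ℝ) + 1 - (ρ y : ℕ)) * pairAmp v x z (dec ρ y) ^ 2) +
        ((ρ y : ℕ) : ℝ) * pairAmp v x z ρ ^ 2 ≤
      (1 + s) * ((if (ρ z : ℕ) = 0 then 0 else
          ((n : ℝ) + 1 - (ρ z : ℕ)) * pairAmp v x y (dec ρ z) ^ 2) +
        ((ρ z : ℕ) : ℝ) * pairAmp v x y ρ ^ 2) +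
      (1 + 1 / s) * ((if (ρ x : ℕ) = 0 then 0 else
          ((n : ℝ) + 1 - (ρ x : ℕ)) * pairAmp v y z (dec ρ x) ^ 2) +
        ((ρ x : ℕ) : ℝ) * pairAmp v y z ρ ^ 2) := by
    intro ρ
    rw [← hsq2 y, ← hsq2 z, ← hsq2 x, ← hsq y, ← hsq z, ← hsq x,
      plucker_low hxy hyz hxz, plucker_high]
    refine le_trans (add_le_add (sq_add_le hs _ _) (sq_add_le hs _ _)) (le_of_eq ?_)
    ring
  have h := Finset.sum_le_sum fun ρ (_ : ρ ∈ Finset.univ) => key ρ
  rw [weight_sum, Finset.sum_add_distrib, ← Finset.mul_sum, ← Finset.mul_sum,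
    weight_sum, weight_sum] at h
  have hn0 : (0 : ℝ) < n := by exact_mod_cast hn
  refine le_of_mul_le_mul_left ?_ hn0
  linarith

/-- Twice the bond form, set to zero on the diagonal. -/
noncomputable def dist2 (v : Cfg n V → ℝ) (x z : V) : ℝ := if x = z then 0 else pairSq v x z

theorem dist2_nonneg (v : Cfg n V → ℝ) (x z : V) : 0 ≤ dist2 v x z := by
  simp only [dist2]; split_ifs; exacts [le_rfl, pairSq_nonneg v x z]

theorem dist2_comm (v : Cfg n V → ℝ) (x z : V) : dist2 v x z = dist2 v z x := by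
  simp only [dist2]
  by_cases h : x = z
  · rw [if_pos h, if_pos h.symm]
  · rw [if_neg h, if_neg (Ne.symm h)]
    have h1 := form_bond h v
    rw [← bond_comm h, form_bond (Ne.symm h)] at h1
    linarith

theorem dist2_triangle (hn : 1 ≤ n) (x y z : V) {s : ℝ} (hs : 0 < s) (v : Cfg n V → ℝ) :
    dist2 v x z ≤ (1 + s) * dist2 v x y + (1 + 1 / s) * dist2 v y z := by
  have h1 : 1 ≤ 1 + s := by linarith
  have h2 : 1 ≤ 1 + 1 / s := by
    have := one_div_pos.2 hs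
    linarith
  by_cases hxz : x = z
  · subst hxz
    have := dist2_nonneg v x y
    have := dist2_nonneg v y x
    rw [show dist2 v x x = 0 by simp [dist2]]
    positivity
  by_cases hxy : x = y
  · subst hxy
    rw [show dist2 v x x = 0 by simp [dist2], mul_zero, zero_add]
    exact le_mul_of_one_le_left (dist2_nonneg v _ _) h2
  by_cases hyz : y = z
  · subst hyz
    rw [show dist2 v y y = 0 by simp [dist2], mul_zero, add_zero]
    exact le_mul_of_one_le_left (dist2_nonneg v _ _) h1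
  simpa [dist2, hxz, hxy, hyz] using pairSq_triangle hn hxy hyz hxz hs v

/-- The telescoping bound along a chain. -/
theorem dist2_chain (hn : 1 ≤ n) (v : Cfg n V → ℝ) (u : ℕ → V) (k : ℕ) :
    dist2 v (u 0) (u k) ≤ k * ∑ i ∈ Finset.range k, dist2 v (u i) (u (i + 1)) := by
  induction k with
  | zero => simp [dist2]
  | succ k ih =>
      rcases Nat.eq_zero_or_pos k with hk | hk
      · subst hk; simp
      have hk' : (0 : ℝ) < k := by exact_mod_cast hk
      refine le_trans (dist2_triangle hn (u 0) (u k) (u (k + 1))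
        (s := 1 / (k : ℝ)) (one_div_pos.2 hk') v) ?_
      rw [Finset.sum_range_succ, one_div_one_div, mul_add]
      refine add_le_add (le_trans (mul_le_mul_of_nonneg_left ih (by positivity)) (le_of_eq ?_))
        (le_of_eq ?_)
      · push_cast; field_simp
      · push_cast; ring

theorem form_bond_self (x : V) (v : Cfg n V → ℝ) :
    form (bond n x x) v = -((n : ℝ) / 2) * ∑ σ, v σ ^ 2 := by
  have e : bond n x x = (-((n : ℝ) / 2)) • (1 : ROp n V) := by
    rw [bond]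
    simp only [loc_mul, zed, diagonal_mul_diagonal, rai_mul_low,
      low_mul_rai, diagonal_add, ← diagonal_smul, loc_diagonal]
    rw [smul_one_eq_diagonal, smul_one_eq_diagonal, diagonal_sub]
    congr 1
    funext σ
    simp only [Pi.smul_apply, smul_eq_mul]
    ring
  rw [e, form_smul]
  simp [form, dotProduct, sq]

theorem sum_form_bond (v : Cfg n V → ℝ) :
    ∑ x : V, ∑ y : V, form (bond n x y) v =
      ((n : ℝ) / 2 * Fintype.card V) ^ 2 * ∑ σ, v σ ^ 2 - form (totZed n V * totZed n V) v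
        - (form ((totLow n V)ᵀ * totLow n V) v + form (totLow n V * (totLow n V)ᵀ) v) / 2 := by
  have hT : (totLow n V)ᵀ = ∑ y : V, loc y (rai n) := by
    simp [totLow, transpose_sum, loc_transpose, low_transpose]
  have e : ∑ x : V, ∑ y : V, bond n x y =
      (((n : ℝ) / 2 * Fintype.card V) ^ 2) • (1 : ROp n V) - (totZed n V * totZed n V +
        (1 / 2 : ℝ) • ((totLow n V)ᵀ * totLow n V + totLow n V * (totLow n V)ᵀ)) := by
    rw [hT]
    simp only [bond, Finset.sum_sub_distrib, Finset.sum_add_distrib, ← Finset.smul_sum, totZed,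
      totLow, Finset.sum_mul_sum, Finset.sum_const, Finset.card_univ, ← Nat.cast_smul_eq_nsmul ℝ,
      smul_smul]
    congr 1
    congr 1; ring
  have h1 : form (1 : ROp n V) v = ∑ σ, v σ ^ 2 := by simp [form, dotProduct, sq]
  calc ∑ x : V, ∑ y : V, form (bond n x y) v = form (∑ x : V, ∑ y : V, bond n x y) v := by
        simp [form_sum]
    _ = _ := by rw [e, form_sub, form_add, form_smul, form_smul, form_add, h1]; ring

/-- On highest weight states the mean-field form is at least proportional to the magnon number. -/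
theorem sum_dist2_ge {m : ℕ} (hm : 2 * m ≤ n * Fintype.card V + 1) (v : Cfg n V → ℝ)
    (hv : SuppAt v m) (hR : (totLow n V)ᵀ *ᵥ v = 0) :
    (m : ℝ) * n * Fintype.card V * ∑ σ, v σ ^ 2 ≤ ∑ x : V, ∑ z : V, dist2 v x z := by
  set C := ∑ σ, v σ ^ 2 with hC
  set z0 : ℝ := (n : ℝ) / 2 * Fintype.card V - m with hz0
  have hC0 : 0 ≤ C := Finset.sum_nonneg fun _ _ => sq_nonneg _
  have hZ : totZed n V *ᵥ v = z0 • v := by
    funext σ
    rw [totZed_eq, mulVec_diagonal, Pi.smul_apply, smul_eq_mul]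
    by_cases h : size σ = m
    · rw [h]
    · rw [hv σ h]; ring
  have hLR : form (totLow n V * (totLow n V)ᵀ) v = 0 := by
    rw [form, ← mulVec_mulVec, hR, mulVec_zero, dotProduct_zero]
  have hZ1 : form (totZed n V) v = z0 * C := by
    rw [form, hZ, dotProduct_smul, smul_eq_mul, hC]
    simp [dotProduct, sq]
  have hZ2 : form (totZed n V * totZed n V) v = z0 * (z0 * C) := by
    rw [form, ← mulVec_mulVec, hZ, mulVec_smul, hZ, dotProduct_smul, dotProduct_smul, hC]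
    simp [dotProduct, sq]
  have hRL : form ((totLow n V)ᵀ * totLow n V) v = 2 * (z0 * C) := by
    rw [totRai_totLow, form_add, hLR, form_smul, hZ1, zero_add]
  have hd : ∀ x z : V, dist2 v x z =
      2 * form (bond n x z) v + (if x = z then (n : ℝ) * C else 0) := by
    intro x z
    by_cases h : x = z
    · subst h
      rw [form_bond_self, dist2, if_pos rfl, if_pos rfl]
      ring
    · rw [dist2, if_neg h, if_neg h, form_bond h]; ring
  simp only [hd, Finset.sum_add_distrib, ← Finset.mul_sum, Finset.sum_ite_eq, Finset.mem_univ,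
    if_true, Finset.sum_const, Finset.card_univ, nsmul_eq_mul]
  rw [sum_form_bond, hZ2, hRL, hLR]
  have hmr : (2 : ℝ) * m ≤ (n : ℝ) * Fintype.card V + 1 := by exact_mod_cast hm
  have : (m : ℝ) * ((2 : ℝ) * m) ≤ (m : ℝ) * ((n : ℝ) * Fintype.card V + 1) :=
    mul_le_mul_of_nonneg_left hmr (Nat.cast_nonneg m)
  have h2 : (m : ℝ) * ((n : ℝ) * Fintype.card V) ≤
      2 * ((m : ℝ) * ((n : ℝ) * Fintype.card V - m + 1)) := by
    have hm0 : (0 : ℝ) ≤ m := Nat.cast_nonneg m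
    nlinarith
  have := mul_le_mul_of_nonneg_right h2 hC0
  rw [hz0]
  nlinarith

end Vale.Agent.P361.Field
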