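import Vale.Agent.P361.Field.Basic

/-!
The heat semigroup of the spin energy, its positivity, and the comparison with products of
one-magnon heat flows (the Dyson interaction is entrywise nonnegative).
-/

open Matrix Finset
open scoped Matrix.Norms.Operator

namespace Vale.Agent.P361.Field

variable {n : ℕ} {V : Type*} [Fintype V] [DecidableEq V] {G : V → V → Prop} [DecidableRel G]

section generic

variable {ι : Type*} [Fintype ι] [DecidableEq ι]

theorem hasDerivAt_exp_entry (X : Matrix ι ι ℝ) (t s : ℝ) (i j : ι) :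
    HasDerivAt (fun u : ℝ => NormedSpace.exp ((u - t) • X) i j)
      ((NormedSpace.exp ((s - t) • X) * X) i j) s := by
  have h := (hasDerivAt_exp_smul_const (𝕂 := ℝ) (𝔸 := Matrix ι ι ℝ) X (s - t)).comp_sub_const s t
  exact (Matrix.entryLinearMap ℝ ℝ i j).toContinuousLinearMap.hasFDerivAt.comp_hasDerivAt s h

theorem exp_entry_nonneg {B : Matrix ι ι ℝ} (hB : ∀ i j, 0 ≤ B i j) (i j : ι) :
    0 ≤ NormedSpace.exp B i j := by
  have hp : ∀ k : ℕ, ∀ a b, 0 ≤ (B ^ k) a b := by
    intro k
    induction k with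
    | zero => intro a b; rw [pow_zero, one_apply]; split_ifs <;> norm_num
    | succ k ih =>
        intro a b
        rw [pow_succ, mul_apply]
        exact Finset.sum_nonneg fun c _ => mul_nonneg (ih a c) (hB c b)
  have h := (NormedSpace.exp_series_hasSum_exp' (𝕂 := ℝ) B).map
    (Matrix.entryLinearMap ℝ ℝ i j).toAddMonoidHom
    (Matrix.entryLinearMap ℝ ℝ i j).continuous_of_finiteDimensional
  refine h.nonneg fun k => ?_
  simp only [Function.comp_apply, LinearMap.toAddMonoidHom_coe, Matrix.entryLinearMap_apply,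
    Matrix.smul_apply, smul_eq_mul]
  exact mul_nonneg (by positivity) (hp k i j)

end generic

/-- The heat kernel of the spin energy. -/
noncomputable def heat (n : ℕ) (G : V → V → Prop) [DecidableRel G] (t : ℝ) : ROp n V :=
  NormedSpace.exp ((-t) • energy n G)

theorem heat_zero : heat n G 0 = 1 := by simp [heat, NormedSpace.exp_zero]

theorem heat_add (s t : ℝ) : heat n G (s + t) = heat n G s * heat n G t := by
  rw [heat, heat, heat, ← Matrix.exp_add_of_commute _ _
    (((Commute.refl (energy n G)).smul_left _).smul_right _), ← add_smul, neg_add]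

theorem heat_transpose (hG : ∀ x y, G x y → x ≠ y) (t : ℝ) :
    (heat n G t)ᵀ = heat n G t := by
  rw [heat, ← Matrix.exp_transpose, transpose_smul, energy_transpose hG]

theorem bond_offdiag_nonpos {x y : V} (hxy : x ≠ y) {σ τ : Cfg n V} (h : σ ≠ τ) :
    bond n x y σ τ ≤ 0 := by
  simp only [bond, Matrix.sub_apply, Matrix.smul_apply, Matrix.add_apply, one_apply_ne h,
    zed, loc_diagonal, diagonal_mul_diagonal, diagonal_apply_ne _ h, zero_add, mul_zero,
    smul_eq_mul, zero_sub, neg_nonpos]
  refine mul_nonneg (by norm_num) (add_nonneg ?_ ?_)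
  · rw [loc_mul_apply hxy]; split_ifs; exacts [mul_nonneg (rai_nonneg _ _) (low_nonneg _ _), le_rfl]
  · rw [loc_mul_apply hxy]; split_ifs; exacts [mul_nonneg (low_nonneg _ _) (rai_nonneg _ _), le_rfl]

theorem energy_offdiag_nonpos (hG : ∀ x y, G x y → x ≠ y) {σ τ : Cfg n V} (h : σ ≠ τ) :
    energy n G σ τ ≤ 0 := by
  simp only [energy, Matrix.smul_apply, Matrix.sum_apply, smul_eq_mul]
  refine mul_nonpos_of_nonneg_of_nonpos (by norm_num)
    (Finset.sum_nonpos fun x _ => Finset.sum_nonpos fun y _ => ?_)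
  split_ifs with hxy
  · exact bond_offdiag_nonpos (hG x y hxy) h
  · simp

theorem heat_nonneg (hG : ∀ x y, G x y → x ≠ y) {t : ℝ} (ht : 0 ≤ t) (σ τ : Cfg n V) :
    0 ≤ heat n G t σ τ := by
  set c : ℝ := ∑ ρ : Cfg n V, t * |energy n G ρ ρ| with hc
  set B : ROp n V := c • 1 - t • energy n G with hB
  have hBnn : ∀ a b, 0 ≤ B a b := by
    intro a b
    simp only [hB, Matrix.sub_apply, Matrix.smul_apply, smul_eq_mul]
    by_cases h : a = b
    · subst h
      rw [one_apply_eq, mul_one, sub_nonneg, hc]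
      exact le_trans (mul_le_mul_of_nonneg_left (le_abs_self _) ht)
        (Finset.single_le_sum (f := fun ρ => t * |energy n G ρ ρ|)
          (fun ρ _ => mul_nonneg ht (abs_nonneg _)) (Finset.mem_univ a))
    · rw [one_apply_ne h, mul_zero, zero_sub, neg_nonneg]
      exact mul_nonpos_of_nonneg_of_nonpos ht (energy_offdiag_nonpos hG h)
  have e : heat n G t = diagonal (NormedSpace.exp fun _ : Cfg n V => -c) * NormedSpace.exp B := by
    rw [← Matrix.exp_diagonal, ← Matrix.exp_add_of_commute]
    · rw [heat]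
      congr 1
      rw [hB, ← Matrix.smul_one_eq_diagonal]
      module
    · rw [← Matrix.smul_one_eq_diagonal]
      exact ((Commute.one_left _).smul_left _)
  rw [e, diagonal_mul, Pi.coe_exp, ← Real.exp_eq_exp_ℝ]
  exact mul_nonneg (Real.exp_pos _).le (exp_entry_nonneg hBnn σ τ)

theorem heat_sq_le (hG : ∀ x y, G x y → x ≠ y) (t : ℝ) (σ τ : Cfg n V) :
    heat n G t σ τ ^ 2 ≤ heat n G t σ σ * heat n G t τ τ := by
  have e : ∀ a b, heat n G t a b = ∑ ρ, heat n G (t / 2) ρ a * heat n G (t / 2) ρ b := by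
    intro a b
    have h2 : heat n G t = (heat n G (t / 2))ᵀ * heat n G (t / 2) := by
      rw [heat_transpose hG, ← heat_add, add_halves]
    rw [h2, mul_apply]
    rfl
  rw [e σ τ, e σ σ, e τ τ]
  have h := Finset.sum_mul_sq_le_sq_mul_sq Finset.univ (fun ρ => heat n G (t / 2) ρ σ)
    (fun ρ => heat n G (t / 2) ρ τ)
  simpa [sq] using h

/-- Products of one-magnon creation operators applied to the polarized state. -/
noncomputable def psi (n : ℕ) : List (V → ℝ) → Cfg n V → ℝ
  | [] => vac n V
  | g :: l => crea n g *ᵥ psi n l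

/-- The free part of the energy of a product state. -/
noncomputable def lin (n : ℕ) (G : V → V → Prop) [DecidableRel G] :
    List (V → ℝ) → Cfg n V → ℝ
  | [] => 0
  | g :: l => crea n (hop n G g) *ᵥ psi n l + crea n g *ᵥ lin n G l

/-- The interaction of one magnon with the others. -/
noncomputable def cross (n : ℕ) (G : V → V → Prop) [DecidableRel G] (g : V → ℝ) :
    List (V → ℝ) → Cfg n V → ℝ
  | [] => 0
  | c :: l => crea n c *ᵥ cross n G g l + inter n G g c *ᵥ psi n l

/-- The interacting part of the energy of a product state. -/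
noncomputable def err (n : ℕ) (G : V → V → Prop) [DecidableRel G] :
    List (V → ℝ) → Cfg n V → ℝ
  | [] => 0
  | g :: l => crea n g *ᵥ err n G l + cross n G g l

theorem com_energy_crea_psi (hG : ∀ x y, G x y → x ≠ y) (hGs : ∀ x y, G x y → G y x)
    (g : V → ℝ) (l : List (V → ℝ)) :
    com (energy n G) (crea n g) *ᵥ psi n l =
      crea n (hop n G g) *ᵥ psi n l + cross n G g l := by
  induction l with
  | nil => simp [psi, cross, com_energy_crea_vac hG hGs]
  | cons c l ih =>
      have h2 : com (energy n G) (crea n g) * crea n c =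
          crea n c * com (energy n G) (crea n g) + inter n G g c := by
        rw [← com2_energy_crea]
        simp only [com]
        abel
      simp only [psi, cross, mulVec_mulVec, h2, add_mulVec]
      rw [← mulVec_mulVec, ih, mulVec_add, mulVec_mulVec, crea_comm c, ← mulVec_mulVec]
      abel

theorem energy_psi (hG : ∀ x y, G x y → x ≠ y) (hGs : ∀ x y, G x y → G y x)
    (l : List (V → ℝ)) : energy n G *ᵥ psi n l = lin n G l + err n G l := by
  induction l with
  | nil => simp [psi, lin, err, energy_mulVec_vac hG]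
  | cons g l ih =>
      have h2 : energy n G * crea n g =
          crea n g * energy n G + com (energy n G) (crea n g) := by
        simp only [com]; abel
      simp only [psi, lin, err, mulVec_mulVec, h2, add_mulVec]
      rw [← mulVec_mulVec, ih, mulVec_add, com_energy_crea_psi hG hGs]
      abel

/-- A family of one-magnon heat kernels. -/
structure HeatFamily (n : ℕ) (G : V → V → Prop) [DecidableRel G] (P : ℝ → V → V → ℝ) : Prop where
  deriv : ∀ s u v, HasDerivAt (fun r => P r u v) (-(hop n G (fun w => P s w v) u)) s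
  init : ∀ u v, P 0 u v = if u = v then 1 else 0
  symm : ∀ s u v, P s u v = P s v u
  colsum : ∀ s v, ∑ u, P s u v = 1

/-- The evolved amplitude. -/
noncomputable def evo (P : ℝ → V → V → ℝ) (s : ℝ) (g : V → ℝ) : V → ℝ :=
  fun u => ∑ v, P s u v * g v

variable {P : ℝ → V → V → ℝ}

theorem evo_zero (hP : HeatFamily n G P) (g : V → ℝ) : evo P 0 g = g := by
  funext u; simp [evo, hP.init]

theorem evo_deriv (hP : HeatFamily n G P) (g : V → ℝ) (s : ℝ) (u : V) :
    HasDerivAt (fun r => evo P r g u) (-(hop n G (evo P s g) u)) s := by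
  have h := HasDerivAt.fun_sum (u := Finset.univ) fun v (_ : v ∈ Finset.univ) =>
    (hP.deriv s u v).mul_const (g v)
  refine h.congr_deriv ?_
  simp only [hop, evo, Finset.mul_sum, mul_ite, mul_zero, ← Finset.sum_sub_distrib, neg_mul,
    Finset.sum_mul, ite_mul, zero_mul, Finset.sum_neg_distrib]
  rw [Finset.sum_comm]
  refine congrArg Neg.neg (Finset.sum_congr rfl fun w _ => ?_)
  split_ifs with h
  · exact Finset.sum_congr rfl fun v _ => by ring
  · simp

theorem psi_deriv (hP : HeatFamily n G P) (l : List (V → ℝ)) (s : ℝ) (σ : Cfg n V) :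
    HasDerivAt (fun r => psi n (l.map (evo P r)) σ)
      (-(lin n G (l.map (evo P s)) σ)) s := by
  induction l generalizing σ with
  | nil => simpa [psi, lin] using hasDerivAt_const s (vac n V σ)
  | cons g l ih =>
      simp only [List.map_cons, psi, lin, mulVec, dotProduct, Pi.add_apply]
      have h := HasDerivAt.fun_sum (u := Finset.univ) fun τ (_ : τ ∈ Finset.univ) =>
        (HasDerivAt.fun_sum (u := Finset.univ) fun x (_ : x ∈ Finset.univ) =>
          (evo_deriv hP g s x).mul_const (loc x (low n) σ τ)).fun_mul (ih τ)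
      have e : ∀ (f : V → ℝ) τ, crea n f σ τ = ∑ x, f x * loc x (low n) σ τ := by
        intro f τ; simp [crea, Matrix.sum_apply]
      simp only [e]
      refine h.congr_deriv ?_
      simp only [neg_mul, mul_neg, Finset.sum_neg_distrib, Finset.sum_add_distrib]
      ring

theorem flow_deriv (hG : ∀ x y, G x y → x ≠ y) (hGs : ∀ x y, G x y → G y x)
    (hP : HeatFamily n G P) (l : List (V → ℝ)) (t s : ℝ) (σ : Cfg n V) :
    HasDerivAt (fun r => (heat n G (t - r) *ᵥ psi n (l.map (evo P r))) σ)
      ((heat n G (t - s) *ᵥ err n G (l.map (evo P s))) σ) s := by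
  simp only [mulVec, dotProduct, heat, neg_sub]
  have h := HasDerivAt.fun_sum (u := Finset.univ) fun τ (_ : τ ∈ Finset.univ) =>
    (hasDerivAt_exp_entry (energy n G) t s σ τ).fun_mul (psi_deriv hP l s τ)
  refine h.congr_deriv ?_
  simp only [Finset.sum_add_distrib, mul_neg, Finset.sum_neg_distrib]
  set X := NormedSpace.exp ((s - t) • energy n G)
  set q := l.map (evo P s)
  have e1 : ∑ τ, (X * energy n G) σ τ * psi n q τ = ((X * energy n G) *ᵥ psi n q) σ := rfl
  rw [e1, ← mulVec_mulVec, energy_psi hG hGs, mulVec_add]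
  simp [mulVec, dotProduct]

theorem flow_ends (hP : HeatFamily n G P) (l : List (V → ℝ)) (t : ℝ) (σ : Cfg n V) :
    (heat n G (t - 0) *ᵥ psi n (l.map (evo P 0))) σ = (heat n G t *ᵥ psi n l) σ ∧
    (heat n G (t - t) *ᵥ psi n (l.map (evo P t))) σ = psi n (l.map (evo P t)) σ := by
  have : evo P 0 = id := funext fun g => evo_zero hP g
  simp [this, heat_zero]

/-- Liggett's comparison: a nonnegative interaction means the free flow dominates. -/
theorem heat_psi_le (hG : ∀ x y, G x y → x ≠ y) (hGs : ∀ x y, G x y → G y x)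
    (hP : HeatFamily n G P) (l : List (V → ℝ)) {t : ℝ} (ht : 0 ≤ t)
    (hpos : ∀ s ∈ Set.Icc (0 : ℝ) t, ∀ τ, 0 ≤ err n G (l.map (evo P s)) τ) (σ : Cfg n V) :
    (heat n G t *ᵥ psi n l) σ ≤ psi n (l.map (evo P t)) σ := by
  have hd := fun s => flow_deriv hG hGs hP l t s σ
  have hm : MonotoneOn (fun r => (heat n G (t - r) *ᵥ psi n (l.map (evo P r))) σ)
      (Set.Icc 0 t) := by
    refine monotoneOn_of_hasDerivWithinAt_nonneg (convex_Icc _ _)
      (fun s _ => (hd s).continuousAt.continuousWithinAt) (fun s _ => (hd s).hasDerivWithinAt) ?_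
    intro s hs
    rw [interior_Icc] at hs
    simp only [mulVec, dotProduct]
    exact Finset.sum_nonneg fun τ _ => mul_nonneg
      (heat_nonneg hG (by linarith [hs.2]) σ τ) (hpos s ⟨hs.1.le, hs.2.le⟩ τ)
  obtain ⟨h0, h1⟩ := flow_ends hP l t σ
  rw [← h0, ← h1]
  exact hm (Set.left_mem_Icc.2 ht) (Set.right_mem_Icc.2 ht) ht

/-- Duhamel's bound on the difference between the interacting and the free flow. -/
theorem heat_psi_sub_le (hG : ∀ x y, G x y → x ≠ y) (hGs : ∀ x y, G x y → G y x)
    (hP : HeatFamily n G P) (l : List (V → ℝ)) {t C : ℝ} (ht : 0 ≤ t) (σ : Cfg n V)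
    (hC : ∀ s ∈ Set.Icc (0 : ℝ) t,
      |(heat n G (t - s) *ᵥ err n G (l.map (evo P s))) σ| ≤ C) :
    |psi n (l.map (evo P t)) σ - (heat n G t *ᵥ psi n l) σ| ≤ C * t := by
  have h := norm_image_sub_le_of_norm_deriv_le_segment'
    (f := fun r => (heat n G (t - r) *ᵥ psi n (l.map (evo P r))) σ)
    (fun s _ => (flow_deriv hG hGs hP l t s σ).hasDerivWithinAt)
    (fun s hs => (hC s (Set.Ico_subset_Icc_self hs))) t (Set.right_mem_Icc.2 ht)
  obtain ⟨h0, h1⟩ := flow_ends hP l t σ
  rwa [Real.norm_eq_abs, h0, h1, sub_zero] at h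

end Vale.Agent.P361.Field
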