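import Vale.Agent.P361.Field.Asymptotic

/-!
Existence of the thermodynamic limit of the pressure for nonnegative field.
-/

open Matrix Finset Filter
open scoped Topology

namespace Vale.Agent.P361.Field

variable {n N : ℕ}

theorem tendsto_pressureN_pos (hn : 1 ≤ n) {β h : ℝ} (hβ : 0 < β) (hh : 0 < h) :
    Tendsto (fun N => pressureN n N β h) atTop (𝓝 (pressure n β h)) := by
  set z := Real.exp (-(β * h)) with hz
  have hz1 : z < 1 := Real.exp_lt_one_iff.2 (neg_neg_iff_pos.2 (mul_pos hβ hh))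
  set a : ℕ → ℝ := fun N => Real.log (zPart n (@cAdj (2 * N + 1)) β z) / ((2 * N + 1 : ℕ) : ℝ) ^ 3
    with ha
  have ha0 : ∀ N, 0 ≤ a N := fun N =>
    div_nonneg (Real.log_nonneg (one_le_zPart hn hβ.le (Real.exp_pos _).le)) (by positivity)
  have hbdd : BddBelow (Set.range a) := ⟨0, by rintro _ ⟨N, rfl⟩; exact ha0 N⟩
  have hlim : Tendsto a atTop (𝓝 (⨅ N, a N)) := by
    refine tendsto_order.2 ⟨fun b hb => Eventually.of_forall fun N => hb.trans_le (ciInf_le hbdd N),
      fun b hb => ?_⟩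
    obtain ⟨M, hM⟩ := exists_lt_of_ciInf_lt hb
    have h0 : Tendsto (fun N : ℕ => (((2 * N + 1) ^ 3 - ((2 * N + 1) / (2 * M + 1) * (2 * M + 1)) ^ 3 : ℕ) : ℝ) /
        ((2 * N + 1 : ℕ) : ℝ) ^ 3 * Real.log (1 / (1 - z))) atTop (𝓝 0) := by
      simpa using ((tendsto_shell (2 * M + 1) (Nat.succ_pos _)).comp
        (tendsto_atTop_mono (fun N : ℕ => show N ≤ 2 * N + 1 by omega) tendsto_id)).mul_const
          (Real.log (1 / (1 - z)))
    filter_upwards [h0.eventually (eventually_lt_nhds (sub_pos.2 hM))] with N hN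
    have := log_zPart_tiling (L := 2 * N + 1) (ℓ := 2 * M + 1) hn (Nat.succ_pos _)
      (Nat.succ_pos _) hβ.le (Real.exp_pos _) hz1
    simp only [ha] at hN ⊢
    linarith
  have he : Tendsto (fun N : ℕ => (1 : ℝ) / (2 * N + 1 : ℕ)) atTop (𝓝 0) :=
    tendsto_const_nhds.div_atTop (tendsto_natCast_atTop_atTop.comp
      (tendsto_atTop_mono (fun N => show N ≤ 2 * N + 1 by omega) tendsto_id))
  have hP : Tendsto (fun N => pressureN n N β h) atTop
      (𝓝 (3 * ((n : ℝ) / 2) ^ 2 * (1 - 0) + h * ((n : ℝ) / 2) + (⨅ N, a N) / β)) := by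
    refine ((((he.const_sub 1).const_mul _).add_const _).add (hlim.div_const β)).congr fun N => ?_
    rw [pressureN_zPart hn hβ, ← hz]
    simp only [ha, div_div, mul_comm β]
  rw [pressure, hP.limsup_eq]
  exact hP

/-- The pressure is a genuine limit for every nonnegative field. -/
theorem tendsto_pressureN (hn : 1 ≤ n) {β h : ℝ} (hβ : 0 < β) (hh : 0 ≤ h) :
    Tendsto (fun N => pressureN n N β h) atTop (𝓝 (pressure n β h)) := by
  rcases hh.eq_or_lt with rfl | hh
  swap
  · exact tendsto_pressureN_pos hn hβ hh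
  rw [Metric.tendsto_nhds]
  intro ε hε
  have hS : (0 : ℝ) < n / 2 := by
    have : (0 : ℝ) < n := by exact_mod_cast hn
    positivity
  set δ := ε / (4 * ((n : ℝ) / 2)) with hδdef
  have hδ : 0 < δ := by positivity
  have hδS : δ * ((n : ℝ) / 2) = ε / 4 := by rw [hδdef]; field_simp
  have hb : ∀ (N : ℕ) (x : ℝ), -((n : ℝ) / 2) ≤ magN n N β x ∧ magN n N β x ≤ (n : ℝ) / 2 := by
    intro N x
    have := abs_le.1 (abs_avg_magnetization_le (gibbsMat_isHermitian (n := n) (N := N) β x))
    rw [magN, le_div_iff₀ (by exact_mod_cast card_site_pos (N := N)),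
      div_le_iff₀ (by exact_mod_cast card_site_pos (N := N))]
    constructor <;> linarith [this.1, this.2]
  have h1 := pressure_increment (n := n) hβ hδ.le
    (Eventually.of_forall fun N => (hb N 0).1) (Eventually.of_forall fun N => (hb N δ).2)
  filter_upwards [(Metric.tendsto_nhds.1 (tendsto_pressureN_pos hn hβ hδ)) (ε / 4) (by positivity)]
    with N hN
  rw [Real.dist_eq, abs_lt] at hN ⊢
  have h2 := magN_supporting (n := n) (N := N) hβ 0 δ
  have h3 := magN_supporting (n := n) (N := N) hβ δ 0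
  have h4 := mul_le_mul_of_nonneg_left (hb N 0).1 hδ.le
  have h5 := mul_le_mul_of_nonneg_left (hb N δ).2 hδ.le
  constructor <;> linarith [h1.1, h1.2, hN.1, hN.2]

end Vale.Agent.P361.Field
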