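import Vale.Agent.P361.Field.States

/-!
Entrywise majorants, positivity of the interaction for equal amplitudes, and the values of
product states on configurations with simple occupation.
-/

open Matrix Finset

namespace Vale.Agent.P361.Field

variable {n : ℕ} {V : Type*} [Fintype V] [DecidableEq V] {G : V → V → Prop} [DecidableRel G]

theorem crea_mulVec_nonneg {g : V → ℝ} (hg : ∀ x, 0 ≤ g x) {v : Cfg n V → ℝ}
    (hv : ∀ σ, 0 ≤ v σ) (σ : Cfg n V) : 0 ≤ (crea n g *ᵥ v) σ := by
  rw [crea_mulVec]
  refine Finset.sum_nonneg fun x _ => ?_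
  split_ifs
  · rfl
  · exact mul_nonneg (hg x) (mul_nonneg (wgt_nonneg _) (hv _))

theorem loc_low_mulVec_nonneg (x : V) {v : Cfg n V → ℝ} (hv : ∀ σ, 0 ≤ v σ) (σ : Cfg n V) :
    0 ≤ (loc x (low n) *ᵥ v) σ := by
  rw [loc_low_mulVec]
  split_ifs
  · rfl
  · exact mul_nonneg (wgt_nonneg _) (hv _)

theorem cross_replicate_nonneg {g : V → ℝ} (hg : ∀ x, 0 ≤ g x) (k : ℕ) (σ : Cfg n V) :
    0 ≤ cross n G g (List.replicate k g) σ := by
  induction k generalizing σ with
  | zero => simp [cross]
  | succ k ih =>
      rw [List.replicate_succ, cross, Pi.add_apply]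
      refine add_nonneg (crea_mulVec_nonneg hg ih σ) ?_
      rw [inter_mulVec]
      refine mul_nonneg (by norm_num) (Finset.sum_nonneg fun x _ => Finset.sum_nonneg fun y _ => ?_)
      split_ifs
      · exact mul_nonneg (mul_self_nonneg _) (loc_low_mulVec_nonneg _ (loc_low_mulVec_nonneg _
          (psi_nonneg _ fun c hc z => by rw [List.eq_of_mem_replicate hc]; exact hg z)) σ)
      · rfl

theorem err_replicate_nonneg {g : V → ℝ} (hg : ∀ x, 0 ≤ g x) (k : ℕ) (σ : Cfg n V) :
    0 ≤ err n G (List.replicate k g) σ := by
  induction k generalizing σ with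
  | zero => simp [err]
  | succ k ih =>
      rw [List.replicate_succ, err, Pi.add_apply]
      exact add_nonneg (crea_mulVec_nonneg hg ih σ) (cross_replicate_nonneg hg k σ)

/-- The majorant of the interaction of one magnon with `k` others. -/
noncomputable def majCross (n : ℕ) (G : V → V → Prop) [DecidableRel G] : ℕ → Cfg n V → ℝ
  | 0 => 0
  | k + 1 => crea n (fun _ => 1) *ᵥ majCross n G k + fun σ => 1 / 2 * ∑ x, ∑ y,
      if G x y then 4 * (loc x (low n) *ᵥ (loc y (low n) *ᵥ flat n V k)) σ else 0

/-- The majorant of the interaction of `k` magnons. -/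
noncomputable def majErr (n : ℕ) (G : V → V → Prop) [DecidableRel G] : ℕ → Cfg n V → ℝ
  | 0 => 0
  | k + 1 => crea n (fun _ => 1) *ᵥ majErr n G k + majCross n G k

theorem abs_crea_le {g : V → ℝ} {p q : ℝ} (hp : 0 ≤ p) (hg : ∀ x, |g x| ≤ p)
    {v w : Cfg n V → ℝ} (hv : ∀ σ, |v σ| ≤ q * w σ) (σ : Cfg n V) :
    |(crea n g *ᵥ v) σ| ≤ p * q * (crea n (fun _ => 1) *ᵥ w) σ := by
  rw [crea_mulVec, crea_mulVec, Finset.mul_sum]
  refine le_trans (Finset.abs_sum_le_sum_abs _ _) (Finset.sum_le_sum fun x _ => ?_)
  split_ifs
  · simp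
  · rw [abs_mul, abs_mul, abs_of_nonneg (wgt_nonneg _)]
    calc |g x| * (wgt n (σ x) * |v (dec σ x)|) ≤ p * (wgt n (σ x) * (q * w (dec σ x))) :=
          mul_le_mul (hg x) (mul_le_mul_of_nonneg_left (hv _) (wgt_nonneg _))
            (mul_nonneg (wgt_nonneg _) (abs_nonneg _)) hp
      _ = _ := by ring

theorem abs_loc_low_le (x : V) {q : ℝ} {v w : Cfg n V → ℝ} (hv : ∀ σ, |v σ| ≤ q * w σ)
    (σ : Cfg n V) : |(loc x (low n) *ᵥ v) σ| ≤ q * (loc x (low n) *ᵥ w) σ := by
  rw [loc_low_mulVec, loc_low_mulVec]
  split_ifs
  · simp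
  · rw [abs_mul, abs_of_nonneg (wgt_nonneg _)]
    calc wgt n (σ x) * |v (dec σ x)| ≤ wgt n (σ x) * (q * w (dec σ x)) :=
          mul_le_mul_of_nonneg_left (hv _) (wgt_nonneg _)
      _ = _ := by ring

theorem abs_psi_le {p : ℝ} (hp : 0 ≤ p) (l : List (V → ℝ)) (h : ∀ g ∈ l, ∀ x, |g x| ≤ p)
    (σ : Cfg n V) : |psi n l σ| ≤ p ^ l.length * flat n V l.length σ := by
  induction l generalizing σ with
  | nil => simp only [psi, flat, List.length_nil, List.replicate_zero, pow_zero, one_mul]
           rw [abs_of_nonneg]
           simp only [vac]; split_ifs <;> norm_num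
  | cons g l ih =>
      simp only [List.forall_mem_cons] at h
      rw [psi, List.length_cons, flat, List.replicate_succ, psi, pow_succ']
      exact abs_crea_le hp h.1 (ih h.2) σ

theorem abs_cross_le {p : ℝ} (hp : 0 ≤ p) (g : V → ℝ) (hg : ∀ x, |g x| ≤ p) (l : List (V → ℝ))
    (h : ∀ c ∈ l, ∀ x, |c x| ≤ p) (σ : Cfg n V) :
    |cross n G g l σ| ≤ p ^ (l.length + 1) * majCross n G l.length σ := by
  induction l generalizing σ with
  | nil => simp [cross, majCross]
  | cons c l ih =>
      simp only [List.forall_mem_cons] at h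
      rw [cross, List.length_cons, majCross, Pi.add_apply, Pi.add_apply, mul_add]
      refine le_trans (abs_add_le _ _) (add_le_add ?_ ?_)
      · refine le_trans (abs_crea_le hp h.1 (ih h.2) σ) (le_of_eq ?_)
        ring
      · rw [inter_mulVec, abs_mul, abs_of_pos (show (0 : ℝ) < 1 / 2 by norm_num)]
        simp only [Finset.mul_sum]
        refine le_trans (mul_le_mul_of_nonneg_left (le_trans (Finset.abs_sum_le_sum_abs _ _)
          (Finset.sum_le_sum fun x _ => Finset.abs_sum_le_sum_abs _ _)) (by norm_num)) ?_
        simp only [Finset.mul_sum]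
        refine Finset.sum_le_sum fun x _ => Finset.sum_le_sum fun y _ => ?_
        split_ifs
        · have h2 : |(loc x (low n) *ᵥ (loc y (low n) *ᵥ psi n l)) σ| ≤
              p ^ l.length * (loc x (low n) *ᵥ (loc y (low n) *ᵥ flat n V l.length)) σ :=
            abs_loc_low_le x (abs_loc_low_le y (abs_psi_le hp l h.2)) σ
          have h3 : ∀ (f : V → ℝ), (∀ z, |f z| ≤ p) → |f x - f y| ≤ 2 * p := by
            intro f hf
            have := abs_sub (f x) (f y)
            linarith [hf x, hf y]
          rw [abs_mul, abs_mul]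
          calc 1 / 2 * (|g x - g y| * |c x - c y| *
                |(loc x (low n) *ᵥ (loc y (low n) *ᵥ psi n l)) σ|)
              ≤ 1 / 2 * (2 * p * (2 * p) * (p ^ l.length *
                (loc x (low n) *ᵥ (loc y (low n) *ᵥ flat n V l.length)) σ)) := by
                gcongr
                · exact h3 g hg
                · exact h3 c h.1
            _ = _ := by ring
        · simp

theorem abs_err_le {p : ℝ} (hp : 0 ≤ p) (l : List (V → ℝ)) (h : ∀ g ∈ l, ∀ x, |g x| ≤ p)
    (σ : Cfg n V) : |err n G l σ| ≤ p ^ l.length * majErr n G l.length σ := by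
  induction l generalizing σ with
  | nil => simp [err, majErr]
  | cons g l ih =>
      simp only [List.forall_mem_cons] at h
      rw [err, List.length_cons, majErr, Pi.add_apply, Pi.add_apply, mul_add]
      refine le_trans (abs_add_le _ _) (add_le_add ?_ ?_)
      · refine le_trans (abs_crea_le hp h.1 (ih h.2) σ) (le_of_eq ?_)
        ring
      · exact abs_cross_le hp g h.1 l h.2 σ

theorem l1_crea_one (v : Cfg n V → ℝ) :
    l1 (crea n (fun _ => (1 : ℝ)) *ᵥ v) ≤ ((n : ℝ) + 1) * Fintype.card V * l1 v := by
  simpa using l1_crea (fun _ : V => (1 : ℝ)) v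

theorem l1_flat (k : ℕ) : l1 (flat n V k) ≤ (((n : ℝ) + 1) * Fintype.card V) ^ k := by
  induction k with
  | zero => simp [flat, psi, l1_vac]
  | succ k ih =>
      rw [flat, List.replicate_succ, psi, pow_succ']
      exact le_trans (l1_crea_one _) (mul_le_mul_of_nonneg_left ih (by positivity))

theorem l1_majCross {D : ℕ} (hD : ∀ x, (Finset.univ.filter fun y => G x y).card ≤ D) (k : ℕ) :
    l1 (majCross n G k) ≤
      2 * k * D * ((n : ℝ) + 1) ^ (k + 1) * (Fintype.card V : ℝ) ^ k := by
  induction k with
  | zero => simp [majCross, l1]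
  | succ k ih =>
      rw [majCross]
      refine le_trans (l1_add _ _) ?_
      have h1 := le_trans (l1_crea_one _) (mul_le_mul_of_nonneg_left ih
        (show (0 : ℝ) ≤ ((n : ℝ) + 1) * Fintype.card V by positivity))
      have h2 : l1 (fun σ => 1 / 2 * ∑ x, ∑ y, if G x y then
          4 * (loc x (low n) *ᵥ (loc y (low n) *ᵥ flat n V k)) σ else 0) ≤
          2 * D * ((n : ℝ) + 1) ^ (k + 2) * (Fintype.card V : ℝ) ^ (k + 1) := by
        calc l1 (fun σ => 1 / 2 * ∑ x, ∑ y, if G x y then
              4 * (loc x (low n) *ᵥ (loc y (low n) *ᵥ flat n V k)) σ else 0)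
            ≤ 1 / 2 * ∑ x, ∑ y, if G x y then
              4 * l1 (loc x (low n) *ᵥ (loc y (low n) *ᵥ flat n V k)) else 0 := by
              simp only [l1, abs_mul, abs_of_pos (show (0 : ℝ) < 1 / 2 by norm_num)]
              rw [← Finset.mul_sum]
              refine mul_le_mul_of_nonneg_left ?_ (by norm_num)
              refine le_trans (Finset.sum_le_sum fun σ _ => le_trans (Finset.abs_sum_le_sum_abs _ _)
                (Finset.sum_le_sum fun x _ => Finset.abs_sum_le_sum_abs _ _)) (le_of_eq ?_)
              rw [Finset.sum_comm]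
              refine Finset.sum_congr rfl fun x _ => ?_
              rw [Finset.sum_comm]
              refine Finset.sum_congr rfl fun y _ => ?_
              split_ifs
              · simp [abs_mul, Finset.mul_sum]
              · simp
          _ ≤ 1 / 2 * ∑ x, ∑ y, if G x y then
              4 * (((n : ℝ) + 1) ^ 2 * (((n : ℝ) + 1) * Fintype.card V) ^ k) else 0 := by
              gcongr with x _ y _
              split_ifs
              · refine mul_le_mul_of_nonneg_left ?_ (by norm_num)
                refine le_trans (l1_loc_low x _) ?_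
                refine le_trans (mul_le_mul_of_nonneg_left (le_trans (l1_loc_low y _)
                  (mul_le_mul_of_nonneg_left (l1_flat k) (by positivity))) (by positivity)) ?_
                rw [sq, mul_assoc]
              · rfl
          _ ≤ _ := by
              have e : ∀ x : V, (∑ y, if G x y then
                  4 * (((n : ℝ) + 1) ^ 2 * (((n : ℝ) + 1) * Fintype.card V) ^ k) else 0) ≤
                  (D : ℝ) * (4 * (((n : ℝ) + 1) ^ 2 * (((n : ℝ) + 1) * Fintype.card V) ^ k)) := by
                intro x
                rw [← Finset.sum_filter, Finset.sum_const, nsmul_eq_mul]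
                exact mul_le_mul_of_nonneg_right (by exact_mod_cast hD x) (by positivity)
              refine le_trans (mul_le_mul_of_nonneg_left (Finset.sum_le_sum fun x _ => e x)
                (by norm_num)) (le_of_eq ?_)
              rw [Finset.sum_const, Finset.card_univ, nsmul_eq_mul, mul_pow]
              ring
      refine le_trans (add_le_add h1 h2) (le_of_eq ?_)
      push_cast
      ring

theorem l1_majErr {D : ℕ} (hD : ∀ x, (Finset.univ.filter fun y => G x y).card ≤ D) (m k : ℕ)
    (hk : k ≤ m) :
    l1 (majErr n G k) ≤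
      2 * k * m * D * ((n : ℝ) + 1) ^ k * (Fintype.card V : ℝ) ^ (k - 1) := by
  induction k with
  | zero => simp [majErr, l1]
  | succ k ih =>
      rw [majErr, Nat.add_sub_cancel]
      refine le_trans (l1_add _ _) ?_
      have h1 : l1 (crea n (fun _ => (1 : ℝ)) *ᵥ majErr n G k) ≤
          2 * k * m * D * ((n : ℝ) + 1) ^ (k + 1) * (Fintype.card V : ℝ) ^ k := by
        refine le_trans (l1_crea_one _) (le_trans (mul_le_mul_of_nonneg_left (ih (by omega))
          (by positivity)) ?_)
        rcases Nat.eq_zero_or_pos k with hk0 | hk0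
        · subst hk0; simp
        · have hp : (Fintype.card V : ℝ) ^ (k - 1) * Fintype.card V =
              (Fintype.card V : ℝ) ^ k := by
            rw [← pow_succ, Nat.sub_add_cancel hk0]
          refine le_of_eq ?_
          calc _ = 2 * (k : ℝ) * m * D * ((n : ℝ) + 1) ^ (k + 1) *
                ((Fintype.card V : ℝ) ^ (k - 1) * Fintype.card V) := by ring
            _ = _ := by rw [hp]
      have hkm : (k : ℝ) ≤ m := by exact_mod_cast (by omega : k ≤ m)
      have h2 : l1 (majCross n G k) ≤
          2 * m * D * ((n : ℝ) + 1) ^ (k + 1) * (Fintype.card V : ℝ) ^ k :=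
        le_trans (l1_majCross hD k) (by gcongr)
      refine le_trans (add_le_add h1 h2) (le_of_eq ?_)
      push_cast
      ring

/-- The configuration with one magnon at each of the given vertices. -/
def occ (n : ℕ) {m : ℕ} (x : Fin m → V) : Cfg n V :=
  fun v => Fin.ofNat (n + 1) (if ∃ i, x i = v then 1 else 0)

omit [Fintype V] in
theorem occ_val (hn : 1 ≤ n) {m : ℕ} (x : Fin m → V) (v : V) :
    (occ n x v : ℕ) = if ∃ i, x i = v then 1 else 0 := by
  simp only [occ, Fin.val_ofNat]
  split_ifs
  · exact Nat.mod_eq_of_lt (by omega)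
  · simp

theorem size_occ (hn : 1 ≤ n) {m : ℕ} {x : Fin m → V} (hx : Function.Injective x) :
    size (occ n x) = m := by
  simp only [size, occ_val hn, Finset.sum_boole]
  rw [Nat.cast_id]
  have : (Finset.univ.filter fun v => ∃ i, x i = v) = Finset.univ.image x := by ext; simp
  rw [this, Finset.card_image_of_injective _ hx, Finset.card_univ, Fintype.card_fin]

/-- The sum over permutations of products of amplitudes. -/
noncomputable def permSum {m : ℕ} (g : Fin m → V → ℝ) (x : Fin m → V) : ℝ :=
  ∑ e : Equiv.Perm (Fin m), ∏ i, g i (x (e i))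

omit [Fintype V] [DecidableEq V] in
theorem permSum_succ {m : ℕ} (g : Fin (m + 1) → V → ℝ) (x : Fin (m + 1) → V) :
    permSum g x = ∑ j, g 0 (x j) *
      permSum (fun i => g i.succ) (fun i => x (Equiv.swap 0 j i.succ)) := by
  simp only [permSum, Finset.mul_sum]
  rw [← Equiv.sum_comp Equiv.Perm.decomposeFin.symm, Fintype.sum_prod_type]
  refine Finset.sum_congr rfl fun j _ => Finset.sum_congr rfl fun e _ => ?_
  rw [Fin.prod_univ_succ]
  simp

theorem psi_ofFn_occ (hn : 1 ≤ n) {m : ℕ} (g : Fin m → V → ℝ) {x : Fin m → V}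
    (hx : Function.Injective x) :
    psi n (List.ofFn g) (occ n x) = Real.sqrt n ^ m * permSum g x := by
  induction m with
  | zero =>
      have : occ n x = fun _ => 0 := funext fun v => Fin.ext (by simp [occ_val hn])
      simp [psi, vac, this, permSum]
  | succ m ih =>
      rw [List.ofFn_succ, psi, crea_mulVec, permSum_succ, Finset.mul_sum]
      rw [← Finset.sum_subset (Finset.subset_univ (Finset.univ.image x))]
      · rw [Finset.sum_image fun a _ b _ h => hx h]
        refine Finset.sum_congr rfl fun j _ => ?_
        have h1 : (occ n x (x j) : ℕ) = 1 := by simp [occ_val hn]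
        have hx' : Function.Injective fun i : Fin m => x (Equiv.swap 0 j i.succ) :=
          fun a b h => Fin.succ_injective _ ((Equiv.swap 0 j).injective (hx h))
        have hd : dec (occ n x) (x j) = occ n (fun i : Fin m => x (Equiv.swap 0 j i.succ)) := by
          funext v
          apply Fin.ext
          by_cases hv : v = x j
          · subst hv
            rw [occ_val hn, if_neg]
            · simp [dec, h1]
            · rintro ⟨i, hi⟩
              have h2 : Equiv.swap 0 j i.succ = j := hx hi
              rw [Equiv.swap_apply_eq_iff, Equiv.swap_apply_right] at h2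
              exact Fin.succ_ne_zero i h2
          · simp only [dec, Function.update_of_ne hv, occ_val hn]
            refine if_congr ⟨?_, ?_⟩ rfl rfl
            · rintro ⟨i, rfl⟩
              have hne : Equiv.swap 0 j i ≠ 0 := by
                intro h0
                rw [Equiv.swap_apply_eq_iff, Equiv.swap_apply_left] at h0
                exact hv (by rw [h0])
              obtain ⟨i', hi'⟩ := Fin.exists_succ_eq.2 hne
              exact ⟨i', by rw [hi', Equiv.swap_apply_self]⟩
            · rintro ⟨i, hi⟩
              exact ⟨_, hi⟩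
        have hw : wgt n (occ n x (x j)) = Real.sqrt n := by
          rw [wgt, show ((occ n x (x j) : ℕ) : ℝ) = 1 by exact_mod_cast h1]
          ring_nf
        rw [if_neg (by omega), hd, hw, ih _ hx']
        ring
      · intro v _ hv
        rw [if_pos]
        rw [occ_val hn, if_neg]
        rintro ⟨i, hi⟩
        exact hv (Finset.mem_image.2 ⟨i, Finset.mem_univ _, hi⟩)

theorem psi_congr_supp {c : ℝ} {g h : V → ℝ} (hh : ∀ x, 0 ≤ h x) (k : ℕ)
    (σ : Cfg n V) (hgh : ∀ x, (σ x : ℕ) ≠ 0 → h x ≤ c * g x) :
    psi n (List.replicate k h) σ ≤ c ^ k * psi n (List.replicate k g) σ := by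
  induction k generalizing σ with
  | zero => simp [psi]
  | succ k ih =>
      rw [List.replicate_succ, List.replicate_succ, psi, psi, crea_mulVec, crea_mulVec,
        Finset.mul_sum]
      refine Finset.sum_le_sum fun x _ => ?_
      split_ifs with h0
      · simp
      · have hsub : ∀ y, (dec σ x y : ℕ) ≠ 0 → (σ y : ℕ) ≠ 0 := by
          intro y hy
          by_cases hyx : y = x
          · subst hyx; exact h0
          · simpa [dec, hyx] using hy
        have hn0 : 0 ≤ psi n (List.replicate k h) (dec σ x) :=
          psi_nonneg _ (fun f hf => by rw [List.eq_of_mem_replicate hf]; exact hh) _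
        calc h x * (wgt n (σ x) * psi n (List.replicate k h) (dec σ x))
            ≤ c * g x * (wgt n (σ x) * (c ^ k * psi n (List.replicate k g) (dec σ x))) :=
              mul_le_mul (hgh x h0)
                (mul_le_mul_of_nonneg_left (ih _ fun y hy => hgh y (hsub y hy)) (wgt_nonneg _))
                (mul_nonneg (wgt_nonneg _) hn0) (le_trans (hh x) (hgh x h0))
          _ = _ := by ring

end Vale.Agent.P361.Field
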