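import Vale.Agent.P361.Field.Point

/-!
The diagonal heat-kernel bound and the comparison of the trace in the sector with `m` magnons with
that of `m` free bosons.
-/

open Matrix Finset

namespace Vale.Agent.P361.Field

variable {n : ℕ} {V : Type*} [Fintype V] [DecidableEq V] {G : V → V → Prop} [DecidableRel G]
variable {P : ℝ → V → V → ℝ}

theorem cross_replicate_one (k : ℕ) :
    cross n G (fun _ : V => (1 : ℝ)) (List.replicate k fun _ => (1 : ℝ)) = 0 := by
  induction k with
  | zero => rfl
  | succ k ih =>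
      rw [List.replicate_succ, cross, ih, mulVec_zero, zero_add]
      funext σ
      simp [inter_mulVec]

theorem err_replicate_one (k : ℕ) :
    err n G (List.replicate k fun _ : V => (1 : ℝ)) = 0 := by
  induction k with
  | zero => rfl
  | succ k ih => rw [List.replicate_succ, err, ih, mulVec_zero, cross_replicate_one, add_zero]

theorem evo_one (hP : HeatFamily n G P) (s : ℝ) :
    evo P s (fun _ : V => (1 : ℝ)) = fun _ => (1 : ℝ) := by
  funext u
  simp only [evo, mul_one]
  calc ∑ v, P s u v = ∑ v, P s v u := Finset.sum_congr rfl fun v _ => hP.symm s u v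
    _ = 1 := hP.colsum s u

theorem heat_flat (hG : ∀ x y, G x y → x ≠ y) (hGs : ∀ x y, G x y → G y x)
    (hP : HeatFamily n G P) (k : ℕ) {t : ℝ} (ht : 0 ≤ t) (σ : Cfg n V) :
    (heat n G t *ᵥ flat n V k) σ = flat n V k σ := by
  have hl : ∀ s, (List.replicate k fun _ : V => (1 : ℝ)).map (evo P s)
      = List.replicate k fun _ => (1 : ℝ) := fun s => by rw [List.map_replicate, evo_one hP]
  have h := heat_psi_sub_le hG hGs hP (List.replicate k fun _ : V => (1 : ℝ)) (C := 0) ht σ
    (fun s _ => by rw [hl, err_replicate_one, mulVec_zero]; simp)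
  rw [hl, zero_mul, abs_nonpos_iff, sub_eq_zero] at h
  exact h.symm

theorem sum_heat_le (hG : ∀ x y, G x y → x ≠ y) (hGs : ∀ x y, G x y → G y x)
    (hP : HeatFamily n G P) (k : ℕ) {t : ℝ} (ht : 0 ≤ t) (τ : Cfg n V) :
    ∑ σ ∈ Finset.univ.filter (fun σ : Cfg n V => size σ = k), heat n G t σ τ ≤ flat n V k τ := by
  calc ∑ σ ∈ Finset.univ.filter (fun σ : Cfg n V => size σ = k), heat n G t σ τ
      ≤ ∑ σ ∈ Finset.univ.filter (fun σ : Cfg n V => size σ = k),
          heat n G t σ τ * flat n V k σ :=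
        Finset.sum_le_sum fun σ hσ => le_mul_of_one_le_right (heat_nonneg hG ht σ τ)
          (one_le_flat k σ (Finset.mem_filter.1 hσ).2)
    _ ≤ ∑ σ, heat n G t σ τ * flat n V k σ :=
        Finset.sum_le_univ_sum_of_nonneg fun σ =>
          mul_nonneg (heat_nonneg hG ht σ τ) (flat_nonneg k σ)
    _ = (heat n G t *ᵥ flat n V k) τ := by
        simp only [mulVec, dotProduct]
        refine Finset.sum_congr rfl fun σ _ => ?_
        rw [show heat n G t σ τ = (heat n G t)ᵀ τ σ from rfl, heat_transpose hG]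
    _ = _ := heat_flat hG hGs hP k ht τ

theorem le_heat_mulVec (hG : ∀ x y, G x y → x ≠ y) {t : ℝ} (ht : 0 ≤ t) {v : Cfg n V → ℝ}
    (hv : ∀ σ, 0 ≤ v σ) (σ : Cfg n V) : heat n G t σ σ * v σ ≤ (heat n G t *ᵥ v) σ := by
  simp only [mulVec, dotProduct]
  exact Finset.single_le_sum (f := fun τ => heat n G t σ τ * v τ)
    (fun τ _ => mul_nonneg (heat_nonneg hG ht σ τ) (hv τ)) (Finset.mem_univ σ)

theorem evo_delta (u v : V) (s : ℝ) :
    evo P s (fun w => if w = v then (1 : ℝ) else 0) u = P s u v := by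
  simp [evo]

theorem kernel_nonneg (hn : 1 ≤ n) (hG : ∀ x y, G x y → x ≠ y) (hGs : ∀ x y, G x y → G y x)
    (hP : HeatFamily n G P) {s : ℝ} (hs : 0 ≤ s) (u v : V) : 0 ≤ P s u v := by
  set δ : V → ℝ := fun w => if w = v then 1 else 0 with hδ
  have hl : ∀ r, [δ].map (evo P r) = List.ofFn (fun _ : Fin 1 => fun w => P r w v) := by
    intro r; simp [hδ, funext fun w => evo_delta (P := P) w v r]
  have h := heat_psi_sub_le hG hGs hP [δ] (C := 0) hs (occ n fun _ : Fin 1 => u)
    (fun r _ => by simp [err, cross])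
  rw [zero_mul, abs_nonpos_iff, sub_eq_zero, hl] at h
  rw [psi_ofFn_occ hn _ (Function.injective_of_subsingleton _)] at h
  have h0 : 0 ≤ (heat n G s *ᵥ psi n [δ]) (occ n fun _ : Fin 1 => u) := by
    simp only [mulVec, dotProduct]
    refine Finset.sum_nonneg fun τ _ => mul_nonneg (heat_nonneg hG hs _ _) (psi_nonneg _ ?_ _)
    intro g hg x
    rw [List.mem_singleton] at hg
    subst hg
    simp only [hδ]
    split_ifs <;> norm_num
  rw [← h] at h0
  simp [permSum] at h0
  have hn0 : (0 : ℝ) < Real.sqrt n := Real.sqrt_pos.2 (by exact_mod_cast hn)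
  nlinarith

theorem evo_nonneg (hn : 1 ≤ n) (hG : ∀ x y, G x y → x ≠ y) (hGs : ∀ x y, G x y → G y x)
    (hP : HeatFamily n G P) {s : ℝ} (hs : 0 ≤ s) {g : V → ℝ} (hg : ∀ x, 0 ≤ g x) (u : V) :
    0 ≤ evo P s g u :=
  Finset.sum_nonneg fun v _ => mul_nonneg (kernel_nonneg hn hG hGs hP hs u v) (hg v)

/-- Liggett's bound for the diagonal of the heat kernel. -/
theorem heat_diag_le (hn : 1 ≤ n) (hG : ∀ x y, G x y → x ≠ y) (hGs : ∀ x y, G x y → G y x)
    (hP : HeatFamily n G P) {t p : ℝ} (ht : 0 ≤ t) (hp : ∀ u v, P t u v ≤ p)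
    {m : ℕ} {σ : Cfg n V} (hσ : size σ = m) : heat n G t σ σ ≤ ((m : ℝ) * p) ^ m := by
  set g : V → ℝ := fun v => if (σ v : ℕ) = 0 then 0 else 1 with hg
  have hg0 : ∀ x, 0 ≤ g x := fun x => by simp only [hg]; split_ifs <;> norm_num
  have h1 := heat_psi_le hG hGs hP (List.replicate m g) ht
    (fun s hs τ => by
      rw [List.map_replicate]
      exact err_replicate_nonneg (evo_nonneg hn hG hGs hP hs.1 hg0) m τ) σ
  rw [List.map_replicate] at h1
  have hpos : 1 ≤ psi n (List.replicate m g) σ := by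
    have := psi_congr_supp (n := n) (c := 1) (g := g) (h := fun _ : V => (1 : ℝ))
      (fun _ => zero_le_one) m σ (fun x hx => by simp only [hg]; rw [if_neg hx, one_mul])
    rw [one_pow, one_mul] at this
    exact le_trans (one_le_flat m σ hσ) this
  have hev : ∀ x, evo P t g x ≤ (m : ℝ) * p := by
    intro x
    simp only [evo, hg, mul_ite, mul_zero, mul_one]
    rw [← sum_guard]
    refine le_trans (Finset.sum_le_card_nsmul _ _ p fun v _ => hp x v) ?_
    rw [nsmul_eq_mul]
    refine mul_le_mul_of_nonneg_right ?_ (le_trans (kernel_nonneg hn hG hGs hP ht x x) (hp x x))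
    exact_mod_cast le_trans (card_occupied_le σ) hσ.le
  have h2 := psi_congr_supp (n := n) (c := (m : ℝ) * p) (g := g) (h := evo P t g)
    (evo_nonneg hn hG hGs hP ht hg0) m σ
    (fun x hx => by
      have h' := hev x
      simp only [hg] at h' ⊢
      rw [if_neg hx, mul_one]
      exact h')
  have h3 := le_heat_mulVec (n := n) hG ht
    (psi_nonneg (List.replicate m g) fun f hf => by rw [List.eq_of_mem_replicate hf]; exact hg0) σ
  exact le_of_mul_le_mul_right (h3.trans (h1.trans h2)) (lt_of_lt_of_le one_pos hpos)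

/-- The trace of the heat kernel in the sector with `m` magnons. -/
noncomputable def sectorTr (n : ℕ) (G : V → V → Prop) [DecidableRel G] (t : ℝ) (m : ℕ) : ℝ :=
  ∑ σ ∈ Finset.univ.filter (fun σ : Cfg n V => size σ = m), heat n G t σ σ

theorem card_size_mul_le (k : ℕ) :
    ((Finset.univ.filter fun σ : Cfg n V => size σ = k).card : ℝ) * k.factorial ≤
      ((n : ℝ) * Fintype.card V) ^ k := by
  classical
  have h : (Finset.univ.filter fun σ : Cfg n V => size σ = k).card ≤
      (Fintype.card V * n).choose k := by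
    rw [show Fintype.card V * n = (Finset.univ : Finset (V × Fin n)).card by simp,
      ← Finset.card_powersetCard]
    refine Finset.card_le_card_of_injOn
      (fun σ => Finset.univ.filter fun q : V × Fin n => (q.2 : ℕ) < (σ q.1 : ℕ)) ?_ ?_
    · intro σ hσ
      simp only [Finset.mem_coe, Finset.mem_powersetCard]
      refine ⟨Finset.subset_univ _, ?_⟩
      rw [← (Finset.mem_filter.1 hσ).2, size, Finset.card_eq_sum_ones, Finset.sum_filter,
        Fintype.sum_prod_type]
      refine Finset.sum_congr rfl fun v _ => ?_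
      simp only []
      rw [← Finset.sum_filter, ← Finset.card_eq_sum_ones, Fin.card_filter_val_lt]
      exact min_eq_right (σ v).is_le
    · intro σ _ τ _ hst
      funext v
      apply Fin.ext
      have e : ∀ a : Fin n, (a : ℕ) < (σ v : ℕ) ↔ (a : ℕ) < (τ v : ℕ) := by
        intro a
        simpa using congrArg (fun S : Finset (V × Fin n) => (v, a) ∈ S) hst
      have h1 := (σ v).is_le
      have h2 := (τ v).is_le
      rcases lt_trichotomy (σ v : ℕ) (τ v : ℕ) with hl | hl | hl
      · exact absurd ((e ⟨(σ v : ℕ), by omega⟩).2 hl) (lt_irrefl _)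
      · exact hl
      · exact absurd ((e ⟨(τ v : ℕ), by omega⟩).1 hl) (lt_irrefl _)
  have h2 := Nat.choose_le_pow_div (α := ℝ) k (Fintype.card V * n)
  rw [le_div_iff₀ (by exact_mod_cast Nat.factorial_pos k)] at h2
  calc ((Finset.univ.filter fun σ : Cfg n V => size σ = k).card : ℝ) * k.factorial
      ≤ ((Fintype.card V * n).choose k : ℝ) * k.factorial :=
        mul_le_mul_of_nonneg_right (by exact_mod_cast h) (Nat.cast_nonneg _)
    _ ≤ _ := h2
    _ = _ := by push_cast; ring

theorem sectorTr_crude (hn : 1 ≤ n) (hG : ∀ x y, G x y → x ≠ y) (hGs : ∀ x y, G x y → G y x)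
    (hP : HeatFamily n G P) {t p : ℝ} (ht : 0 ≤ t) (hp0 : 0 ≤ p) (hp : ∀ u v, P t u v ≤ p)
    (m : ℕ) :
    sectorTr n G t m ≤ ((n : ℝ) * Fintype.card V) ^ m / m.factorial * ((m : ℝ) * p) ^ m := by
  refine le_trans (Finset.sum_le_card_nsmul _ _ (((m : ℝ) * p) ^ m)
    fun σ hσ => heat_diag_le hn hG hGs hP ht hp (Finset.mem_filter.1 hσ).2) ?_
  rw [nsmul_eq_mul]
  refine mul_le_mul_of_nonneg_right ?_ (pow_nonneg (mul_nonneg (Nat.cast_nonneg _) hp0) _)
  rw [le_div_iff₀ (by exact_mod_cast Nat.factorial_pos m)]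
  exact card_size_mul_le m

theorem card_double_le {m : ℕ} (hm : 2 ≤ m) :
    ((Finset.univ.filter fun σ : Cfg n V => size σ = m ∧ ∃ v, 2 ≤ (σ v : ℕ)).card : ℝ) ≤
      (Fintype.card V : ℝ) * ((n : ℝ) * Fintype.card V) ^ (m - 2) := by
  classical
  rcases isEmpty_or_nonempty V with hV | hV
  · simp
  let pick : Cfg n V → V := fun σ => if h : ∃ v, 2 ≤ (σ v : ℕ) then h.choose else Classical.arbitrary V
  have h : (Finset.univ.filter fun σ : Cfg n V => size σ = m ∧ ∃ v, 2 ≤ (σ v : ℕ)).card ≤
      ((Finset.univ : Finset V) ×ˢ Finset.univ.filter fun τ : Cfg n V => size τ = m - 2).card := by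
    refine Finset.card_le_card_of_injOn (fun σ => (pick σ, dec (dec σ (pick σ)) (pick σ))) ?_ ?_
    · intro σ hσ
      obtain ⟨hs, hv⟩ := (Finset.mem_filter.1 hσ).2
      have hp : 2 ≤ (σ (pick σ) : ℕ) := by simp only [pick, dif_pos hv]; exact hv.choose_spec
      have e1 := size_dec (σ := σ) (x := pick σ) (by omega)
      have e2 := size_dec (σ := dec σ (pick σ)) (x := pick σ) (by simp [dec]; omega)
      simp only [Finset.coe_product, Set.mem_prod, Finset.coe_univ, Set.mem_univ, true_and,
        Finset.coe_filter, Finset.mem_univ, Set.mem_ofPred_eq]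
      omega
    · intro σ hσ τ hτ hst
      obtain ⟨hs, hv⟩ := (Finset.mem_filter.1 hσ).2
      obtain ⟨hs', hv'⟩ := (Finset.mem_filter.1 hτ).2
      have hp : 2 ≤ (σ (pick σ) : ℕ) := by simp only [pick, dif_pos hv]; exact hv.choose_spec
      have hp' : 2 ≤ (τ (pick τ) : ℕ) := by simp only [pick, dif_pos hv']; exact hv'.choose_spec
      simp only [Prod.mk.injEq] at hst
      obtain ⟨e1, e2⟩ := hst
      rw [← e1] at e2 hp'
      funext v
      by_cases hvp : v = pick σ
      · subst hvp
        have := congrArg Fin.val (congrFun e2 (pick σ))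
        simp [dec] at this
        exact Fin.ext (by omega)
      · simpa [dec, hvp] using congrFun e2 v
  rw [Finset.card_product, Finset.card_univ] at h
  calc ((Finset.univ.filter fun σ : Cfg n V => size σ = m ∧ ∃ v, 2 ≤ (σ v : ℕ)).card : ℝ)
      ≤ (Fintype.card V : ℝ) *
        (Finset.univ.filter fun τ : Cfg n V => size τ = m - 2).card := by exact_mod_cast h
    _ ≤ _ := mul_le_mul_of_nonneg_left (le_trans
        (le_mul_of_one_le_right (Nat.cast_nonneg _)
          (by exact_mod_cast Nat.one_le_iff_ne_zero.2 (Nat.factorial_ne_zero (m - 2))))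
        (card_size_mul_le (m - 2))) (Nat.cast_nonneg _)

theorem occ_fiber_card (hn : 1 ≤ n) {m : ℕ} {σ : Cfg n V} (hs : size σ = m)
    (h1 : ∀ v, (σ v : ℕ) ≤ 1) :
    (Finset.univ.filter fun x : Fin m → V => Function.Injective x ∧ occ n x = σ).card
      = m.factorial := by
  set S := {v : V // (σ v : ℕ) = 1} with hS
  have hc : Fintype.card S = m := by
    rw [← hs, size, Fintype.card_subtype, Finset.card_eq_sum_ones, Finset.sum_filter]
    exact Finset.sum_congr rfl fun v _ => by have := h1 v; split_ifs <;> omega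
  have e0 : Fin m ≃ S := (Fintype.equivFinOfCardEq hc).symm
  rw [← show Fintype.card (Fin m ≃ S) = m.factorial by
    rw [Fintype.card_equiv e0, Fintype.card_fin]]
  rw [← Finset.card_univ]
  symm
  refine Finset.card_bij (fun e _ i => (e i : V)) ?_ ?_ ?_
  · intro e _
    simp only [Finset.mem_filter, Finset.mem_univ, true_and]
    refine ⟨fun a b h => e.injective (Subtype.ext h), funext fun v => Fin.ext ?_⟩
    rw [occ_val hn]
    by_cases hv : (σ v : ℕ) = 1
    · rw [if_pos ⟨e.symm ⟨v, hv⟩, by simp⟩, hv]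
    · have := h1 v
      rw [if_neg]
      · omega
      · rintro ⟨i, rfl⟩; exact hv (e i).2
  · intro e _ e' _ h
    exact Equiv.ext fun i => Subtype.ext (congrFun h i)
  · intro x hx
    obtain ⟨hinj, hocc⟩ := (Finset.mem_filter.1 hx).2
    have hmem : ∀ i, (σ (x i) : ℕ) = 1 := fun i => by rw [← hocc, occ_val hn, if_pos ⟨i, rfl⟩]
    refine ⟨Equiv.ofBijective (fun i => ⟨x i, hmem i⟩) ?_, Finset.mem_univ _, rfl⟩
    refine (Fintype.bijective_iff_injective_and_card _).2
      ⟨fun a b h => hinj (congrArg Subtype.val h), by rw [Fintype.card_fin, hc]⟩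

theorem sum_injective_eq (hn : 1 ≤ n) {m : ℕ} (f : Cfg n V → ℝ) :
    ∑ x ∈ Finset.univ.filter (fun x : Fin m → V => Function.Injective x), f (occ n x) =
      (m.factorial : ℝ) *
        ∑ σ ∈ Finset.univ.filter (fun σ : Cfg n V => size σ = m ∧ ∀ v, (σ v : ℕ) ≤ 1), f σ := by
  rw [← Finset.sum_fiberwise_of_maps_to
    (t := Finset.univ.filter fun σ : Cfg n V => size σ = m ∧ ∀ v, (σ v : ℕ) ≤ 1)
    (g := fun x : Fin m → V => occ n x), Finset.mul_sum]
  · refine Finset.sum_congr rfl fun σ hσ => ?_
    obtain ⟨hs, h1⟩ := (Finset.mem_filter.1 hσ).2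
    rw [Finset.sum_congr rfl fun x hx => congrArg f (Finset.mem_filter.1 hx).2, Finset.sum_const,
      Finset.filter_filter, occ_fiber_card hn hs h1, nsmul_eq_mul]
  · intro x hx
    refine Finset.mem_filter.2 ⟨Finset.mem_univ _, size_occ hn (Finset.mem_filter.1 hx).2, ?_⟩
    intro v; rw [occ_val hn]; split_ifs <;> omega

omit [Fintype V] [DecidableEq V] in
theorem pairI_ofFn_le [Fintype V] {m : ℕ} (g : Fin m → V → ℝ) :
    pairI G (List.ofFn g) ≤ ∑ i, ∑ j, if i ≠ j then edgeI G (g i) (g j) else 0 := by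
  induction m with
  | zero => simp [pairI]
  | succ m ih =>
      rw [List.ofFn_succ, pairI, List.map_ofFn, List.sum_ofFn, Fin.sum_univ_succ]
      refine add_le_add ?_ ?_
      · rw [Fin.sum_univ_succ]
        simp [Ne.symm (Fin.succ_ne_zero _)]
      · refine le_trans (ih _) (Finset.sum_le_sum fun i _ => ?_)
        rw [Fin.sum_univ_succ]
        simp only [ne_eq, Fin.succ_inj]
        refine le_add_of_nonneg_left ?_
        split_ifs <;> first | exact edgeI_nonneg _ _ | exact le_rfl

omit [DecidableEq V] in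
theorem sum_pair_apply {m : ℕ} {i j : Fin m} (hij : i ≠ j) (f g : V → ℝ) :
    ∑ x : Fin m → V, f (x i) * g (x j) =
      (Fintype.card V : ℝ) ^ (m - 2) * ((∑ v, f v) * ∑ v, g v) := by
  set h : Fin m → V → ℝ := fun k => if k = i then f else if k = j then g else fun _ => 1 with hh
  have e : ∀ x : Fin m → V, f (x i) * g (x j) = ∏ k, h k (x k) := by
    intro x
    rw [← Finset.mul_prod_erase _ _ (Finset.mem_univ i),
      ← Finset.mul_prod_erase _ _ (Finset.mem_erase.2 ⟨hij.symm, Finset.mem_univ j⟩),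
      Finset.prod_eq_one]
    · simp [hh, hij.symm]
    · intro k hk
      obtain ⟨hkj, hk'⟩ := Finset.mem_erase.1 hk
      simp [hh, hkj, (Finset.mem_erase.1 hk').1]
  simp only [e]
  rw [← Fintype.prod_sum, ← Finset.mul_prod_erase _ _ (Finset.mem_univ i),
    ← Finset.mul_prod_erase _ _ (Finset.mem_erase.2 ⟨hij.symm, Finset.mem_univ j⟩),
    Finset.prod_congr rfl (g := fun _ => (Fintype.card V : ℝ))]
  · rw [Finset.prod_const, Finset.card_erase_of_mem (Finset.mem_erase.2 ⟨hij.symm, Finset.mem_univ j⟩),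
      Finset.card_erase_of_mem (Finset.mem_univ i), Finset.card_univ, Fintype.card_fin]
    simp only [hh, if_true, if_neg hij.symm]
    rw [show m - 1 - 1 = m - 2 by omega]
    ring
  · intro k hk
    obtain ⟨hkj, hk'⟩ := Finset.mem_erase.1 hk
    simp [hh, hkj, (Finset.mem_erase.1 hk').1]

omit [DecidableEq V] in
theorem sum_edgeI_le {m : ℕ} {i j : Fin m} (hij : i ≠ j) {D : ℕ}
    (hD : ∀ x, (Finset.univ.filter fun y => G x y).card ≤ D) {Q : V → V → ℝ}
    (hQ : ∀ u v, 0 ≤ Q u v) (hrow : ∀ u, ∑ v, Q u v = 1) :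
    ∑ x : Fin m → V, edgeI G (fun u => Q u (x i)) (fun u => Q u (x j)) ≤
      2 * D * (Fintype.card V : ℝ) ^ (m - 1) := by
  have hm : 2 ≤ m := by
    have := i.isLt; have := j.isLt
    rcases Nat.lt_or_ge m 2 with h | h
    · exact absurd (Fin.ext (by omega)) hij
    · exact h
  have hone : ∀ a b, ∑ x : Fin m → V, |Q a (x i) - Q b (x i)| * |Q a (x j) - Q b (x j)| ≤
      4 * (Fintype.card V : ℝ) ^ (m - 2) := by
    intro a b
    rw [sum_pair_apply hij (fun v => |Q a v - Q b v|) (fun v => |Q a v - Q b v|)]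
    have h2 : ∑ v, |Q a v - Q b v| ≤ 2 := by
      calc ∑ v, |Q a v - Q b v| ≤ ∑ v, (Q a v + Q b v) := Finset.sum_le_sum fun v _ => by
            rw [abs_le]; constructor <;> linarith [hQ a v, hQ b v]
        _ = 2 := by rw [Finset.sum_add_distrib, hrow, hrow]; norm_num
    rw [mul_comm (4 : ℝ)]
    refine mul_le_mul_of_nonneg_left ?_ (by positivity)
    have h0 : 0 ≤ ∑ v, |Q a v - Q b v| := Finset.sum_nonneg fun v _ => abs_nonneg _
    nlinarith
  simp only [edgeI, ← Finset.mul_sum]
  rw [Finset.sum_comm]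
  calc (1 : ℝ) / 2 * ∑ a, ∑ x : Fin m → V, ∑ b,
        (if G a b then |Q a (x i) - Q b (x i)| * |Q a (x j) - Q b (x j)| else 0)
      ≤ 1 / 2 * ∑ _a : V, (D : ℝ) * (4 * (Fintype.card V : ℝ) ^ (m - 2)) := by
        refine mul_le_mul_of_nonneg_left (Finset.sum_le_sum fun a _ => ?_) (by norm_num)
        rw [Finset.sum_comm]
        calc ∑ b, ∑ x : Fin m → V,
              (if G a b then |Q a (x i) - Q b (x i)| * |Q a (x j) - Q b (x j)| else 0)
            ≤ ∑ b, if G a b then 4 * (Fintype.card V : ℝ) ^ (m - 2) else 0 :=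
              Finset.sum_le_sum fun b _ => by split_ifs <;> simp [hone a b]
          _ ≤ _ := by
              rw [← Finset.sum_filter, Finset.sum_const, nsmul_eq_mul]
              exact mul_le_mul_of_nonneg_right (by exact_mod_cast hD a) (by positivity)
    _ = _ := by
        rw [Finset.sum_const, Finset.card_univ, nsmul_eq_mul,
          show m - 1 = m - 2 + 1 by omega, pow_succ]
        ring

/-- The interaction error constant. -/
noncomputable def errConst (n D m : ℕ) : ℝ :=
  2 * m ^ 2 * D * m.factorial * (((n : ℝ) + 1) ^ 2 * m) ^ m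

/-- The trace in the sector with `m` magnons is at most that of free bosons up to the error. -/
theorem sectorTr_le (hn : 1 ≤ n) (hG : ∀ x y, G x y → x ≠ y) (hGs : ∀ x y, G x y → G y x)
    (hP : HeatFamily n G P) {D : ℕ} (hD : ∀ x, (Finset.univ.filter fun y => G x y).card ≤ D)
    {t p : ℝ} (ht : 0 < t) (hp0 : 0 ≤ p) (hp : ∀ s ∈ Set.Icc (t / 2) t, ∀ u v, P s u v ≤ p)
    (m : ℕ) :
    (m.factorial : ℝ) * sectorTr n G t m ≤
      (∑ x : Fin m → V, ∑ e : Equiv.Perm (Fin m), ∏ i, P t (x (e i)) (x i)) +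
        errConst n D m * (p ^ m * (Fintype.card V : ℝ) ^ (m - 1)) * t +
        (m.factorial : ℝ) * (if 2 ≤ m then (Fintype.card V : ℝ) *
          ((n : ℝ) * Fintype.card V) ^ (m - 2) * ((m : ℝ) * p) ^ m else 0) := by
  classical
  set J := Finset.univ.filter fun x : Fin m → V => Function.Injective x with hJ
  set δ : (Fin m → V) → List (V → ℝ) :=
    fun x => List.ofFn fun i w => if w = x i then (1 : ℝ) else 0 with hδ
  set l : (Fin m → V) → ℝ → List (V → ℝ) := fun x s => List.ofFn fun i u => P s u (x i) with hl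
  have hmap : ∀ x s, (δ x).map (evo P s) = l x s := by
    intro x s
    simp only [hδ, hl, List.map_ofFn]
    congr 1
    funext i u
    exact evo_delta (P := P) u (x i) s
  have hlen : ∀ x s, (l x s).length = m := by intro x s; simp [hl]
  set F : ℝ → ℝ := fun s => ∑ x ∈ J, (heat n G (t - s) *ᵥ psi n ((δ x).map (evo P s))) (occ n x)
    with hF
  have hFd : ∀ s, HasDerivAt F
      (∑ x ∈ J, (heat n G (t - s) *ᵥ err n G ((δ x).map (evo P s))) (occ n x)) s :=
    fun s => HasDerivAt.fun_sum fun x _ => flow_deriv hG hGs hP (δ x) t s (occ n x)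
  set C := errConst n D m * (p ^ m * (Fintype.card V : ℝ) ^ (m - 1)) with hC
  have hcol : ∀ s, 0 ≤ s → ∀ v, ∑ u, |P s u v| = 1 := by
    intro s hs v
    rw [← hP.colsum s v]
    exact Finset.sum_congr rfl fun u _ => abs_of_nonneg (kernel_nonneg hn hG hGs hP hs u v)
  have hbd : ∀ s ∈ Set.Icc (0 : ℝ) t,
      ‖∑ x ∈ J, (heat n G (t - s) *ᵥ err n G ((δ x).map (evo P s))) (occ n x)‖ ≤ C := by
    intro s hs
    have hts : 0 ≤ t - s := sub_nonneg.2 hs.2
    rw [Real.norm_eq_abs]
    simp only [hmap]
    refine le_trans (Finset.abs_sum_le_sum_abs _ _) ?_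
    rcases le_total s (t / 2) with hcase | hcase
    · have hr : t - s ∈ Set.Icc (t / 2) t := ⟨by linarith, by linarith [hs.1]⟩
      have hK : ∀ x ∈ J, |(heat n G (t - s) *ᵥ err n G (l x s)) (occ n x)| ≤
          ((m : ℝ) * p) ^ m * l1 (err n G (l x s)) := by
        intro x hx
        simp only [mulVec, dotProduct, l1, Finset.mul_sum]
        refine le_trans (Finset.abs_sum_le_sum_abs _ _) (Finset.sum_le_sum fun τ _ => ?_)
        rw [abs_mul]
        by_cases hτ : size τ = m
        · refine mul_le_mul_of_nonneg_right ?_ (abs_nonneg _)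
          refine abs_le_of_sq_le_sq ?_ (by positivity)
          refine le_trans (heat_sq_le hG (t - s) (occ n x) τ) ?_
          rw [sq]
          exact mul_le_mul
            (heat_diag_le hn hG hGs hP hts (hp _ hr) (size_occ hn (Finset.mem_filter.1 hx).2))
            (heat_diag_le hn hG hGs hP hts (hp _ hr) hτ) (heat_nonneg hG hts _ _) (by positivity)
        · rw [err_supp (l x s) τ (by rw [hlen]; exact hτ)]; simp
      have hQ := fun u v => kernel_nonneg hn hG hGs hP hs.1 u v
      have hrow : ∀ u, ∑ v, P s u v = 1 := fun u => by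
        rw [← hP.colsum s u]; exact Finset.sum_congr rfl fun v _ => hP.symm s u v
      calc ∑ x ∈ J, |(heat n G (t - s) *ᵥ err n G (l x s)) (occ n x)|
          ≤ ∑ x ∈ J, ((m : ℝ) * p) ^ m * (((n : ℝ) + 1) ^ m *
              ∑ i, ∑ j, if i ≠ j then
                edgeI G (fun u => P s u (x i)) (fun u => P s u (x j)) else 0) := by
            refine Finset.sum_le_sum fun x hx => le_trans (hK x hx)
              (mul_le_mul_of_nonneg_left ?_ (by positivity))
            have h1 := l1_err (n := n) (G := G) (l x s) (by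
              intro c hc
              obtain ⟨i, rfl⟩ := List.mem_ofFn.1 hc
              exact le_of_eq (hcol s hs.1 (x i)))
            rw [hlen] at h1
            exact le_trans h1 (mul_le_mul_of_nonneg_left (pairI_ofFn_le _) (by positivity))
        _ ≤ ∑ x : Fin m → V, ((m : ℝ) * p) ^ m * (((n : ℝ) + 1) ^ m *
              ∑ i, ∑ j, if i ≠ j then
                edgeI G (fun u => P s u (x i)) (fun u => P s u (x j)) else 0) := by
            refine Finset.sum_le_univ_sum_of_nonneg fun x => mul_nonneg (by positivity)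
              (mul_nonneg (by positivity) (Finset.sum_nonneg fun i _ => Finset.sum_nonneg fun j _ => ?_))
            split_ifs <;> first | exact edgeI_nonneg _ _ | exact le_rfl
        _ = ((m : ℝ) * p) ^ m * (((n : ℝ) + 1) ^ m * ∑ i, ∑ j, if i ≠ j then
              ∑ x : Fin m → V, edgeI G (fun u => P s u (x i)) (fun u => P s u (x j)) else 0) := by
            simp only [← Finset.mul_sum]
            congr 2
            rw [Finset.sum_comm]
            refine Finset.sum_congr rfl fun i _ => ?_
            rw [Finset.sum_comm]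
            refine Finset.sum_congr rfl fun j _ => ?_
            split_ifs <;> simp
        _ ≤ ((m : ℝ) * p) ^ m * (((n : ℝ) + 1) ^ m * ∑ _i : Fin m, ∑ _j : Fin m,
              2 * D * (Fintype.card V : ℝ) ^ (m - 1)) := by
            gcongr with i _ j _
            split_ifs with h
            · exact sum_edgeI_le h hD hQ hrow
            · positivity
        _ ≤ C := by
            simp only [hC, errConst, Finset.sum_const, Finset.card_univ, Fintype.card_fin,
              nsmul_eq_mul, mul_pow]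
            have hf : (1 : ℝ) ≤ (m.factorial : ℝ) := by exact_mod_cast m.factorial_pos
            have hn1 : (1 : ℝ) ≤ ((n : ℝ) + 1) ^ m := one_le_pow₀ (by simp)
            have hkey : ((n : ℝ) + 1) ^ m ≤ (m.factorial : ℝ) * ((((n : ℝ) + 1) ^ 2) ^ m) := by
              rw [show (((n : ℝ) + 1) ^ 2) ^ m = ((n : ℝ) + 1) ^ m * ((n : ℝ) + 1) ^ m by rw [← mul_pow, sq]]
              nlinarith [one_le_mul_of_one_le_of_one_le hf hn1]
            have := mul_le_mul_of_nonneg_right hkey
              (show (0 : ℝ) ≤ 2 * m ^ 2 * D * ((m : ℝ) ^ m * (p ^ m *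
                (Fintype.card V : ℝ) ^ (m - 1))) by positivity)
            refine le_trans (le_of_eq ?_) (le_trans this (le_of_eq ?_)) <;>
              (generalize ((n : ℝ) + 1) = a; ring)
    · have hsI : s ∈ Set.Icc (t / 2) t := ⟨hcase, hs.2⟩
      calc ∑ x ∈ J, |(heat n G (t - s) *ᵥ err n G (l x s)) (occ n x)|
          ≤ ∑ x ∈ J, p ^ m * (heat n G (t - s) *ᵥ fun τ => |majErr n G m τ|) (occ n x) := by
            refine Finset.sum_le_sum fun x _ => ?_
            simp only [mulVec, dotProduct, Finset.mul_sum]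
            refine le_trans (Finset.abs_sum_le_sum_abs _ _) (Finset.sum_le_sum fun τ _ => ?_)
            rw [abs_mul, abs_of_nonneg (heat_nonneg hG hts _ _), mul_left_comm]
            refine mul_le_mul_of_nonneg_left ?_ (heat_nonneg hG hts _ _)
            have h1 := abs_err_le (n := n) (G := G) hp0 (l x s) (by
              intro c hc u
              obtain ⟨i, rfl⟩ := List.mem_ofFn.1 hc
              rw [abs_of_nonneg (kernel_nonneg hn hG hGs hP hs.1 u (x i))]
              exact hp s hsI u (x i)) τ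
            rw [hlen] at h1
            exact le_trans h1 (mul_le_mul_of_nonneg_left (le_abs_self _) (pow_nonneg hp0 m))
        _ ≤ p ^ m * ((m.factorial : ℝ) * ((((n : ℝ) + 1) * m) ^ m * l1 (majErr n G m))) := by
            rw [← Finset.mul_sum, hJ,
              sum_injective_eq hn (fun σ => (heat n G (t - s) *ᵥ fun τ => |majErr n G m τ|) σ)]
            refine mul_le_mul_of_nonneg_left (mul_le_mul_of_nonneg_left ?_ (by positivity))
              (pow_nonneg hp0 m)
            simp only [mulVec, dotProduct, l1, Finset.mul_sum]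
            rw [Finset.sum_comm]
            refine Finset.sum_le_sum fun τ _ => ?_
            rw [← Finset.sum_mul]
            refine mul_le_mul_of_nonneg_right ?_ (abs_nonneg _)
            refine le_trans ?_ (le_trans (sum_heat_le hG hGs hP m hts τ) (flat_le m m le_rfl τ))
            exact Finset.sum_le_sum_of_subset_of_nonneg
              (fun σ hσ => Finset.mem_filter.2 ⟨Finset.mem_univ _, (Finset.mem_filter.1 hσ).2.1⟩)
              (fun σ _ _ => heat_nonneg hG hts σ τ)
        _ ≤ C := by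
            refine le_trans (mul_le_mul_of_nonneg_left (mul_le_mul_of_nonneg_left
              (mul_le_mul_of_nonneg_left (l1_majErr hD m m le_rfl) (by positivity)) (by positivity))
              (pow_nonneg hp0 m)) (le_of_eq ?_)
            simp only [hC, errConst, mul_pow]
            generalize ((n : ℝ) + 1) = a
            ring
  have hmv := norm_image_sub_le_of_norm_deriv_le_segment' (f := F)
    (fun s _ => (hFd s).hasDerivWithinAt) (fun s hs => hbd s (Set.Ico_subset_Icc_self hs))
    t (Set.right_mem_Icc.2 ht.le)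
  rw [Real.norm_eq_abs, sub_zero] at hmv
  have hsn : (1 : ℝ) ≤ Real.sqrt n ^ m :=
    one_le_pow₀ (Real.one_le_sqrt.2 (by exact_mod_cast hn))
  have hF0 : Real.sqrt n ^ m * ∑ x ∈ J, heat n G t (occ n x) (occ n x) ≤ F 0 := by
    simp only [hF, Finset.mul_sum]
    refine Finset.sum_le_sum fun x hx => ?_
    rw [(flow_ends hP (δ x) t (occ n x)).1]
    refine le_trans ?_ (le_heat_mulVec hG ht.le (psi_nonneg _ fun f hf u => by
      obtain ⟨i, rfl⟩ := List.mem_ofFn.1 hf
      simp only []; split_ifs <;> norm_num) (occ n x))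
    rw [mul_comm (Real.sqrt n ^ m)]
    refine mul_le_mul_of_nonneg_left ?_ (heat_nonneg hG ht.le _ _)
    rw [hδ, psi_ofFn_occ hn _ (Finset.mem_filter.1 hx).2]
    refine le_mul_of_one_le_right (by positivity) ?_
    refine le_trans ?_ (Finset.single_le_sum (fun e _ => Finset.prod_nonneg fun i _ => ?_)
      (Finset.mem_univ (1 : Equiv.Perm (Fin m))))
    · simp
    · simp only []; split_ifs <;> norm_num
  have hFt : F t ≤ Real.sqrt n ^ m *
      ∑ x : Fin m → V, ∑ e : Equiv.Perm (Fin m), ∏ i, P t (x (e i)) (x i) := by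
    simp only [hF, Finset.mul_sum]
    calc ∑ x ∈ J, (heat n G (t - t) *ᵥ psi n ((δ x).map (evo P t))) (occ n x)
        = ∑ x ∈ J, ∑ e : Equiv.Perm (Fin m),
            Real.sqrt n ^ m * ∏ i, P t (x (e i)) (x i) := by
          refine Finset.sum_congr rfl fun x hx => ?_
          rw [(flow_ends hP (δ x) t (occ n x)).2, hmap, hl,
            psi_ofFn_occ hn _ (Finset.mem_filter.1 hx).2, permSum, Finset.mul_sum]
      _ ≤ _ := Finset.sum_le_univ_sum_of_nonneg fun x => Finset.sum_nonneg fun e _ =>
          mul_nonneg (by positivity)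
            (Finset.prod_nonneg fun i _ => kernel_nonneg hn hG hGs hP ht.le _ _)
  set A := ∑ x ∈ J, heat n G t (occ n x) (occ n x) with hA
  set B := ∑ x : Fin m → V, ∑ e : Equiv.Perm (Fin m), ∏ i, P t (x (e i)) (x i) with hB
  have hC0 : 0 ≤ C * t := le_trans (abs_nonneg _) hmv
  have hmain : A ≤ B + C * t := by
    have h1 : Real.sqrt n ^ m * A ≤ Real.sqrt n ^ m * B + C * t := by
      have := abs_le.1 hmv
      linarith
    have h2 : C * t ≤ Real.sqrt n ^ m * (C * t) := le_mul_of_one_le_left hC0 hsn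
    refine le_of_mul_le_mul_left (a := Real.sqrt n ^ m) ?_ (by linarith)
    linarith
  rw [hA, hJ, sum_injective_eq hn (fun σ => heat n G t σ σ)] at hmain
  have hsplit : sectorTr n G t m =
      (∑ σ ∈ Finset.univ.filter (fun σ : Cfg n V => size σ = m ∧ ∀ v, (σ v : ℕ) ≤ 1),
        heat n G t σ σ) +
      ∑ σ ∈ Finset.univ.filter (fun σ : Cfg n V => size σ = m ∧ ∃ v, 2 ≤ (σ v : ℕ)),
        heat n G t σ σ := by
    rw [sectorTr, ← Finset.sum_filter_add_sum_filter_not _ (fun σ : Cfg n V => ∀ v, (σ v : ℕ) ≤ 1),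
      Finset.filter_filter, Finset.filter_filter]
    congr 2
    refine Finset.filter_congr fun σ _ => and_congr_right fun _ => ?_
    simp [not_le, Nat.lt_iff_add_one_le]
  have hdbl : (∑ σ ∈ Finset.univ.filter (fun σ : Cfg n V => size σ = m ∧ ∃ v, 2 ≤ (σ v : ℕ)),
      heat n G t σ σ) ≤ if 2 ≤ m then
      (Fintype.card V : ℝ) * ((n : ℝ) * Fintype.card V) ^ (m - 2) * ((m : ℝ) * p) ^ m else 0 := by
    rcases Nat.lt_or_ge m 2 with hm | hm
    · rw [Finset.sum_eq_zero, if_neg (by omega)]
      · intro σ hσ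
        obtain ⟨hs, v, hv⟩ := (Finset.mem_filter.1 hσ).2
        have := Finset.single_le_sum (f := fun v => (σ v : ℕ)) (fun _ _ => Nat.zero_le _)
          (Finset.mem_univ v)
        simp only [size] at hs
        omega
    · rw [if_pos hm]
      refine le_trans (Finset.sum_le_card_nsmul _ _ (((m : ℝ) * p) ^ m) fun σ hσ =>
        heat_diag_le hn hG hGs hP ht.le (hp t ⟨by linarith, le_rfl⟩) (Finset.mem_filter.1 hσ).2.1) ?_
      rw [nsmul_eq_mul]
      exact mul_le_mul_of_nonneg_right (card_double_le hm)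
        (pow_nonneg (mul_nonneg (Nat.cast_nonneg _) hp0) _)
  rw [hsplit, mul_add]
  exact add_le_add hmain (mul_le_mul_of_nonneg_left hdbl (Nat.cast_nonneg _))

end Vale.Agent.P361.Field
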