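import Vale.Agent.P361.Field.Sector

/-!
Conservation of the number of magnons, the decomposition of a sector trace along total spin, and
the spin-flip symmetry.
-/

open Matrix Finset

namespace Vale.Agent.P361.Field

variable {n : ℕ} {V : Type*} [Fintype V] [DecidableEq V] {G : V → V → Prop} [DecidableRel G]

/-- The projection onto the sector with `m` magnons. -/
def proj (n : ℕ) (V : Type*) [Fintype V] [DecidableEq V] (m : ℕ) : ROp n V :=
  diagonal fun σ => if size σ = m then 1 else 0

/-- The total lowering operator. -/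
noncomputable def totLow (n : ℕ) (V : Type*) [Fintype V] [DecidableEq V] : ROp n V :=
  ∑ x : V, loc x (low n)

/-- The total third spin component. -/
noncomputable def totZed (n : ℕ) (V : Type*) [Fintype V] [DecidableEq V] : ROp n V :=
  ∑ x : V, loc x (zed n)

theorem crea_one_eq : crea n (fun _ : V => (1 : ℝ)) = totLow n V := by simp [crea, totLow]

theorem bond_entry_size {x y : V} (hxy : x ≠ y) {σ τ : Cfg n V} (h : size σ ≠ size τ) :
    bond n x y σ τ = 0 := by
  have hne : σ ≠ τ := fun e => h (by rw [e])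
  have key : ∀ {x y : V}, x ≠ y → (loc x (rai n) * loc y (low n)) σ τ = 0 := by
    intro x y hxy
    rw [loc_mul_apply hxy]
    split_ifs with ha
    · simp only [low, transpose_apply, rai, of_apply]
      split_ifs with h1 h2
      · exfalso
        apply h
        simp only [size]
        rw [← Finset.add_sum_erase _ _ (Finset.mem_univ x),
          ← Finset.add_sum_erase _ _ (Finset.mem_erase.2 ⟨hxy.symm, Finset.mem_univ y⟩),
          ← Finset.add_sum_erase _ (fun v => (τ v : ℕ)) (Finset.mem_univ x),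
          ← Finset.add_sum_erase _ (fun v => (τ v : ℕ))
            (Finset.mem_erase.2 ⟨hxy.symm, Finset.mem_univ y⟩),
          Finset.sum_congr rfl fun v hv => by
            obtain ⟨hvy, hv'⟩ := Finset.mem_erase.1 hv
            rw [ha v (Finset.mem_erase.1 hv').1 hvy]]
        omega
      all_goals simp
    · rfl
  simp only [bond, Matrix.sub_apply, Matrix.smul_apply, Matrix.add_apply, one_apply_ne hne,
    zed, loc_diagonal, diagonal_mul_diagonal, diagonal_apply_ne _ hne, smul_eq_mul]
  rw [key hxy, loc_comm hxy (low n) (rai n), key hxy.symm]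
  ring

theorem proj_comm_of_entry {X : ROp n V} (h : ∀ σ τ, size σ ≠ size τ → X σ τ = 0) (m : ℕ) :
    proj n V m * X = X * proj n V m := by
  ext σ τ
  rw [proj, diagonal_mul, mul_diagonal]
  by_cases he : size σ = size τ
  · rw [he]; ring
  · rw [h σ τ he]; ring

theorem energy_entry_size (hG : ∀ x y, G x y → x ≠ y) (σ τ : Cfg n V)
    (h : size σ ≠ size τ) : energy n G σ τ = 0 := by
  simp only [energy, Matrix.smul_apply, Matrix.sum_apply, smul_eq_mul, mul_eq_zero]
  right
  refine Finset.sum_eq_zero fun x _ => Finset.sum_eq_zero fun y _ => ?_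
  split_ifs with hxy
  · exact bond_entry_size (hG x y hxy) h
  · rfl

theorem proj_comm_energy (hG : ∀ x y, G x y → x ≠ y) (m : ℕ) :
    Commute (proj n V m) (energy n G) :=
  proj_comm_of_entry (energy_entry_size hG) m

theorem Commute.heat {X : ROp n V} (h : Commute X (energy n G)) (t : ℝ) :
    Commute X (Field.heat n G t) :=
  (h.smul_right (-t)).exp_right

theorem com_energy_totLow : com (energy n G) (totLow n V) = 0 := by
  have h0 : ∀ x y : V, com (bond n x y) (totLow n V) = 0 := by
    intro x y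
    rw [← crea_one_eq, com_bond_crea]
    simp
  simp only [com, energy, smul_mul_assoc, mul_smul_comm, Finset.sum_mul, Finset.mul_sum,
    ← smul_sub, ← Finset.sum_sub_distrib]
  rw [Finset.sum_eq_zero, smul_zero]
  intro x _
  refine Finset.sum_eq_zero fun y _ => ?_
  split_ifs
  · exact h0 x y
  · simp

theorem commute_totLow_energy : Commute (totLow n V) (energy n G) :=
  (sub_eq_zero.1 com_energy_totLow).symm

theorem commute_totRai_energy (hG : ∀ x y, G x y → x ≠ y) :
    Commute (totLow n V)ᵀ (energy n G) := by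
  have h := congrArg transpose (commute_totLow_energy (n := n) (G := G)).eq
  rw [transpose_mul, transpose_mul, energy_transpose hG] at h
  exact h.symm

theorem totLow_entry {σ τ : Cfg n V} (h : size σ ≠ size τ + 1) : totLow n V σ τ = 0 := by
  simp only [totLow, Matrix.sum_apply]
  refine Finset.sum_eq_zero fun x _ => ?_
  rw [loc_apply]
  split_ifs with ha
  · simp only [low, transpose_apply, rai, of_apply]
    rw [if_neg]
    intro hc
    apply h
    simp only [size]
    rw [← Finset.add_sum_erase _ _ (Finset.mem_univ x),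
      ← Finset.add_sum_erase _ (fun v => (τ v : ℕ)) (Finset.mem_univ x),
      Finset.sum_congr rfl fun v hv => by rw [ha v (Finset.mem_erase.1 hv).1]]
    omega
  · rfl

theorem totLow_proj (m : ℕ) : totLow n V * proj n V m = proj n V (m + 1) * totLow n V := by
  ext σ τ
  rw [proj, proj, mul_diagonal, diagonal_mul]
  by_cases h : size σ = size τ + 1
  · by_cases hm : size τ = m
    · rw [if_pos hm, if_pos (by omega)]; ring
    · rw [if_neg hm, if_neg (by omega)]; ring
  · rw [totLow_entry h]; ring

theorem totRai_totLow :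
    (totLow n V)ᵀ * totLow n V = totLow n V * (totLow n V)ᵀ + (2 : ℝ) • totZed n V := by
  have e : ∀ x : V, com (∑ y, loc y (rai n)) (loc x (low n)) = (2 : ℝ) • loc x (zed n) := by
    intro x
    rw [com, Finset.sum_mul, Finset.mul_sum, ← Finset.sum_sub_distrib, Fintype.sum_eq_single x]
    · rw [loc_mul, loc_mul, ← loc_sub, rai_low_comm, loc_smul]
    · intro y hy; rw [loc_comm hy, sub_self]
  have hT : (totLow n V)ᵀ = ∑ y : V, loc y (rai n) := by
    simp [totLow, transpose_sum, loc_transpose, low_transpose]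
  have : com (totLow n V)ᵀ (totLow n V) = (2 : ℝ) • totZed n V := by
    rw [hT, totZed, Finset.smul_sum]
    calc com (∑ y, loc y (rai n)) (totLow n V)
        = ∑ x, com (∑ y, loc y (rai n)) (loc x (low n)) := by
          simp only [com, totLow, Finset.sum_mul, Finset.mul_sum, Finset.sum_sub_distrib]
          rw [sub_right_inj]
          exact Finset.sum_comm
      _ = _ := Finset.sum_congr rfl fun x _ => e x
  rw [← this, com]
  abel

theorem totZed_eq : totZed n V =
    diagonal fun σ : Cfg n V => (n : ℝ) / 2 * Fintype.card V - size σ := by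
  have : totZed n V = ∑ x : V, diagonal fun σ : Cfg n V => (n : ℝ) / 2 - (σ x : ℕ) := by
    simp [totZed, zed, loc_diagonal]
  rw [this]
  ext σ τ
  rw [Matrix.sum_apply]
  by_cases h : σ = τ
  · subst h
    simp [size, Finset.sum_sub_distrib, Finset.card_univ, mul_comm]
  · simp [h]

/-- The quadratic form of a real matrix. -/
noncomputable def form (X : ROp n V) (v : Cfg n V → ℝ) : ℝ := v ⬝ᵥ (X *ᵥ v)

theorem form_sub (X Y : ROp n V) (v : Cfg n V → ℝ) : form (X - Y) v = form X v - form Y v := by
  simp [form, sub_mulVec, dotProduct_sub]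

theorem form_add (X Y : ROp n V) (v : Cfg n V → ℝ) : form (X + Y) v = form X v + form Y v := by
  simp [form, add_mulVec, dotProduct_add]

theorem form_smul (a : ℝ) (X : ROp n V) (v : Cfg n V → ℝ) : form (a • X) v = a * form X v := by
  simp [form, smul_mulVec, dotProduct_smul]

theorem form_sum {α : Type*} (s : Finset α) (X : α → ROp n V) (v : Cfg n V → ℝ) :
    form (∑ a ∈ s, X a) v = ∑ a ∈ s, form (X a) v := by
  simp [form, sum_mulVec, dotProduct_sum]

theorem form_transpose_mul_self (X : ROp n V) (v : Cfg n V → ℝ) :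
    form (Xᵀ * X) v = ∑ σ, (X *ᵥ v) σ ^ 2 := by
  rw [form, ← mulVec_mulVec, dotProduct_mulVec, vecMul_transpose]
  simp [dotProduct, sq]

theorem trace_mul_proj (X : ROp n V) (m : ℕ) :
    trace (X * proj n V m) =
      ∑ σ ∈ Finset.univ.filter (fun σ : Cfg n V => size σ = m), X σ σ := by
  simp [trace, proj, mul_diagonal, Finset.sum_filter]

theorem trace_heat_proj (t : ℝ) (m : ℕ) :
    trace (heat n G t * proj n V m) = sectorTr n G t m := trace_mul_proj _ m

theorem sectorTr_nonneg (hG : ∀ x y, G x y → x ≠ y) {t : ℝ} (ht : 0 ≤ t) (m : ℕ) :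
    0 ≤ sectorTr n G t m :=
  Finset.sum_nonneg fun σ _ => heat_nonneg hG ht σ σ

theorem proj_mul_self (m : ℕ) : proj n V m * proj n V m = proj n V m := by
  rw [proj, diagonal_mul_diagonal]
  congr 1; funext σ; split_ifs <;> simp

theorem proj_transpose (m : ℕ) : (proj n V m)ᵀ = proj n V m := diagonal_transpose _

/-- The decay of the squared norm along the heat flow on a subspace with a spectral gap. -/
theorem norm_heat_decay {Q : ROp n V} (hQ : Commute Q (energy n G)) {γ : ℝ}
    (hgap : ∀ v, Q *ᵥ v = v → γ * ∑ σ, v σ ^ 2 ≤ form (energy n G) v)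
    {a b : ℝ} (hab : a ≤ b) (v : Cfg n V → ℝ) (hv : Q *ᵥ v = v) :
    ∑ σ, (heat n G b *ᵥ v) σ ^ 2 ≤
      Real.exp (-(2 * γ * (b - a))) * ∑ σ, (heat n G a *ᵥ v) σ ^ 2 := by
  open scoped Matrix.Norms.Operator in
  have hd : ∀ s σ, HasDerivAt (fun r => (heat n G r *ᵥ v) σ)
      (-((energy n G *ᵥ (heat n G s *ᵥ v)) σ)) s := by
    intro s σ
    simp only [mulVec, dotProduct]
    have h := HasDerivAt.fun_sum (u := Finset.univ) fun τ (_ : τ ∈ Finset.univ) =>
      (hasDerivAt_exp_entry (-(energy n G)) 0 s σ τ).mul_const (v τ)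
    simp only [sub_zero, smul_neg] at h
    simp only [heat, neg_smul]
    refine h.congr_deriv ?_
    have hc : NormedSpace.exp (-(s • energy n G)) * energy n G =
        energy n G * NormedSpace.exp (-(s • energy n G)) :=
      ((((Commute.refl (energy n G)).smul_right s).neg_right).exp_right).eq.symm
    simp only [mul_neg, hc]
    simp only [Matrix.neg_apply, neg_mul, Finset.sum_neg_distrib, mul_apply,
      Finset.sum_mul, Finset.mul_sum]
    rw [Finset.sum_comm]
    simp only [mul_assoc]
  set g : ℝ → ℝ := fun r => Real.exp (2 * γ * r) * ∑ σ, (heat n G r *ᵥ v) σ ^ 2 with hg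
  have hgd : ∀ s, HasDerivAt g (Real.exp (2 * γ * s) * (2 * γ) * ∑ σ, (heat n G s *ᵥ v) σ ^ 2 +
      Real.exp (2 * γ * s) * ∑ σ, 2 * (heat n G s *ᵥ v) σ *
        -((energy n G *ᵥ (heat n G s *ᵥ v)) σ)) s := by
    intro s
    have h1 : HasDerivAt (fun r => Real.exp (2 * γ * r)) (Real.exp (2 * γ * s) * (2 * γ)) s := by
      simpa using ((hasDerivAt_id s).const_mul (2 * γ)).exp
    have h2 : HasDerivAt (fun r => ∑ σ, (heat n G r *ᵥ v) σ ^ 2)
        (∑ σ, 2 * (heat n G s *ᵥ v) σ * -((energy n G *ᵥ (heat n G s *ᵥ v)) σ)) s :=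
      HasDerivAt.fun_sum fun σ _ => by simpa using (hd s σ).fun_pow 2
    exact h1.mul h2
  have hanti : AntitoneOn g (Set.Icc a b) := by
    refine antitoneOn_of_hasDerivWithinAt_nonpos (convex_Icc _ _)
      (fun s _ => (hgd s).continuousAt.continuousWithinAt) (fun s _ => (hgd s).hasDerivWithinAt)
      (fun s _ => ?_)
    have hs : Q *ᵥ (heat n G s *ᵥ v) = heat n G s *ᵥ v := by
      rw [mulVec_mulVec, (Commute.heat hQ s).eq, ← mulVec_mulVec, hv]
    have h := hgap _ hs
    simp only [form, dotProduct] at h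
    have e : (∑ σ, 2 * (heat n G s *ᵥ v) σ * -((energy n G *ᵥ (heat n G s *ᵥ v)) σ)) =
        -(2 * ∑ σ, (heat n G s *ᵥ v) σ * (energy n G *ᵥ (heat n G s *ᵥ v)) σ) := by
      rw [Finset.mul_sum, ← Finset.sum_neg_distrib]
      exact Finset.sum_congr rfl fun σ _ => by ring
    rw [e]
    nlinarith [Real.exp_pos (2 * γ * s)]
  have h := hanti (Set.left_mem_Icc.2 hab) (Set.right_mem_Icc.2 hab) hab
  simp only [hg] at h
  have e : Real.exp (-(2 * γ * (b - a))) = Real.exp (2 * γ * a) / Real.exp (2 * γ * b) := by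
    rw [← Real.exp_sub]; ring_nf
  rw [e, div_mul_eq_mul_div, le_div_iff₀ (Real.exp_pos _)]
  linarith

/-- The trace of the heat kernel on a gapped invariant subspace decays. -/
theorem trace_heat_decay (hG : ∀ x y, G x y → x ≠ y) {Q : ROp n V}
    (hQ : Commute Q (energy n G)) (hQ2 : Q * Q = Q) (hQT : Qᵀ = Q) {γ : ℝ}
    (hgap : ∀ v, Q *ᵥ v = v → γ * ∑ σ, v σ ^ 2 ≤ form (energy n G) v) {t : ℝ} (ht : 0 ≤ t) :
    trace (heat n G t * Q) ≤ Real.exp (-(γ * t / 2)) * trace (heat n G (t / 2) * Q) := by
  have e : ∀ s, trace (heat n G s * Q) =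
      ∑ τ, ∑ σ, (heat n G (s / 2) *ᵥ fun ρ => Q ρ τ) σ ^ 2 := by
    intro s
    have h2 : heat n G s * Q = (heat n G (s / 2) * Q)ᵀ * (heat n G (s / 2) * Q) := by
      rw [transpose_mul, hQT, heat_transpose hG, mul_assoc,
        ← mul_assoc (heat n G (s / 2)) (heat n G (s / 2)) Q, ← heat_add, add_halves, ← mul_assoc,
        (Commute.heat hQ s).eq, mul_assoc, hQ2]
    rw [h2, trace]
    refine Finset.sum_congr rfl fun τ _ => ?_
    rw [diag_apply, mul_apply]
    refine Finset.sum_congr rfl fun σ _ => ?_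
    rw [transpose_apply, sq]
    rfl
  rw [e t, e (t / 2), Finset.mul_sum]
  refine Finset.sum_le_sum fun τ _ => ?_
  have hv : Q *ᵥ (fun ρ => Q ρ τ) = fun ρ => Q ρ τ := by
    funext σ; exact (mul_apply (M := Q) (N := Q)).symm.trans (by rw [hQ2])
  refine le_trans (norm_heat_decay hQ hgap (a := t / 2 / 2) (b := t / 2) (by linarith) _ hv) ?_
  refine le_of_eq ?_
  rw [show -(2 * γ * (t / 2 - t / 2 / 2)) = -(γ * t / 2) by ring]

theorem splitMat_pos {m : ℕ}
    (hm : 2 * (m + 1) ≤ n * Fintype.card V + 1) :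
    IsUnit (proj n V m * ((totLow n V)ᵀ * totLow n V) * proj n V m + (1 - proj n V m)).det := by
  set L := totLow n V with hL
  set p := proj n V m with hp
  set N : ROp n V := p * (Lᵀ * L) * p + (1 - p) with hN
  set W : ROp n V := L * p with hW
  have hpos : ∀ v : Cfg n V → ℝ, v ≠ 0 → 0 < form N v := by
    intro v hv
    have hsplit : form N v = ∑ σ, (W *ᵥ v) σ ^ 2 + ∑ σ, ((1 - p) *ᵥ v) σ ^ 2 := by
      rw [hN, form_add, ← form_transpose_mul_self, ← form_transpose_mul_self]
      congr 2
      · rw [hW, transpose_mul, hp, proj_transpose]; simp [mul_assoc]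
      · rw [transpose_sub, transpose_one, hp, proj_transpose, sub_mul, one_mul, mul_sub, mul_one,
          proj_mul_self, sub_self, sub_zero]
    rw [hsplit]
    by_cases h1 : (1 - p) *ᵥ v = 0
    · have hpv : p *ᵥ v = v := by
        rw [sub_mulVec, one_mulVec, sub_eq_zero] at h1; exact h1.symm
      have hW2 : ∑ σ, (W *ᵥ v) σ ^ 2 = ∑ σ, ((Lᵀ : ROp n V) *ᵥ v) σ ^ 2 +
          2 * ((n : ℝ) / 2 * Fintype.card V - m) * ∑ σ, v σ ^ 2 := by
        rw [hW, ← mulVec_mulVec, hpv, ← form_transpose_mul_self L,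
          ← form_transpose_mul_self Lᵀ, transpose_transpose, totRai_totLow, form_add, form_smul,
          totZed_eq, form, form, dotProduct, dotProduct, mul_assoc]
        congr 2
        rw [Finset.mul_sum]
        refine Finset.sum_congr rfl fun σ _ => ?_
        rw [mulVec_diagonal]
        by_cases hs : size σ = m
        · rw [hs]; ring
        · have : v σ = 0 := by
            have := congrFun hpv σ
            rw [hp, proj, mulVec_diagonal, if_neg hs, zero_mul] at this
            exact this.symm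
          rw [this]; ring
      rw [h1, hW2]
      have hc : (0 : ℝ) < 2 * ((n : ℝ) / 2 * Fintype.card V - m) := by
        have : (2 : ℝ) * (m + 1) ≤ (n : ℝ) * Fintype.card V + 1 := by exact_mod_cast hm
        linarith
      obtain ⟨σ, hσ⟩ := Function.ne_iff.1 hv
      have h2 : 0 < ∑ σ, v σ ^ 2 := Finset.sum_pos' (fun _ _ => sq_nonneg _)
        ⟨σ, Finset.mem_univ _, by have : v σ ≠ 0 := hσ; positivity⟩
      have h3 : 0 ≤ ∑ σ, ((Lᵀ : ROp n V) *ᵥ v) σ ^ 2 :=
        Finset.sum_nonneg fun _ _ => sq_nonneg _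
      have h4 := mul_pos hc h2
      simp only [Pi.zero_apply, ne_eq, OfNat.ofNat_ne_zero, not_false_eq_true, zero_pow,
        Finset.sum_const_zero, add_zero]
      linarith
    · obtain ⟨σ, hσ⟩ := Function.ne_iff.1 h1
      have h2 : 0 < ∑ σ, ((1 - p) *ᵥ v) σ ^ 2 := Finset.sum_pos' (fun _ _ => sq_nonneg _)
        ⟨σ, Finset.mem_univ _, by
          have : ((1 - p) *ᵥ v) σ ≠ 0 := hσ
          positivity⟩
      have h3 : 0 ≤ ∑ σ, (W *ᵥ v) σ ^ 2 := Finset.sum_nonneg fun _ _ => sq_nonneg _
      linarith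
  rw [isUnit_iff_ne_zero]
  intro h0
  obtain ⟨v, hv, hv0⟩ := (exists_mulVec_eq_zero_iff (M := N)).2 h0
  have := hpos v hv
  rw [form, hv0, dotProduct_zero] at this
  exact lt_irrefl _ this

/-- The projection onto the highest weight states in the sector with `m + 1` magnons. -/
theorem exists_hwProj (hG : ∀ x y, G x y → x ≠ y) {m : ℕ}
    (hm : 2 * (m + 1) ≤ n * Fintype.card V + 1) :
    ∃ Q : ROp n V, Commute Q (energy n G) ∧ Q * Q = Q ∧ Qᵀ = Q ∧ (totLow n V)ᵀ * Q = 0 ∧
      proj n V (m + 1) * Q = Q ∧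
      ∀ s, trace (heat n G s * Q) = sectorTr n G s (m + 1) - sectorTr n G s m := by
  have hNu := splitMat_pos (n := n) (V := V) hm
  set L := totLow n V with hL
  set p := proj n V m with hp
  set N : ROp n V := p * (Lᵀ * L) * p + (1 - p) with hN
  set W : ROp n V := L * p with hW
  have hA_p : Commute p (energy n G) := proj_comm_energy hG m
  have hA_L : Commute L (energy n G) := commute_totLow_energy
  have hA_R : Commute Lᵀ (energy n G) := commute_totRai_energy hG
  have hWA : Commute W (energy n G) := hA_L.mul_left hA_p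
  have hWTA : Commute Wᵀ (energy n G) := by
    rw [hW, transpose_mul, hp, proj_transpose]; exact hA_p.mul_left hA_R
  have hNA : Commute N (energy n G) :=
    ((hA_p.mul_left (hA_R.mul_left hA_L)).mul_left hA_p).add_left
      ((Commute.one_left _).sub_left hA_p)
  have hNiA : Commute N⁻¹ (energy n G) := by
    show N⁻¹ * energy n G = energy n G * N⁻¹
    calc N⁻¹ * energy n G = N⁻¹ * (energy n G * N) * N⁻¹ := by
          rw [← mul_assoc, mul_assoc _ N, mul_nonsing_inv _ hNu, mul_one]
      _ = _ := by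
          rw [← hNA.eq, ← mul_assoc, nonsing_inv_mul _ hNu, one_mul]
  have hNp : N * p = p * N := by
    simp only [hN, add_mul, mul_add, sub_mul, mul_sub, one_mul, mul_one, mul_assoc, hp,
      proj_mul_self]
    simp only [← mul_assoc, proj_mul_self]
  have h1pN : (1 - p) * N = 1 - p := by
    simp only [hN, mul_add, sub_mul, mul_sub, one_mul, mul_one, ← mul_assoc, hp, proj_mul_self]
    abel
  have hNip : (1 - p) * N⁻¹ = 1 - p := by
    conv_lhs => rw [← h1pN]
    rw [mul_assoc, mul_nonsing_inv _ hNu, mul_one]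
  have hNi1 : N⁻¹ * (1 - p) = 1 - p := by
    have hN1 : N * (1 - p) = 1 - p := by
      rw [mul_sub, mul_one, hNp, ← h1pN, sub_mul, one_mul]
    conv_lhs => rw [← hN1]
    rw [← mul_assoc, nonsing_inv_mul _ hNu, one_mul]
  have hWW : Wᵀ * W = N - (1 - p) := by
    rw [hW, hN, transpose_mul, hp, proj_transpose]; simp [mul_assoc]
  have hW1 : W * (1 - p) = 0 := by
    rw [hW, mul_assoc, mul_sub, mul_one, hp, proj_mul_self, sub_self, mul_zero]
  have h1W : (1 - p) * Wᵀ = 0 := by
    rw [hW, transpose_mul, hp, proj_transpose, ← mul_assoc, sub_mul, one_mul, proj_mul_self,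
      sub_self, zero_mul]
  have hNT : Nᵀ = N := by
    simp [hN, transpose_add, transpose_sub, transpose_mul, hp, proj_transpose, mul_assoc]
  set P' : ROp n V := W * N⁻¹ * Wᵀ with hP'
  set q : ROp n V := proj n V (m + 1) with hq
  set Q : ROp n V := q - P' with hQ
  have hqW : q * W = W := by
    rw [hW, ← mul_assoc, hq, ← totLow_proj, mul_assoc, hp, proj_mul_self]
  have hWq : Wᵀ * q = Wᵀ := by
    have h := congrArg transpose hqW
    rwa [transpose_mul, hq, proj_transpose] at h
  have hP'P' : P' * P' = P' := by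
    calc P' * P' = W * N⁻¹ * (Wᵀ * W) * N⁻¹ * Wᵀ := by simp only [hP', mul_assoc]
      _ = W * N⁻¹ * Wᵀ := by
          rw [hWW, mul_sub, sub_mul, sub_mul, mul_assoc W N⁻¹ N, nonsing_inv_mul _ hNu, mul_one,
            mul_assoc W N⁻¹ (1 - p), hNi1, hW1, zero_mul, zero_mul, sub_zero]
  have hqP : q * P' = P' := by simp only [hP', ← mul_assoc, hqW]
  have hPq : P' * q = P' := by simp only [hP', mul_assoc, hWq]
  have hq2 : q * q = q := proj_mul_self (m + 1)
  have hQ2 : Q * Q = Q := by
    simp only [hQ, sub_mul, mul_sub, hqP, hPq, hP'P', hq2]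
    abel
  have hQA : Commute Q (energy n G) :=
    (proj_comm_energy hG (m + 1)).sub_left ((hWA.mul_left hNiA).mul_left hWTA)
  have hQT : Qᵀ = Q := by
    simp only [hQ, hP', transpose_sub, transpose_mul, transpose_transpose, transpose_nonsing_inv,
      hNT, hq, proj_transpose, mul_assoc]
  have hRQ : Lᵀ * Q = 0 := by
    have h1 : Lᵀ * q = Wᵀ := by
      have h := congrArg transpose (totLow_proj (n := n) (V := V) m)
      rw [transpose_mul, transpose_mul, proj_transpose, proj_transpose] at h
      rw [hW, transpose_mul, hp, proj_transpose, h]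
    have h2 : Lᵀ * P' = Wᵀ := by
      calc Lᵀ * P' = Lᵀ * (q * P') := by rw [hqP]
        _ = Wᵀ * W * N⁻¹ * Wᵀ := by rw [← mul_assoc, h1, hP']; simp only [mul_assoc]
        _ = Wᵀ := by
            rw [hWW, sub_mul, mul_nonsing_inv _ hNu, hNip, sub_mul, one_mul, h1W, sub_zero]
    rw [hQ, mul_sub, h1, h2, sub_self]
  have hqQ : q * Q = Q := by rw [hQ, mul_sub, hqP, hq2]
  have htr : ∀ s, trace (heat n G s * P') = sectorTr n G s m := by
    intro s
    have hKW : heat n G s * W = W * heat n G s := ((Commute.heat hWA s).eq).symm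
    calc trace (heat n G s * P') = trace (Wᵀ * (heat n G s * W) * N⁻¹) := by
          rw [hP', ← mul_assoc, ← mul_assoc, trace_mul_comm, ← mul_assoc]
      _ = trace (heat n G s * (Wᵀ * W * N⁻¹)) := by
          rw [hKW]
          simp only [← mul_assoc]
          rw [trace_mul_comm (Wᵀ * W * heat n G s)]
          rw [trace_mul_comm (heat n G s * Wᵀ * W)]
          congr 1
          have hc : Commute (Wᵀ * W) (heat n G s) := Commute.heat (hWTA.mul_left hWA) s
          simp only [mul_assoc]
          rw [← mul_assoc Wᵀ W, hc.eq]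
      _ = sectorTr n G s m := by
          rw [hWW, sub_mul, mul_nonsing_inv _ hNu, hNip, sub_sub_cancel, hp, trace_heat_proj]
  have hdec : ∀ s, trace (heat n G s * Q) = sectorTr n G s (m + 1) - sectorTr n G s m := by
    intro s
    rw [hQ, mul_sub, trace_sub, htr, hq, trace_heat_proj]
  exact ⟨Q, hQA, hQ2, hQT, hRQ, hqQ, hdec⟩

/-- The sector trace is at most that of the previous sector plus a gapped remainder. -/
theorem sectorTr_succ_le (hG : ∀ x y, G x y → x ≠ y) {m : ℕ}
    (hm : 2 * (m + 1) ≤ n * Fintype.card V + 1) {γ : ℝ}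
    (hgap : ∀ v : Cfg n V → ℝ, SuppAt v (m + 1) → (totLow n V)ᵀ *ᵥ v = 0 →
      γ * ∑ σ, v σ ^ 2 ≤ form (energy n G) v)
    {t : ℝ} (ht : 0 ≤ t) :
    sectorTr n G t (m + 1) ≤
      sectorTr n G t m + Real.exp (-(γ * t / 2)) * sectorTr n G (t / 2) (m + 1) := by
  obtain ⟨Q, hQA, hQ2, hQT, hRQ, hqQ, hdec⟩ := exists_hwProj (G := G) hG hm
  have hgapQ : ∀ v, Q *ᵥ v = v → γ * ∑ σ, v σ ^ 2 ≤ form (energy n G) v := by
    intro v hv
    refine hgap v ?_ ?_
    · intro σ hσ
      have hqv : proj n V (m + 1) *ᵥ v = v := by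
        conv_lhs => rw [← hv, mulVec_mulVec, hqQ]
        exact hv
      rw [← hqv, proj, mulVec_diagonal, if_neg hσ, zero_mul]
    · rw [← hv, mulVec_mulVec, hRQ, zero_mulVec]
  have h := trace_heat_decay hG hQA hQ2 hQT hgapQ ht
  rw [hdec, hdec] at h
  have h0 := sectorTr_nonneg (n := n) hG (show 0 ≤ t / 2 by linarith) m
  have h1 := mul_nonneg (Real.exp_pos (-(γ * t / 2))).le h0
  linarith

theorem rev_sub (a : Fin (n + 1)) : ((Fin.rev a : Fin (n + 1)) : ℕ) = n - (a : ℕ) := by
  simp [Fin.val_rev]

theorem rai_rev (a b : Fin (n + 1)) : rai n (Fin.rev a) (Fin.rev b) = low n a b := by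
  simp only [low, transpose_apply, rai, of_apply, Fin.val_rev]
  have ha := a.is_le
  have hb := b.is_le
  by_cases h : (b : ℕ) + 1 = (a : ℕ)
  · rw [if_pos h, if_pos (by omega)]
    congr 1
    rw [Nat.cast_sub (by omega)]
    push_cast
    have : ((a : ℕ) : ℝ) = (b : ℕ) + 1 := by exact_mod_cast h.symm
    rw [this]
    ring
  · rw [if_neg h, if_neg (by omega)]

/-- The spin flip. -/
def flipEquiv (n : ℕ) (V : Type*) : Cfg n V ≃ Cfg n V :=
  Equiv.arrowCongr (Equiv.refl V) Fin.revPerm

omit [Fintype V] [DecidableEq V] in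
theorem flip_apply (σ : Cfg n V) (z : V) : flipEquiv n V σ z = Fin.rev (σ z) := rfl

theorem loc_flip (x : V) (M : Mat1 n) (σ τ : Cfg n V) :
    loc x M (flipEquiv n V σ) (flipEquiv n V τ) =
      loc x (M.submatrix Fin.rev Fin.rev) σ τ := by
  simp only [loc_apply, flip_apply, Fin.rev_inj, submatrix_apply]

theorem energy_flip (hG : ∀ x y, G x y → x ≠ y) :
    (energy n G).submatrix (flipEquiv n V) (flipEquiv n V) = energy n G := by
  have hz : (zed n).submatrix Fin.rev Fin.rev = -zed n := by
    ext a b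
    rw [submatrix_apply, Matrix.neg_apply, zed]
    by_cases h : a = b
    · subst h
      rw [diagonal_apply_eq, diagonal_apply_eq, rev_sub, Nat.cast_sub a.is_le]
      ring
    · rw [diagonal_apply_ne _ h, diagonal_apply_ne _ (fun e => h (Fin.rev_inj.1 e)), neg_zero]
  have hr : (rai n).submatrix Fin.rev Fin.rev = low n := by ext a b; exact rai_rev a b
  have hl : (low n).submatrix Fin.rev Fin.rev = rai n := by
    ext a b; rw [submatrix_apply, low, transpose_apply, rai_rev]; rfl
  have hb : ∀ x y : V, x ≠ y →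
      (bond n x y).submatrix (flipEquiv n V) (flipEquiv n V) = bond n x y := by
    intro x y hxy
    have hloc : ∀ (u : V) (M : Mat1 n),
        (loc u M).submatrix (flipEquiv n V) (flipEquiv n V) =
          loc u (M.submatrix Fin.rev Fin.rev) :=
      fun u M => by ext σ τ; exact loc_flip u M σ τ
    simp only [bond, submatrix_sub, submatrix_add, submatrix_smul, Pi.sub_apply, Pi.add_apply,
      Pi.smul_apply, submatrix_one_equiv, ← submatrix_mul_equiv _ _ _ (flipEquiv n V), hloc, hz,
      hr, hl, loc_neg, neg_mul_neg]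
    module
  ext σ τ
  simp only [submatrix_apply, energy, Matrix.smul_apply, Matrix.sum_apply, smul_eq_mul]
  congr 1
  refine Finset.sum_congr rfl fun x _ => Finset.sum_congr rfl fun y _ => ?_
  split_ifs with h
  · exact congrFun (congrFun (hb x y (hG x y h)) σ) τ
  · rfl

open scoped Matrix.Norms.Operator in
theorem heat_flip (hG : ∀ x y, G x y → x ≠ y) (t : ℝ) (σ τ : Cfg n V) :
    heat n G t (flipEquiv n V σ) (flipEquiv n V τ) = heat n G t σ τ := by
  set f : ROp n V ≃ₐ[ℝ] ROp n V := Matrix.reindexAlgEquiv ℝ ℝ (flipEquiv n V).symm with hf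
  have hfc : Continuous f := f.toLinearMap.continuous_of_finiteDimensional
  have hfe : ∀ X : ROp n V, f X = X.submatrix (flipEquiv n V) (flipEquiv n V) := fun X => rfl
  have h := NormedSpace.map_exp f hfc ((-t) • energy n G)
  rw [map_smul, hfe (energy n G), energy_flip hG] at h
  exact congrFun (congrFun h σ) τ

omit [DecidableEq V] in
theorem size_flip (σ : Cfg n V) :
    size (flipEquiv n V σ) + size σ = n * Fintype.card V := by
  simp only [size, flip_apply, rev_sub, ← Finset.sum_add_distrib]
  rw [Finset.sum_congr rfl fun v _ => Nat.sub_add_cancel (σ v).is_le, Finset.sum_const,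
    Finset.card_univ, smul_eq_mul, mul_comm]

theorem sectorTr_flip (hG : ∀ x y, G x y → x ≠ y) (t : ℝ) {m : ℕ}
    (hm : m ≤ n * Fintype.card V) :
    sectorTr n G t m = sectorTr n G t (n * Fintype.card V - m) := by
  refine Finset.sum_equiv (flipEquiv n V) (fun σ => ?_) fun σ _ => (heat_flip hG t σ σ).symm
  simp only [Finset.mem_filter, Finset.mem_univ, true_and]
  have := size_flip σ
  omega

omit [DecidableEq V] in
theorem size_le (σ : Cfg n V) : size σ ≤ n * Fintype.card V := by
  have := size_flip σ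
  omega

end Vale.Agent.P361.Field
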