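import Vale.Agent.P361.Field.Heat

/-!
Entrywise and summed bounds on product states and on the interaction terms.
-/

open Matrix Finset

namespace Vale.Agent.P361.Field

variable {n : ℕ} {V : Type*} [Fintype V] [DecidableEq V] {G : V → V → Prop} [DecidableRel G]

/-- Remove one magnon at `x`. -/
def dec (σ : Cfg n V) (x : V) : Cfg n V :=
  Function.update σ x ⟨(σ x : ℕ) - 1, lt_of_le_of_lt (Nat.sub_le _ _) (σ x).isLt⟩

/-- The matrix element of the lowering matrix towards level `a`. -/
noncomputable def wgt (n : ℕ) (a : Fin (n + 1)) : ℝ :=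
  Real.sqrt ((a : ℝ) * ((n : ℝ) + 1 - (a : ℝ)))

theorem wgt_nonneg (a : Fin (n + 1)) : 0 ≤ wgt n a := Real.sqrt_nonneg _

theorem wgt_le (a : Fin (n + 1)) : wgt n a ≤ (n : ℝ) + 1 := by
  have h : ((a : ℕ) : ℝ) ≤ n := by exact_mod_cast a.is_le
  have h0 : (0 : ℝ) ≤ (a : ℕ) := Nat.cast_nonneg _
  rw [wgt, Real.sqrt_le_left (by positivity)]
  nlinarith

theorem one_le_wgt (a : Fin (n + 1)) (h : 1 ≤ (a : ℕ)) : 1 ≤ wgt n a := by
  have h1 : (1 : ℝ) ≤ ((a : ℕ) : ℝ) := by exact_mod_cast h
  have h2 : ((a : ℕ) : ℝ) ≤ n := by exact_mod_cast a.is_le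
  rw [wgt, Real.one_le_sqrt]
  nlinarith

theorem loc_low_mulVec (x : V) (v : Cfg n V → ℝ) (σ : Cfg n V) :
    (loc x (low n) *ᵥ v) σ = if (σ x : ℕ) = 0 then 0 else wgt n (σ x) * v (dec σ x) := by
  simp only [mulVec, dotProduct]
  by_cases h : (σ x : ℕ) = 0
  · rw [if_pos h]
    refine Finset.sum_eq_zero fun τ _ => ?_
    rw [loc_apply]
    split_ifs with hz
    · simp [low, rai, h]
    · simp
  · rw [if_neg h, Fintype.sum_eq_single (dec σ x)]
    · rw [loc_apply, if_pos fun z hz => by simp [dec, hz]]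
      have : (σ x : ℕ) - 1 + 1 = (σ x : ℕ) := by omega
      simp [low, rai, dec, this, wgt]
    · intro τ hτ
      rw [loc_apply]
      split_ifs with hz
      · simp only [low, transpose_apply, rai, of_apply]
        rw [if_neg, zero_mul]
        intro hc
        refine hτ (funext fun z => ?_)
        by_cases hzx : z = x
        · subst hzx; exact Fin.ext (by simp [dec]; omega)
        · simp [dec, hzx, (hz z hzx).symm]
      · simp

theorem crea_mulVec (g : V → ℝ) (v : Cfg n V → ℝ) (σ : Cfg n V) :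
    (crea n g *ᵥ v) σ =
      ∑ x, if (σ x : ℕ) = 0 then 0 else g x * (wgt n (σ x) * v (dec σ x)) := by
  simp only [crea, sum_mulVec, Finset.sum_apply, smul_mulVec, Pi.smul_apply, smul_eq_mul,
    loc_low_mulVec, mul_ite, mul_zero]

theorem size_dec {σ : Cfg n V} {x : V} (h : (σ x : ℕ) ≠ 0) : size (dec σ x) + 1 = size σ := by
  rw [size, size, ← Finset.add_sum_erase _ _ (Finset.mem_univ x),
    ← Finset.add_sum_erase _ (fun y => (σ y : ℕ)) (Finset.mem_univ x)]
  have : ∑ y ∈ Finset.univ.erase x, (dec σ x y : ℕ) = ∑ y ∈ Finset.univ.erase x, (σ y : ℕ) :=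
    Finset.sum_congr rfl fun y hy => by simp [dec, (Finset.mem_erase.1 hy).1]
  rw [this]
  simp [dec]
  omega

omit [DecidableEq V] in
theorem size_vac {σ : Cfg n V} (h : σ = fun _ => 0) : size σ = 0 := by simp [size, h]

/-- A vector supported on configurations with `k` magnons. -/
def SuppAt (v : Cfg n V → ℝ) (k : ℕ) : Prop := ∀ σ, size σ ≠ k → v σ = 0

theorem SuppAt.crea {v : Cfg n V → ℝ} {k : ℕ} (h : SuppAt v k) (g : V → ℝ) :
    SuppAt (Field.crea n g *ᵥ v) (k + 1) := by
  intro σ hσ
  rw [crea_mulVec]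
  refine Finset.sum_eq_zero fun x _ => ?_
  split_ifs with h0
  · rfl
  · rw [h _ (by have := size_dec h0; omega), mul_zero, mul_zero]

theorem SuppAt.low {v : Cfg n V → ℝ} {k : ℕ} (h : SuppAt v k) (x : V) :
    SuppAt (loc x (Field.low n) *ᵥ v) (k + 1) := by
  intro σ hσ
  rw [loc_low_mulVec]
  split_ifs with h0
  · rfl
  · rw [h _ (by have := size_dec h0; omega), mul_zero]

omit [DecidableEq V] in
theorem SuppAt.add {v w : Cfg n V → ℝ} {k : ℕ} (hv : SuppAt v k) (hw : SuppAt w k) :
    SuppAt (v + w) k := fun σ hσ => by simp [hv σ hσ, hw σ hσ]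

theorem inter_mulVec (g c : V → ℝ) (v : Cfg n V → ℝ) (σ : Cfg n V) :
    (inter n G g c *ᵥ v) σ = 1 / 2 * ∑ x, ∑ y, if G x y then
      (g x - g y) * (c x - c y) * (loc x (low n) *ᵥ (loc y (low n) *ᵥ v)) σ else 0 := by
  simp only [inter, smul_mulVec, sum_mulVec, Pi.smul_apply, Finset.sum_apply, smul_eq_mul]
  congr 1
  refine Finset.sum_congr rfl fun x _ => Finset.sum_congr rfl fun y _ => ?_
  split_ifs
  · simp [smul_mulVec, mulVec_mulVec]
  · simp

theorem SuppAt.inter {v : Cfg n V → ℝ} {k : ℕ} (h : SuppAt v k) (g c : V → ℝ) :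
    SuppAt (Field.inter n G g c *ᵥ v) (k + 2) := by
  intro σ hσ
  rw [inter_mulVec]
  simp [((h.low _).low _) σ hσ]

theorem psi_supp (l : List (V → ℝ)) : SuppAt (psi n l) l.length := by
  induction l with
  | nil =>
      intro σ hσ
      simp only [psi, vac]
      exact if_neg fun h => hσ (size_vac h)
  | cons g l ih => exact ih.crea g

theorem cross_supp (g : V → ℝ) (l : List (V → ℝ)) :
    SuppAt (cross n G g l) (l.length + 1) := by
  induction l with
  | nil => intro σ _; rfl
  | cons c l ih => exact (ih.crea c).add ((psi_supp l).inter g c)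

theorem err_supp (l : List (V → ℝ)) : SuppAt (err n G l) l.length := by
  induction l with
  | nil => intro σ _; rfl
  | cons g l ih => exact (ih.crea g).add (cross_supp g l)

/-- The sum of absolute values. -/
noncomputable def l1 {ι : Type*} [Fintype ι] (v : ι → ℝ) : ℝ := ∑ i, |v i|

theorem l1_nonneg {ι : Type*} [Fintype ι] (v : ι → ℝ) : 0 ≤ l1 v :=
  Finset.sum_nonneg fun _ _ => abs_nonneg _

theorem l1_add {ι : Type*} [Fintype ι] (v w : ι → ℝ) : l1 (v + w) ≤ l1 v + l1 w := by
  simp only [l1, ← Finset.sum_add_distrib]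
  exact Finset.sum_le_sum fun i _ => abs_add_le _ _

theorem l1_loc_low (x : V) (v : Cfg n V → ℝ) :
    l1 (loc x (low n) *ᵥ v) ≤ ((n : ℝ) + 1) * l1 v := by
  simp only [l1, loc_low_mulVec]
  rw [← Finset.sum_filter_add_sum_filter_not Finset.univ (fun σ : Cfg n V => (σ x : ℕ) = 0)]
  rw [Finset.sum_eq_zero (s := Finset.univ.filter fun σ : Cfg n V => (σ x : ℕ) = 0)
    (fun σ hσ => by simp [(Finset.mem_filter.1 hσ).2]), zero_add]
  calc ∑ σ ∈ Finset.univ.filter (fun σ : Cfg n V => ¬(σ x : ℕ) = 0),
        |if (σ x : ℕ) = 0 then 0 else wgt n (σ x) * v (dec σ x)|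
      ≤ ∑ σ ∈ Finset.univ.filter (fun σ : Cfg n V => ¬(σ x : ℕ) = 0),
        ((n : ℝ) + 1) * |v (dec σ x)| := by
        refine Finset.sum_le_sum fun σ hσ => ?_
        rw [if_neg (Finset.mem_filter.1 hσ).2, abs_mul, abs_of_nonneg (wgt_nonneg _)]
        exact mul_le_mul_of_nonneg_right (wgt_le _) (abs_nonneg _)
    _ = ((n : ℝ) + 1) * ∑ τ ∈ (Finset.univ.filter (fun σ : Cfg n V => ¬(σ x : ℕ) = 0)).image
          (fun σ => dec σ x), |v τ| := by
        rw [← Finset.mul_sum, Finset.sum_image]
        intro σ hσ σ' hσ' h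
        simp only [Finset.coe_filter, Finset.mem_univ, true_and, Set.mem_ofPred_eq] at hσ hσ'
        funext z
        by_cases hz : z = x
        · subst hz
          have := congrArg Fin.val (congrFun h z)
          simp [dec] at this
          exact Fin.ext (by omega)
        · simpa [dec, hz] using congrFun h z
    _ ≤ _ := mul_le_mul_of_nonneg_left
        (Finset.sum_le_univ_sum_of_nonneg fun τ => abs_nonneg _) (by positivity)

theorem l1_crea (g : V → ℝ) (v : Cfg n V → ℝ) :
    l1 (crea n g *ᵥ v) ≤ ((n : ℝ) + 1) * (∑ x, |g x|) * l1 v := by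
  calc l1 (crea n g *ᵥ v) ≤ ∑ x, |g x| * l1 (loc x (low n) *ᵥ v) := by
        simp only [l1, crea, sum_mulVec, Finset.sum_apply, smul_mulVec, Pi.smul_apply, smul_eq_mul,
          Finset.mul_sum]
        rw [Finset.sum_comm]
        exact Finset.sum_le_sum fun σ _ =>
          le_trans (Finset.abs_sum_le_sum_abs _ _) (le_of_eq (by simp [abs_mul]))
    _ ≤ ∑ x, |g x| * (((n : ℝ) + 1) * l1 v) := Finset.sum_le_sum fun x _ =>
        mul_le_mul_of_nonneg_left (l1_loc_low x v) (abs_nonneg _)
    _ = _ := by rw [← Finset.sum_mul]; ring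

/-- The overlap of two amplitudes over the edges. -/
noncomputable def edgeI (G : V → V → Prop) [DecidableRel G] (g c : V → ℝ) : ℝ :=
  1 / 2 * ∑ x, ∑ y, if G x y then |g x - g y| * |c x - c y| else 0

omit [DecidableEq V] in
theorem edgeI_nonneg (g c : V → ℝ) : 0 ≤ edgeI G g c := by
  refine mul_nonneg (by norm_num) (Finset.sum_nonneg fun x _ => Finset.sum_nonneg fun y _ => ?_)
  split_ifs <;> positivity

theorem l1_inter (g c : V → ℝ) (v : Cfg n V → ℝ) :
    l1 (inter n G g c *ᵥ v) ≤ ((n : ℝ) + 1) ^ 2 * edgeI G g c * l1 v := by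
  have h2 : ∀ x y, l1 (loc x (low n) *ᵥ (loc y (low n) *ᵥ v)) ≤ ((n : ℝ) + 1) ^ 2 * l1 v := by
    intro x y
    refine le_trans (l1_loc_low x _) ?_
    rw [sq, mul_assoc]
    exact mul_le_mul_of_nonneg_left (l1_loc_low y v) (by positivity)
  calc l1 (inter n G g c *ᵥ v) ≤ 1 / 2 * ∑ x, ∑ y, if G x y then
        |g x - g y| * |c x - c y| * l1 (loc x (low n) *ᵥ (loc y (low n) *ᵥ v)) else 0 := by
        simp only [l1, inter_mulVec, abs_mul, abs_of_pos (show (0 : ℝ) < 1 / 2 by norm_num)]
        rw [← Finset.mul_sum]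
        refine mul_le_mul_of_nonneg_left ?_ (by norm_num)
        refine le_trans (Finset.sum_le_sum fun σ _ => le_trans (Finset.abs_sum_le_sum_abs _ _)
          (Finset.sum_le_sum fun x _ => Finset.abs_sum_le_sum_abs _ _)) (le_of_eq ?_)
        rw [Finset.sum_comm]
        refine Finset.sum_congr rfl fun x _ => ?_
        rw [Finset.sum_comm]
        refine Finset.sum_congr rfl fun y _ => ?_
        split_ifs
        · simp only [abs_mul, ← Finset.mul_sum]
        · simp
    _ ≤ 1 / 2 * ∑ x, ∑ y, if G x y then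
        |g x - g y| * |c x - c y| * (((n : ℝ) + 1) ^ 2 * l1 v) else 0 := by
        gcongr with x _ y _
        split_ifs
        · exact mul_le_mul_of_nonneg_left (h2 x y) (by positivity)
        · rfl
    _ = _ := by
        simp only [edgeI, Finset.mul_sum, Finset.sum_mul]
        refine Finset.sum_congr rfl fun x _ => Finset.sum_congr rfl fun y _ => ?_
        split_ifs <;> ring

/-- The sum of the overlaps over all pairs of a list. -/
noncomputable def pairI (G : V → V → Prop) [DecidableRel G] : List (V → ℝ) → ℝ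
  | [] => 0
  | g :: l => (l.map (edgeI G g)).sum + pairI G l

theorem l1_vac : l1 (vac n V) = 1 := by
  simp only [l1, vac]
  rw [Fintype.sum_eq_single (fun _ => 0)]
  · simp
  · intro σ hσ; simp [hσ]

theorem l1_psi (l : List (V → ℝ)) (h : ∀ g ∈ l, ∑ x, |g x| ≤ 1) :
    l1 (psi n l) ≤ ((n : ℝ) + 1) ^ l.length := by
  induction l with
  | nil => simp [psi, l1_vac]
  | cons g l ih =>
      simp only [List.forall_mem_cons] at h
      rw [psi, List.length_cons, pow_succ']
      refine le_trans (l1_crea g _) ?_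
      calc ((n : ℝ) + 1) * (∑ x, |g x|) * l1 (psi n l)
          ≤ ((n : ℝ) + 1) * 1 * ((n : ℝ) + 1) ^ l.length := by
            gcongr
            · exact l1_nonneg _
            · exact h.1
            · exact ih h.2
        _ = _ := by ring

omit [DecidableEq V] in
theorem sum_edgeI_nonneg (g : V → ℝ) (l : List (V → ℝ)) : 0 ≤ (l.map (edgeI G g)).sum :=
  List.sum_nonneg fun a ha => by
    obtain ⟨c, _, rfl⟩ := List.mem_map.1 ha
    exact edgeI_nonneg g c

theorem l1_cross (g : V → ℝ) (l : List (V → ℝ)) (h : ∀ c ∈ l, ∑ x, |c x| ≤ 1) :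
    l1 (cross n G g l) ≤ ((n : ℝ) + 1) ^ (l.length + 1) * (l.map (edgeI G g)).sum := by
  induction l with
  | nil => simp [cross, l1]
  | cons c l ih =>
      simp only [List.forall_mem_cons] at h
      rw [cross, List.map_cons, List.sum_cons, List.length_cons]
      refine le_trans (l1_add _ _) ?_
      have h1 : l1 (crea n c *ᵥ cross n G g l) ≤
          ((n : ℝ) + 1) * 1 * (((n : ℝ) + 1) ^ (l.length + 1) * (l.map (edgeI G g)).sum) := by
        refine le_trans (l1_crea c _) ?_
        have := sum_edgeI_nonneg (G := G) g l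
        gcongr
        · exact l1_nonneg _
        · exact h.1
        · exact ih h.2
      have h2 : l1 (inter n G g c *ᵥ psi n l) ≤
          ((n : ℝ) + 1) ^ 2 * edgeI G g c * ((n : ℝ) + 1) ^ l.length := by
        refine le_trans (l1_inter g c _) (mul_le_mul_of_nonneg_left (l1_psi l h.2) ?_)
        have := edgeI_nonneg (G := G) g c
        positivity
      refine le_trans (add_le_add h1 h2) (le_of_eq ?_)
      ring

theorem l1_err (l : List (V → ℝ)) (h : ∀ c ∈ l, ∑ x, |c x| ≤ 1) :
    l1 (err n G l) ≤ ((n : ℝ) + 1) ^ l.length * pairI G l := by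
  induction l with
  | nil => simp [err, l1, pairI]
  | cons g l ih =>
      simp only [List.forall_mem_cons] at h
      rw [err, pairI, List.length_cons]
      refine le_trans (l1_add _ _) ?_
      have h1 : l1 (crea n g *ᵥ err n G l) ≤
          ((n : ℝ) + 1) * 1 * (((n : ℝ) + 1) ^ l.length * pairI G l) := by
        refine le_trans (l1_crea g _) ?_
        gcongr
        · exact l1_nonneg _
        · exact h.1
        · exact ih h.2
      refine le_trans (add_le_add h1 (l1_cross g l h.2)) (le_of_eq ?_)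
      ring

/-- The state with `k` magnons spread evenly. -/
noncomputable def flat (n : ℕ) (V : Type*) [Fintype V] [DecidableEq V] (k : ℕ) : Cfg n V → ℝ :=
  psi n (List.replicate k fun _ => (1 : ℝ))

theorem psi_nonneg (l : List (V → ℝ)) (h : ∀ g ∈ l, ∀ x, 0 ≤ g x) (σ : Cfg n V) :
    0 ≤ psi n l σ := by
  induction l generalizing σ with
  | nil => simp only [psi, vac]; split_ifs <;> norm_num
  | cons g l ih =>
      simp only [List.forall_mem_cons] at h
      rw [psi, crea_mulVec]
      refine Finset.sum_nonneg fun x _ => ?_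
      split_ifs
      · rfl
      · exact mul_nonneg (h.1 x) (mul_nonneg (wgt_nonneg _) (ih h.2 _))

theorem flat_nonneg (k : ℕ) (σ : Cfg n V) : 0 ≤ flat n V k σ :=
  psi_nonneg _ (fun g hg x => by rw [List.eq_of_mem_replicate hg]; exact zero_le_one) σ

theorem flat_supp (k : ℕ) : SuppAt (flat n V k) k := by
  simpa [flat] using psi_supp (n := n) (List.replicate k fun _ : V => (1 : ℝ))

theorem flat_succ (k : ℕ) (σ : Cfg n V) :
    flat n V (k + 1) σ = ∑ x, if (σ x : ℕ) = 0 then 0 else wgt n (σ x) * flat n V k (dec σ x) := by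
  rw [flat, List.replicate_succ, psi, crea_mulVec]
  simp [flat]

theorem one_le_flat (k : ℕ) (σ : Cfg n V) (h : size σ = k) : 1 ≤ flat n V k σ := by
  induction k generalizing σ with
  | zero =>
      have : σ = fun _ => 0 := funext fun x =>
        Fin.ext ((Finset.sum_eq_zero_iff.1 (h : ∑ x, (σ x : ℕ) = 0)) x (Finset.mem_univ x))
      simp [flat, psi, vac, this]
  | succ k ih =>
      obtain ⟨x, -, hx⟩ := Finset.exists_ne_zero_of_sum_ne_zero
        (show ∑ x, (σ x : ℕ) ≠ 0 by rw [← size, h]; omega)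
      rw [flat_succ]
      refine le_trans ?_ (Finset.single_le_sum
        (f := fun x => if (σ x : ℕ) = 0 then (0 : ℝ) else wgt n (σ x) * flat n V k (dec σ x))
        (fun y _ => ?_) (Finset.mem_univ x))
      · rw [if_neg hx]
        exact one_le_mul_of_one_le_of_one_le (one_le_wgt _ (by omega))
          (ih _ (by have := size_dec hx; omega))
      · split_ifs
        · rfl
        · exact mul_nonneg (wgt_nonneg _) (flat_nonneg _ _)

omit [DecidableEq V] in
theorem card_occupied_le (σ : Cfg n V) :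
    (Finset.univ.filter fun x => (σ x : ℕ) ≠ 0).card ≤ size σ := by
  rw [Finset.card_eq_sum_ones, Finset.sum_filter, size]
  exact Finset.sum_le_sum fun x _ => by split_ifs <;> omega

omit [DecidableEq V] in
theorem sum_guard {f : V → ℝ} {σ : Cfg n V} :
    (∑ x ∈ Finset.univ.filter (fun x => ¬(σ x : ℕ) = 0), f x) =
      ∑ x, if (σ x : ℕ) = 0 then 0 else f x := by
  rw [Finset.sum_filter]; simp

theorem flat_le (m k : ℕ) (hk : k ≤ m) (σ : Cfg n V) :
    flat n V k σ ≤ (((n : ℝ) + 1) * m) ^ k := by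
  induction k generalizing σ with
  | zero => simp only [flat, List.replicate_zero, psi, vac, pow_zero]; split_ifs <;> norm_num
  | succ k ih =>
      by_cases hs : size σ = k + 1
      · rw [flat_succ, ← sum_guard]
        refine le_trans (Finset.sum_le_card_nsmul _ _ (((n : ℝ) + 1) * ((((n : ℝ) + 1) * m) ^ k))
          fun x _ => mul_le_mul (wgt_le _) (ih (by omega) _) (flat_nonneg _ _) (by positivity)) ?_
        rw [nsmul_eq_mul, pow_succ]
        have hc : ((Finset.univ.filter fun x => ¬(σ x : ℕ) = 0).card : ℝ) ≤ m := by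
          exact_mod_cast le_trans (card_occupied_le σ) (by omega)
        refine le_trans (mul_le_mul_of_nonneg_right hc (by positivity)) (le_of_eq ?_)
        ring
      · rw [flat_supp (k + 1) σ hs]; positivity

end Vale.Agent.P361.Field
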