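import Vale.Agent.P361.Field.CubeGap
import Vale.Agent.P361.Gibbs

/-!
Partition functions of graphs: monotonicity in the set of edges, factorization over disjoint
unions, and the tiling bound for cubes.
-/

open Matrix Finset
open scoped Kronecker

namespace Vale.Agent.P361.Field

variable {n : ℕ} {V : Type*} [Fintype V] [DecidableEq V]

/-- The partition function at time `t` and fugacity `z`. -/
noncomputable def zPart (n : ℕ) (G : V → V → Prop) [DecidableRel G] (t z : ℝ) : ℝ :=
  ∑ σ : Cfg n V, z ^ size σ * heat n G t σ σ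

variable {G : V → V → Prop} [DecidableRel G]

theorem zPart_eq_sum (t z : ℝ) :
    zPart n G t z = ∑ m ∈ Finset.range (n * Fintype.card V + 1), z ^ m * sectorTr n G t m := by
  rw [zPart, ← Finset.sum_fiberwise_of_maps_to (t := Finset.range (n * Fintype.card V + 1))
    (g := fun σ : Cfg n V => size σ)
    (fun σ _ => Finset.mem_range.2 (Nat.lt_succ_of_le (size_le σ)))]
  refine Finset.sum_congr rfl fun m _ => ?_
  rw [sectorTr, Finset.mul_sum]
  exact Finset.sum_congr rfl fun σ hσ => by rw [(Finset.mem_filter.1 hσ).2]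

theorem zPart_nonneg (hG : ∀ x y, G x y → x ≠ y) {t z : ℝ} (ht : 0 ≤ t) (hz : 0 ≤ z) :
    0 ≤ zPart n G t z :=
  Finset.sum_nonneg fun σ _ => mul_nonneg (pow_nonneg hz _) (heat_nonneg hG ht σ σ)

/-- The magnon number as a diagonal matrix. -/
def numOp (n : ℕ) (V : Type*) [Fintype V] [DecidableEq V] : ROp n V :=
  diagonal fun σ => (size σ : ℝ)

/-- The complex Gibbs exponent of a graph. -/
noncomputable def expo (n : ℕ) (G : V → V → Prop) [DecidableRel G] (t μ : ℝ) :
    Matrix (Cfg n V) (Cfg n V) ℂ :=
  (t • energy n G + μ • numOp n V).map Complex.ofRealHom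

open scoped Matrix.Norms.Operator in
theorem exp_map_ofReal {ι : Type*} [Fintype ι] [DecidableEq ι] (X : Matrix ι ι ℝ) :
    NormedSpace.exp (X.map Complex.ofRealHom) = (NormedSpace.exp X).map Complex.ofRealHom :=
  (NormedSpace.map_exp (Complex.ofRealHom.mapMatrix : Matrix ι ι ℝ →+* Matrix ι ι ℂ)
    (continuous_id.matrix_map Complex.continuous_ofReal) X).symm

theorem expo_isHermitian (hG : ∀ x y, G x y → x ≠ y) (t μ : ℝ) :
    (expo n G t μ).IsHermitian := by
  have hT : (t • energy n G + μ • numOp n V)ᵀ = t • energy n G + μ • numOp n V := by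
    simp [energy_transpose hG, numOp]
  refine Matrix.IsHermitian.ext fun i j => ?_
  simp only [expo, Matrix.map_apply, Complex.ofRealHom_eq_coe, Complex.star_def,
    Complex.conj_ofReal]
  conv_lhs => rw [← hT]
  rfl

theorem commute_numOp_energy (hG : ∀ x y, G x y → x ≠ y) :
    Commute (numOp n V) (energy n G) := by
  show numOp n V * energy n G = energy n G * numOp n V
  ext σ τ
  rw [numOp, diagonal_mul, mul_diagonal]
  by_cases h : size σ = size τ
  · rw [h]; ring
  · rw [energy_entry_size hG σ τ h]; ring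

open scoped Matrix.Norms.Operator in
theorem exp_expo (hG : ∀ x y, G x y → x ≠ y) (t μ : ℝ) :
    NormedSpace.exp (-expo n G t μ) =
      (heat n G t * diagonal fun σ => Real.exp (-μ) ^ size σ).map Complex.ofRealHom := by
  have e : -expo n G t μ = ((-t) • energy n G + diagonal fun σ : Cfg n V =>
      -μ * (size σ : ℝ)).map Complex.ofRealHom := by
    ext σ τ
    simp [expo, numOp, Matrix.diagonal_apply]
    split_ifs <;> push_cast <;> ring
  rw [e, exp_map_ofReal]
  congr 1
  rw [Matrix.exp_add_of_commute, Matrix.exp_diagonal, heat]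
  · congr 2
    funext σ
    rw [Pi.coe_exp, ← Real.exp_eq_exp_ℝ, ← Real.exp_nat_mul]
    ring_nf
  · have hd : (diagonal fun σ : Cfg n V => -μ * (size σ : ℝ)) = (-μ) • numOp n V := by
      rw [numOp, ← diagonal_smul]; rfl
    rw [hd]
    exact (((commute_numOp_energy hG).symm).smul_left _).smul_right _

theorem partFn_expo (hG : ∀ x y, G x y → x ≠ y) (t μ : ℝ) :
    partFn (expo n G t μ) = zPart n G t (Real.exp (-μ)) := by
  rw [partFn, exp_expo hG, zPart, trace, Complex.re_sum]
  refine Finset.sum_congr rfl fun σ _ => ?_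
  simp only [diag_apply, Matrix.map_apply, mul_diagonal, Complex.ofRealHom_eq_coe,
    Complex.ofReal_re]
  ring

theorem qf_map (X : ROp n V) (v : Cfg n V → ℂ) :
    qf (X.map Complex.ofRealHom) v =
      form X (fun σ => (v σ).re) + form X (fun σ => (v σ).im) := by
  rw [qf_eq_sum]
  simp only [form, dotProduct, mulVec, Finset.mul_sum, ← Finset.sum_add_distrib]
  refine Finset.sum_congr rfl fun σ _ => Finset.sum_congr rfl fun τ _ => ?_
  simp [Complex.mul_re, Complex.mul_im]
  ring

theorem zPart_mono {G' : V → V → Prop} [DecidableRel G'] (hG : ∀ x y, G x y → x ≠ y)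
    (hsub : ∀ x y, G' x y → G x y) {t z : ℝ} (ht : 0 ≤ t) (hz : 0 < z) :
    zPart n G t z ≤ zPart n G' t z := by
  have hG' : ∀ x y, G' x y → x ≠ y := fun x y h => hG x y (hsub x y h)
  set μ : ℝ := -Real.log z with hμ
  have hexp : Real.exp (-μ) = z := by rw [hμ, neg_neg, Real.exp_log hz]
  have h1 := partFn_expo (n := n) hG t μ
  have h2 := partFn_expo (n := n) hG' t μ
  rw [hexp] at h1 h2
  have hK := expo_isHermitian (n := n) hG t μ
  have hK' := expo_isHermitian (n := n) hG' t μ
  have hpb := peierls_bogoliubov hK hK'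
  have hle : avg (expo n G t μ) (expo n G' t μ - expo n G t μ) ≤ 0 := by
    refine avg_le_of_qf hK fun v => ?_
    have e : expo n G' t μ - expo n G t μ =
        (t • (energy n G' - energy n G)).map Complex.ofRealHom := by
      ext σ τ
      simp [expo]
      ring
    rw [e, qf_map, zero_mul, form_smul, form_smul]
    have hnn : ∀ w : Cfg n V → ℝ, form (energy n G' - energy n G) w ≤ 0 := by
      intro w
      rw [form_sub, sub_nonpos, energy, energy, form_smul, form_smul]
      refine mul_le_mul_of_nonneg_left ?_ (by norm_num)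
      rw [form_sum, form_sum]
      refine Finset.sum_le_sum fun x _ => ?_
      rw [form_sum, form_sum]
      refine Finset.sum_le_sum fun y _ => ?_
      by_cases h : G' x y
      · rw [if_pos h, if_pos (hsub x y h)]
      · rw [if_neg h]
        split_ifs with h'
        · rw [form_bond (hG x y h')]
          have := pairSq_nonneg w x y
          simp [form]
          linarith
        · exact le_rfl
    have := mul_nonpos_of_nonneg_of_nonpos ht (hnn fun σ => (v σ).re)
    have := mul_nonpos_of_nonneg_of_nonpos ht (hnn fun σ => (v σ).im)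
    linarith
  have hp1 := partFn_pos hK
  have hp2 := partFn_pos hK'
  rw [h1] at hp1 hpb
  rw [h2] at hp2 hpb
  exact (Real.log_le_log_iff hp1 hp2).1 (by linarith)

section relabel

variable {W : Type*} [Fintype W] [DecidableEq W]

open scoped Matrix.Norms.Operator in
theorem zPart_congr (e : V ≃ W) {G' : W → W → Prop} [DecidableRel G']
    (h : ∀ x y, G x y ↔ G' (e x) (e y)) (t z : ℝ) : zPart n G t z = zPart n G' t z := by
  set c : Cfg n W ≃ Cfg n V :=
    (Equiv.arrowCongr e (Equiv.refl (Fin (n + 1)))).symm with hc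
  have happ : ∀ σ x, c σ x = σ (e x) := fun σ x => by simp [hc, Equiv.arrowCongr]
  have hloc : ∀ (x : V) (M : Mat1 n), (loc x M).submatrix c c = loc (e x) M := by
    intro x M
    ext σ τ
    simp only [submatrix_apply, loc_apply, happ]
    refine if_congr ⟨fun hh w hw => ?_, fun hh z hz => hh _ fun e1 => hz (e.injective e1)⟩ rfl rfl
    have := hh (e.symm w) fun e1 => hw (by rw [← e1, Equiv.apply_symm_apply])
    rwa [Equiv.apply_symm_apply] at this
  have hb : ∀ x y : V, (bond n x y).submatrix c c = bond n (e x) (e y) := by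
    intro x y
    simp only [bond, submatrix_sub, submatrix_add, submatrix_smul, Pi.sub_apply, Pi.add_apply,
      Pi.smul_apply, submatrix_one_equiv, ← submatrix_mul_equiv _ _ _ c, hloc]
  have hE : (energy n G).submatrix c c = energy n G' := by
    ext σ τ
    simp only [submatrix_apply, energy, Matrix.smul_apply, Matrix.sum_apply, smul_eq_mul]
    congr 1
    refine Fintype.sum_equiv e _ _ fun x => Fintype.sum_equiv e _ _ fun y => ?_
    by_cases hxy : G x y
    · rw [if_pos hxy, if_pos ((h x y).1 hxy), ← hb]; rfl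
    · rw [if_neg hxy, if_neg fun h' => hxy ((h x y).2 h')]; rfl
  set f : ROp n V ≃ₐ[ℝ] ROp n W := Matrix.reindexAlgEquiv ℝ ℝ c.symm with hf
  have hfc : Continuous f := f.toLinearMap.continuous_of_finiteDimensional
  have hfe : ∀ X : ROp n V, f X = X.submatrix c c := fun X => rfl
  have hexp : (heat n G t).submatrix c c = heat n G' t := by
    have h1 := NormedSpace.map_exp f hfc ((-t) • energy n G)
    rw [map_smul, hfe (energy n G), hE] at h1
    exact h1
  rw [zPart, zPart, ← Equiv.sum_comp c]
  refine Finset.sum_congr rfl fun σ _ => ?_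
  have hs : size (c σ) = size σ := by
    simp only [size, happ]
    exact Equiv.sum_comp e fun w => ((σ w : Fin (n + 1)) : ℕ)
  rw [hs, ← hexp]
  rfl

/-- The disjoint union of two relations. -/
def sumRel (G : V → V → Prop) (G' : W → W → Prop) : V ⊕ W → V ⊕ W → Prop
  | .inl x, .inl y => G x y
  | .inr x, .inr y => G' x y
  | _, _ => False

instance (G' : W → W → Prop) [DecidableRel G'] : DecidableRel (sumRel G G') := fun a b =>
  match a, b with
  | .inl x, .inl y => inferInstanceAs (Decidable (G x y))
  | .inr x, .inr y => inferInstanceAs (Decidable (G' x y))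
  | .inl _, .inr _ => isFalse not_false
  | .inr _, .inl _ => isFalse not_false

open scoped Matrix.Norms.Operator in
theorem zPart_sum {G' : W → W → Prop} [DecidableRel G'] (t z : ℝ) :
    zPart n (sumRel G G') t z = zPart n G t z * zPart n G' t z := by
  set c : Cfg n V × Cfg n W ≃ Cfg n (V ⊕ W) :=
    (Equiv.sumArrowEquivProdArrow V W (Fin (n + 1))).symm with hc
  have hl : ∀ (p : Cfg n V × Cfg n W) x, c p (Sum.inl x) = p.1 x := fun p x => rfl
  have hr : ∀ (p : Cfg n V × Cfg n W) y, c p (Sum.inr y) = p.2 y := fun p y => rfl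
  have hlocl : ∀ (x : V) (M : Mat1 n),
      (loc (Sum.inl x : V ⊕ W) M).submatrix c c = loc x M ⊗ₖ (1 : ROp n W) := by
    intro x M
    ext p q
    simp only [submatrix_apply, loc_apply, kroneckerMap_apply, hl, one_apply]
    by_cases h2 : p.2 = q.2
    · rw [if_pos h2, mul_one]
      refine if_congr ⟨fun hh w hw => ?_, fun hh u hu => ?_⟩ rfl rfl
      · simpa [hl] using hh (Sum.inl w) (by simp [hw])
      · cases u with
        | inl w => simpa [hl] using hh w (fun e1 => hu (by rw [e1]))
        | inr w => simp [hr, h2]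
    · rw [if_neg h2, mul_zero, if_neg]
      intro hh
      exact h2 (funext fun w => by simpa [hr] using hh (Sum.inr w) (by simp))
  have hlocr : ∀ (y : W) (M : Mat1 n),
      (loc (Sum.inr y : V ⊕ W) M).submatrix c c = (1 : ROp n V) ⊗ₖ loc y M := by
    intro y M
    ext p q
    simp only [submatrix_apply, loc_apply, kroneckerMap_apply, hr, one_apply]
    by_cases h1 : p.1 = q.1
    · rw [if_pos h1, one_mul]
      refine if_congr ⟨fun hh w hw => ?_, fun hh u hu => ?_⟩ rfl rfl
      · simpa [hr] using hh (Sum.inr w) (by simp [hw])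
      · cases u with
        | inl w => simp [hl, h1]
        | inr w => simpa [hr] using hh w (fun e1 => hu (by rw [e1]))
    · rw [if_neg h1, zero_mul, if_neg]
      intro hh
      exact h1 (funext fun w => by simpa [hl] using hh (Sum.inl w) (by simp))
  let fL : ROp n V →+* Matrix (Cfg n V × Cfg n W) (Cfg n V × Cfg n W) ℝ :=
    { toFun := fun X => X ⊗ₖ (1 : ROp n W)
      map_one' := one_kronecker_one
      map_zero' := zero_kronecker _
      map_add' := fun X Y => add_kronecker X Y _
      map_mul' := fun X Y => by rw [← mul_kronecker_mul, one_mul] }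
  let fR : ROp n W →+* Matrix (Cfg n V × Cfg n W) (Cfg n V × Cfg n W) ℝ :=
    { toFun := fun X => (1 : ROp n V) ⊗ₖ X
      map_one' := one_kronecker_one
      map_zero' := kronecker_zero _
      map_add' := fun X Y => kronecker_add _ X Y
      map_mul' := fun X Y => by rw [← mul_kronecker_mul, one_mul] }
  have hsL : ∀ (a : ℝ) (X : ROp n V), fL (a • X) = a • fL X := fun a X => smul_kronecker a X _
  have hsR : ∀ (a : ℝ) (X : ROp n W), fR (a • X) = a • fR X := fun a X => kronecker_smul a _ X
  have hl' : ∀ (x : V) (M : Mat1 n),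
      (loc (Sum.inl x : V ⊕ W) M).submatrix c c = fL (loc x M) := hlocl
  have hr' : ∀ (y : W) (M : Mat1 n),
      (loc (Sum.inr y : V ⊕ W) M).submatrix c c = fR (loc y M) := hlocr
  have hbl : ∀ x y : V,
      (bond n (Sum.inl x : V ⊕ W) (Sum.inl y)).submatrix c c = fL (bond n x y) := by
    intro x y
    simp only [bond, submatrix_sub, submatrix_add, submatrix_smul, Pi.sub_apply, Pi.add_apply,
      Pi.smul_apply, submatrix_one_equiv, ← submatrix_mul_equiv _ _ _ c, hl', map_sub, map_add,
      map_mul, map_one, hsL]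
  have hbr : ∀ x y : W,
      (bond n (Sum.inr x : V ⊕ W) (Sum.inr y)).submatrix c c = fR (bond n x y) := by
    intro x y
    simp only [bond, submatrix_sub, submatrix_add, submatrix_smul, Pi.sub_apply, Pi.add_apply,
      Pi.smul_apply, submatrix_one_equiv, ← submatrix_mul_equiv _ _ _ c, hr', map_sub, map_add,
      map_mul, map_one, hsR]
  have hE : (energy n (sumRel G G')).submatrix c c = fL (energy n G) + fR (energy n G') := by
    simp only [energy, hsL, hsR, map_sum, apply_ite fL, apply_ite fR, map_zero, ← smul_add,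
      submatrix_smul, Pi.smul_apply]
    congr 1
    ext p q
    simp only [submatrix_apply, Matrix.sum_apply, Matrix.add_apply, Fintype.sum_sum_type]
    congr 1
    · refine Finset.sum_congr rfl fun x _ => ?_
      rw [Finset.sum_eq_zero (f := fun w : W => (if sumRel G G' (Sum.inl x) (Sum.inr w) then
          bond n (Sum.inl x : V ⊕ W) (Sum.inr w) else 0) (c p) (c q))
        (fun w _ => by rw [if_neg (show ¬ sumRel G G' (Sum.inl x) (Sum.inr w) from not_false)]; rfl),
        add_zero]
      refine Finset.sum_congr rfl fun y _ => ?_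
      by_cases hxy : G x y
      · rw [if_pos (show sumRel G G' (Sum.inl x) (Sum.inl y) from hxy), if_pos hxy, ← hbl]; rfl
      · rw [if_neg (show ¬ sumRel G G' (Sum.inl x) (Sum.inl y) from hxy), if_neg hxy]; rfl
    · refine Finset.sum_congr rfl fun x _ => ?_
      rw [Finset.sum_eq_zero (f := fun w : V => (if sumRel G G' (Sum.inr x) (Sum.inl w) then
          bond n (Sum.inr x : V ⊕ W) (Sum.inl w) else 0) (c p) (c q))
        (fun w _ => by rw [if_neg (show ¬ sumRel G G' (Sum.inr x) (Sum.inl w) from not_false)]; rfl),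
        zero_add]
      refine Finset.sum_congr rfl fun y _ => ?_
      by_cases hxy : G' x y
      · rw [if_pos (show sumRel G G' (Sum.inr x) (Sum.inr y) from hxy), if_pos hxy, ← hbr]; rfl
      · rw [if_neg (show ¬ sumRel G G' (Sum.inr x) (Sum.inr y) from hxy), if_neg hxy]; rfl
  have hcomm : Commute (fL ((-t) • energy n G)) (fR ((-t) • energy n G')) := by
    show fL _ * fR _ = fR _ * fL _
    simp only [fL, fR, RingHom.coe_mk, MonoidHom.coe_mk, OneHom.coe_mk, ← mul_kronecker_mul,
      one_mul, mul_one]
  have hfLc : Continuous fL := by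
    refine continuous_matrix fun i j => ?_
    exact (continuous_id.matrix_elem i.1 j.1).mul continuous_const
  have hfRc : Continuous fR := by
    refine continuous_matrix fun i j => ?_
    exact continuous_const.mul (continuous_id.matrix_elem i.2 j.2)
  set f : ROp n (V ⊕ W) ≃ₐ[ℝ] Matrix (Cfg n V × Cfg n W) (Cfg n V × Cfg n W) ℝ :=
    Matrix.reindexAlgEquiv ℝ ℝ c.symm with hf
  have hfc : Continuous f := f.toLinearMap.continuous_of_finiteDimensional
  have hexp : (heat n (sumRel G G') t).submatrix c c = heat n G t ⊗ₖ heat n G' t := by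
    have h1 := NormedSpace.map_exp f hfc ((-t) • energy n (sumRel G G'))
    rw [map_smul, show f (energy n (sumRel G G')) = (energy n (sumRel G G')).submatrix c c from rfl,
      hE, smul_add, ← hsL, ← hsR, NormedSpace.exp_add_of_commute hcomm,
      ← NormedSpace.map_exp fL hfLc, ← NormedSpace.map_exp fR hfRc] at h1
    refine Eq.trans (Eq.trans (by rfl) h1) ?_
    simp only [fL, fR, RingHom.coe_mk, MonoidHom.coe_mk, OneHom.coe_mk, ← mul_kronecker_mul,
      one_mul, mul_one, heat]
    rfl
  rw [zPart, ← Equiv.sum_comp c, zPart, zPart, Finset.sum_mul_sum, Fintype.sum_prod_type]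
  refine Finset.sum_congr rfl fun σ _ => Finset.sum_congr rfl fun τ _ => ?_
  have hs : size (c (σ, τ)) = size σ + size τ := by simp [size, Fintype.sum_sum_type, hl, hr]
  have hh := congrFun (congrFun hexp (σ, τ)) (σ, τ)
  simp only [submatrix_apply, kroneckerMap_apply] at hh
  rw [hs, hh, pow_add]
  ring

end relabel

theorem zPart_empty (hE : ∀ x y, ¬ G x y) {t z : ℝ} (hz : 0 ≤ z) (hz1 : z < 1) :
    zPart n G t z ≤ (1 / (1 - z)) ^ Fintype.card V := by
  have hheat : heat n G t = 1 := by
    have h0 : energy n G = 0 := by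
      rw [energy, Finset.sum_eq_zero fun x _ => Finset.sum_eq_zero fun y _ => if_neg (hE x y),
        smul_zero]
    rw [heat, h0, smul_zero, NormedSpace.exp_zero]
  have e : zPart n G t z = ∏ _x : V, ∑ a : Fin (n + 1), z ^ (a : ℕ) := by
    rw [Fintype.prod_sum, zPart]
    exact Finset.sum_congr rfl fun σ _ => by
      rw [hheat, one_apply_eq, mul_one, size, Finset.prod_pow_eq_pow_sum]
  rw [e, Finset.prod_const, Finset.card_univ]
  refine pow_le_pow_left₀ (Finset.sum_nonneg fun a _ => pow_nonneg hz _) ?_ _
  rw [Fin.sum_univ_eq_sum_range (fun a => z ^ a), one_div]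
  exact le_trans ((summable_geometric_of_lt_one hz hz1).sum_le_tsum _ fun j _ => pow_nonneg hz j)
    (le_of_eq (tsum_geometric_of_lt_one hz hz1))

/-- Disjoint copies of a graph. -/
def blockRel {ι : Type*} (G : V → V → Prop) : ι × V → ι × V → Prop :=
  fun a b => a.1 = b.1 ∧ G a.2 b.2

instance {ι : Type*} [DecidableEq ι] : DecidableRel (@blockRel V ι G) :=
  fun a b => inferInstanceAs (Decidable (a.1 = b.1 ∧ G a.2 b.2))

theorem zPart_blocks (t z : ℝ) (k : ℕ) :
    zPart n (@blockRel V (Fin k) G) t z = zPart n G t z ^ k := by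
  induction k with
  | zero =>
      rw [pow_zero, zPart, Fintype.sum_eq_single (fun _ => 0)]
      · have h0 : energy n (@blockRel V (Fin 0) G) = 0 := by
          simp [energy]
        rw [heat, h0, smul_zero, NormedSpace.exp_zero, one_apply_eq, mul_one]
        simp [size]
      · intro σ hσ; exact absurd (funext fun x => x.1.elim0) hσ
  | succ k ih =>
      let e : Fin (k + 1) × V ≃ V ⊕ (Fin k × V) :=
        { toFun := fun p =>
            Fin.cases (motive := fun _ => V ⊕ (Fin k × V)) (Sum.inl p.2)
              (fun i => Sum.inr (i, p.2)) p.1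
          invFun := fun s => Sum.elim (fun v => (0, v)) (fun q => (q.1.succ, q.2)) s
          left_inv := fun p => by
            obtain ⟨a, v⟩ := p
            induction a using Fin.cases <;> simp
          right_inv := fun s => by cases s <;> simp }
      have he : ∀ a b, blockRel G a b ↔ sumRel G (@blockRel V (Fin k) G) (e a) (e b) := by
        rintro ⟨a, v⟩ ⟨b, w⟩
        induction a using Fin.cases <;> induction b using Fin.cases <;>
          simp [e, blockRel, sumRel, Fin.succ_ne_zero, Ne.symm (Fin.succ_ne_zero _)]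
      rw [zPart_congr e he, zPart_sum, ih, pow_succ']

theorem zPart_cube_tiling {L ℓ : ℕ} {t z : ℝ} (ht : 0 ≤ t) (hz : 0 < z) (hz1 : z < 1) :
    zPart n (@cAdj L) t z ≤
      zPart n (@cAdj ℓ) t z ^ ((L / ℓ) ^ 3) *
        (1 / (1 - z)) ^ (L ^ 3 - (L / ℓ * ℓ) ^ 3) := by
  set q := L / ℓ with hq
  have hqL : q * ℓ ≤ L := Nat.div_mul_le_self L ℓ
  set P : Cube L → Prop := fun x => ∀ d, (x d : ℕ) < q * ℓ with hP
  let e1 : {x // P x} ≃ Cube (q * ℓ) :=
    { toFun := fun x d => ⟨(x.1 d : ℕ), x.2 d⟩
      invFun := fun y => ⟨fun d => ⟨(y d : ℕ), lt_of_lt_of_le (y d).isLt hqL⟩, fun d => (y d).isLt⟩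
      left_inv := fun x => rfl
      right_inv := fun y => rfl }
  let e2 : Cube (q * ℓ) ≃ (Fin 3 → Fin q) × Cube ℓ :=
    (Equiv.arrowCongr (Equiv.refl (Fin 3)) finProdFinEquiv.symm).trans
      (Equiv.arrowProdEquivProdArrow (Fin 3) (fun _ => Fin q) (fun _ => Fin ℓ))
  have hcard : Fintype.card (Fin 3 → Fin q) = q ^ 3 := by simp
  let e3 : (Fin 3 → Fin q) × Cube ℓ ≃ Fin (q ^ 3) × Cube ℓ :=
    Equiv.prodCongr (Fintype.equivFinOfCardEq hcard) (Equiv.refl _)
  let E : Cube L ≃ (Fin (q ^ 3) × Cube ℓ) ⊕ {x // ¬ P x} :=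
    (Equiv.sumCompl P).symm.trans (Equiv.sumCongr ((e1.trans e2).trans e3) (Equiv.refl _))
  let G' : Cube L → Cube L → Prop := fun x y =>
    sumRel (@blockRel _ (Fin (q ^ 3)) (@cAdj ℓ)) (fun _ _ : {x // ¬ P x} => False) (E x) (E y)
  have hsub : ∀ x y, G' x y → cAdj x y := by
    intro x y h
    by_cases hx : P x
    · by_cases hy : P y
      · simp only [G', E, Equiv.trans_apply, Equiv.sumCongr_apply,
          Equiv.sumCompl_symm_apply_of_pos hx, Equiv.sumCompl_symm_apply_of_pos hy, Sum.map_inl,
          sumRel, blockRel, e3, Equiv.prodCongr_apply, Prod.map_fst, Prod.map_snd,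
          EmbeddingLike.apply_eq_iff_eq, Equiv.refl_apply] at h
        obtain ⟨h1, h2⟩ := h
        simp only [cAdj] at h2 ⊢
        rw [← h2]
        refine Finset.sum_congr rfl fun d => ?_
        intro _
        have hd := congrFun h1 d
        simp [e1, e2, Equiv.arrowCongr, Equiv.arrowProdEquivProdArrow, finProdFinEquiv,
          Fin.ext_iff, Fin.divNat] at hd
        simp [e1, e2, Equiv.arrowCongr, Equiv.arrowProdEquivProdArrow, finProdFinEquiv, Fin.modNat]
        have hx' := Nat.div_add_mod (x d : ℕ) ℓ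
        have hy' := Nat.div_add_mod (y d : ℕ) ℓ
        rw [← hd] at hy'
        congr 1
        omega
      · simp [G', E, Equiv.sumCompl_symm_apply_of_pos hx, Equiv.sumCompl_symm_apply_of_neg hy,
          sumRel] at h
    · by_cases hy : P y
      · simp [G', E, Equiv.sumCompl_symm_apply_of_neg hx, Equiv.sumCompl_symm_apply_of_pos hy,
          sumRel] at h
      · simp [G', E, Equiv.sumCompl_symm_apply_of_neg hx, Equiv.sumCompl_symm_apply_of_neg hy,
          sumRel] at h
  have : DecidableRel G' := fun x y =>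
    inferInstanceAs (Decidable (sumRel (@blockRel _ (Fin (q ^ 3)) (@cAdj ℓ))
      (fun _ _ : {x // ¬ P x} => False) (E x) (E y)))
  refine le_trans (zPart_mono cAdj_ne hsub ht hz) ?_
  rw [zPart_congr E (G' := sumRel (@blockRel _ (Fin (q ^ 3)) (@cAdj ℓ))
    (fun _ _ : {x // ¬ P x} => False)) (fun x y => Iff.rfl),
    zPart_sum, zPart_blocks]
  refine mul_le_mul_of_nonneg_left ?_ (pow_nonneg (zPart_nonneg cAdj_ne ht hz.le) _)
  refine le_trans (zPart_empty (fun _ _ h => h) hz.le hz1) (le_of_eq ?_)
  congr 1
  rw [Fintype.card_subtype_compl, Fintype.card_congr e1]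
  simp

end Vale.Agent.P361.Field
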