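import Vale.Agent.P361.Field.Tiling
import Vale.Agent.P361.Field.Bosons

/-!
The sharp upper bound on the pressure at fixed fugacity as the temperature tends to zero.
-/

open Matrix Finset Filter
open scoped Topology

namespace Vale.Agent.P361.Field

variable {n : ℕ}

/-- The free-magnon pressure in units of `β^(-3/2)`. -/
noncomputable def bosePressure (n : ℕ) (z : ℝ) : ℝ :=
  (1 / Real.sqrt (2 * Real.pi * n)) ^ 3 *
    ∑' l : ℕ, z ^ (l + 1) / (((l : ℝ) + 1) * Real.sqrt ((l : ℝ) + 1) ^ 3)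

theorem bosePressure_summable {z : ℝ} (hz : 0 ≤ z) (hz1 : z < 1) :
    Summable fun l : ℕ => z ^ (l + 1) / (((l : ℝ) + 1) * Real.sqrt ((l : ℝ) + 1) ^ 3) := by
  refine Summable.of_nonneg_of_le (fun l => by positivity) (fun l => ?_)
    ((summable_geometric_of_lt_one hz hz1).mul_left z)
  have h1 : (1 : ℝ) ≤ (l : ℝ) + 1 := by simp
  have h2 : 1 ≤ ((l : ℝ) + 1) * Real.sqrt ((l : ℝ) + 1) ^ 3 :=
    one_le_mul_of_one_le_of_one_le h1 (one_le_pow₀ (Real.one_le_sqrt.2 h1))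
  exact le_trans (div_le_self (by positivity) h2) (le_of_eq (by rw [pow_succ']))

theorem sectorTr_zero {ℓ : ℕ} (hn : 1 ≤ n) {t : ℝ} (ht : 0 ≤ t) :
    1 ≤ sectorTr n (@cAdj ℓ) t 0 := by
  have hs : size (fun _ => 0 : Cfg n (Cube ℓ)) = 0 := by simp [size]
  have h := heat_flat (n := n) cAdj_ne cAdj_symm (cubeKer_heatFamily n) 0 ht
    (fun _ => 0 : Cfg n (Cube ℓ))
  have h1 : (heat n (@cAdj ℓ) t *ᵥ flat n (Cube ℓ) 0) (fun _ => 0) =
      heat n (@cAdj ℓ) t (fun _ => 0) (fun _ => 0) := by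
    simp [flat, psi, mulVec, dotProduct, vac]
  rw [h1] at h
  have h2 : flat n (Cube ℓ) 0 (fun _ => 0) = 1 := by simp [flat, psi, vac]
  rw [h2] at h
  have := hn
  rw [← h]
  exact Finset.single_le_sum (f := fun σ => heat n (@cAdj ℓ) t σ σ)
    (fun σ _ => heat_nonneg cAdj_ne ht σ σ) (Finset.mem_filter.2 ⟨Finset.mem_univ _, hs⟩)

theorem one_le_zPart {ℓ : ℕ} (hn : 1 ≤ n) {t z : ℝ} (ht : 0 ≤ t) (hz : 0 ≤ z) :
    1 ≤ zPart n (@cAdj ℓ) t z := by
  rw [zPart_eq_sum]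
  refine le_trans ?_ (Finset.single_le_sum (f := fun m => z ^ m * sectorTr n (@cAdj ℓ) t m)
    (fun m _ => mul_nonneg (pow_nonneg hz m) (sectorTr_nonneg cAdj_ne ht m))
    (Finset.mem_range.2 (Nat.succ_pos _) : 0 ∈ Finset.range _))
  simpa using sectorTr_zero hn ht

theorem zPart_tile_le {ℓ : ℕ} (hn : 1 ≤ n) (hℓ : 0 < ℓ) {t z : ℝ}
    (ht : tileRatio n * (ℓ : ℝ) ^ 2 ≤ n * t) (hz : 0 ≤ z) (hz1 : z < 1) :
    zPart n (@cAdj ℓ) t z ≤ 2 / (1 - z) := by
  rw [zPart_eq_sum]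
  refine le_trans (Finset.sum_le_sum fun m _ =>
    mul_le_mul_of_nonneg_left (sectorTr_tile hn hℓ ht m) (pow_nonneg hz m)) ?_
  rw [← Finset.sum_mul, div_eq_mul_inv, mul_comm]
  refine mul_le_mul_of_nonneg_left ?_ two_pos.le
  exact le_trans ((summable_geometric_of_lt_one hz hz1).sum_le_tsum _ fun j _ => pow_nonneg hz j)
    (le_of_eq (tsum_geometric_of_lt_one hz hz1))

theorem sum_truncate {g : ℕ → ℝ} (hg : ∀ m, 0 ≤ g m) {B r : ℝ} (hB : 0 ≤ B) (hr : 0 ≤ r)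
    (hr1 : r < 1) (hgr : ∀ m, g m ≤ B * r ^ m) (K J : ℕ) :
    ∑ m ∈ Finset.range K, g m ≤ (∑ m ∈ Finset.range J, g m) + B * (r ^ J / (1 - r)) := by
  have htail : 0 ≤ B * (r ^ J / (1 - r)) :=
    mul_nonneg hB (div_nonneg (pow_nonneg hr J) (by linarith))
  rcases le_total K J with h | h
  · refine le_trans ?_ (le_add_of_nonneg_right htail)
    exact Finset.sum_le_sum_of_subset_of_nonneg (Finset.range_mono h) fun m _ _ => hg m
  · rw [← Finset.sum_range_add_sum_Ico _ h]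
    refine add_le_add (le_refl _) ?_
    refine le_trans (Finset.sum_le_sum fun m _ => hgr m) ?_
    rw [← Finset.mul_sum]
    exact mul_le_mul_of_nonneg_left (geom_sum_Ico_le_of_lt_one hr hr1) hB

/-- The box partition function is at most that of free magnons up to a small error. -/
theorem zPart_box_le {ℓ0 M J : ℕ} (hn : 1 ≤ n) (hℓ0 : 0 < ℓ0) (hM : 0 < M) {t z c : ℝ}
    (ht : tileRatio n * (ℓ0 : ℝ) ^ 2 ≤ n * t) (hc : 0 < c)
    (hct : c ≤ n * t / (((M * ℓ0 : ℕ) : ℝ)) ^ 2) (hz : 0 < z) (hz1 : z < 1) :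
    zPart n (@cAdj (M * ℓ0)) t z ≤
      (∏ k : Cube (M * ℓ0), 1 / (1 - z * cubeWt n (M * ℓ0) t k)) +
        ((∑ m ∈ Finset.range (J + 1), (errConst n 6 m * (1 + 2 / (Real.exp c - 1)) ^ (3 * m) * t +
            (n : ℝ) ^ (m - 2) * (m : ℝ) ^ m * (1 + 2 / (Real.exp c - 1)) ^ (3 * m))) /
          ((M * ℓ0 : ℕ) : ℝ) ^ 3 +
        (2 / (1 - Real.sqrt z)) ^ (M ^ 3) * (Real.sqrt z ^ (J + 1) / (1 - Real.sqrt z))) := by
  set ℓ := M * ℓ0 with hℓdef
  have hℓ : 0 < ℓ := Nat.mul_pos hM hℓ0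
  have hℓR : (0 : ℝ) < (ℓ : ℝ) := by exact_mod_cast hℓ
  have hn0 : (0 : ℝ) < n := by exact_mod_cast hn
  have ht0 : 0 < t := by
    have h1 := one_le_tileRatio hn
    have h2 : (0 : ℝ) < (ℓ0 : ℝ) ^ 2 := by positivity
    nlinarith
  set r := Real.sqrt z with hr
  have hr0 : 0 < r := Real.sqrt_pos.2 hz
  have hr1 : r < 1 := by rw [hr, Real.sqrt_lt' one_pos]; simpa using hz1
  set B := (2 / (1 - r)) ^ (M ^ 3) with hB
  have hbox : zPart n (@cAdj ℓ) t r ≤ B := by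
    have h := zPart_cube_tiling (n := n) (L := ℓ) (ℓ := ℓ0) ht0.le hr0 hr1
    rw [hℓdef, Nat.mul_div_cancel M hℓ0, Nat.sub_self, pow_zero, mul_one] at h
    exact le_trans h (pow_le_pow_left₀ (zPart_nonneg cAdj_ne ht0.le hr0.le)
      (zPart_tile_le hn hℓ0 ht hr0.le hr1) _)
  have hcrude : ∀ m, z ^ m * sectorTr n (@cAdj ℓ) t m ≤ B * r ^ m := by
    intro m
    by_cases hm : m ∈ Finset.range (n * Fintype.card (Cube ℓ) + 1)
    · have hzr : z = r * r := (Real.mul_self_sqrt hz.le).symm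
      have h1 : r ^ m * sectorTr n (@cAdj ℓ) t m ≤ B := by
        refine le_trans ?_ hbox
        rw [zPart_eq_sum]
        exact Finset.single_le_sum (f := fun m => r ^ m * sectorTr n (@cAdj ℓ) t m)
          (fun m _ => mul_nonneg (pow_nonneg hr0.le m) (sectorTr_nonneg cAdj_ne ht0.le m)) hm
      rw [hzr, mul_pow, mul_assoc, mul_comm B]
      exact mul_le_mul_of_nonneg_left h1 (pow_nonneg hr0.le m)
    · rw [sectorTr, Finset.sum_eq_zero, mul_zero]
      · exact mul_nonneg (le_trans (zPart_nonneg cAdj_ne ht0.le hr0.le) hbox) (pow_nonneg hr0.le m)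
      · intro σ hσ
        have h1 := size_le σ
        have h2 := (Finset.mem_filter.1 hσ).2
        rw [Finset.mem_range] at hm
        omega
  set P0 : ℝ := 1 + 2 / (Real.exp c - 1) with hP0
  have hP00 : 0 ≤ P0 := by
    have := sub_pos.mpr (Real.one_lt_exp_iff.mpr hc)
    positivity
  set p := supBd ℓ c with hp
  have hp0 : 0 ≤ p := supBd_nonneg ℓ hc
  have hpV : p * (ℓ : ℝ) ^ 3 = P0 ^ 3 := by
    rw [hp, supBd, hP0, ← mul_pow]; congr 1; field_simp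
  have hps : ∀ s ∈ Set.Icc (t / 2) t, ∀ u v, cubeKer n ℓ s u v ≤ p := by
    intro s hs u v
    refine cubeKer_le n hc (by linarith [hs.1]) (le_trans hct ?_) u v
    refine div_le_div_of_nonneg_right ?_ (by positivity)
    nlinarith [mul_le_mul_of_nonneg_left hs.1 hn0.le]
  set lam := cubeWt n ℓ t with hlam
  have hsec : ∀ m : ℕ, z ^ m * sectorTr n (@cAdj ℓ) t m ≤
      z ^ m / (m.factorial : ℝ) *
        (∑ k : Fin m → Cube ℓ, (stabCard k : ℝ) * ∏ i, lam (k i)) +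
      (errConst n 6 m * P0 ^ (3 * m) * t + (n : ℝ) ^ (m - 2) * (m : ℝ) ^ m * P0 ^ (3 * m)) /
        (ℓ : ℝ) ^ 3 := by
    intro m
    have h := sectorTr_le hn cAdj_ne cAdj_symm (cubeKer_heatFamily (ℓ := ℓ) n)
      (D := 6) cAdj_card_le ht0 hp0 hps m
    simp only [cubeKer_eq] at h
    rw [permSum_modes (cubeMode ℓ) lam cubeMode_orth m] at h
    rw [card_cube] at h
    push_cast at h
    have hf : (0 : ℝ) < (m.factorial : ℝ) := by exact_mod_cast m.factorial_pos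
    have hf1 : (1 : ℝ) ≤ (m.factorial : ℝ) := by exact_mod_cast m.factorial_pos
    have hzm : z ^ m ≤ 1 := pow_le_one₀ hz.le hz1.le
    have hE0 : 0 ≤ errConst n 6 m := by unfold errConst; positivity
    set A1 := errConst n 6 m * P0 ^ (3 * m) * t / (ℓ : ℝ) ^ 3 with hA1
    set A2 := (n : ℝ) ^ (m - 2) * (m : ℝ) ^ m * P0 ^ (3 * m) / (ℓ : ℝ) ^ 3 with hA2
    have hA10 : 0 ≤ A1 := by positivity
    have hA20 : 0 ≤ A2 := by positivity
    have e1 : errConst n 6 m * (p ^ m * ((ℓ : ℝ) ^ 3) ^ (m - 1)) * t ≤ A1 := by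
      rcases Nat.eq_zero_or_pos m with hm | hm
      · subst hm; simp [errConst]; exact hA10
      · rw [hA1, pow_mul P0, ← hpV, le_div_iff₀ (by positivity)]
        refine le_of_eq ?_
        rw [mul_pow]
        have : ((ℓ : ℝ) ^ 3) ^ (m - 1) * (ℓ : ℝ) ^ 3 = ((ℓ : ℝ) ^ 3) ^ m := by
          rw [← pow_succ, Nat.sub_add_cancel hm]
        rw [← this]; ring
    have e2 : (if 2 ≤ m then (ℓ : ℝ) ^ 3 * ((n : ℝ) * (ℓ : ℝ) ^ 3) ^ (m - 2) *
        ((m : ℝ) * p) ^ m else 0) ≤ A2 := by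
      split_ifs with hm
      · rw [hA2, pow_mul P0, ← hpV, le_div_iff₀ (by positivity)]
        refine le_of_eq ?_
        rw [mul_pow, mul_pow, mul_pow]
        have : (ℓ : ℝ) ^ 3 * ((ℓ : ℝ) ^ 3) ^ (m - 2) * (ℓ : ℝ) ^ 3 = ((ℓ : ℝ) ^ 3) ^ m := by
          rw [← pow_succ', ← pow_succ, show m - 2 + 1 + 1 = m by omega]
        rw [← this]; ring
      · exact hA20
    set S := ∑ k : Fin m → Cube ℓ, (stabCard k : ℝ) * ∏ i, lam (k i) with hS
    have h2 : sectorTr n (@cAdj ℓ) t m ≤ S / (m.factorial : ℝ) + (A1 + A2) := by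
      have h3 : (m.factorial : ℝ) * sectorTr n (@cAdj ℓ) t m ≤
          S + (m.factorial : ℝ) * (A1 + A2) := by
        refine le_trans h ?_
        have h4 := mul_le_mul_of_nonneg_left e2 hf.le
        have h5 : A1 ≤ (m.factorial : ℝ) * A1 := le_mul_of_one_le_left hA10 hf1
        linarith
      refine le_of_mul_le_mul_left (le_trans h3 (le_of_eq ?_)) hf
      field_simp
    refine le_trans (mul_le_mul_of_nonneg_left h2 (pow_nonneg hz.le m)) ?_
    rw [mul_add, show z ^ m * (S / (m.factorial : ℝ)) = z ^ m / (m.factorial : ℝ) * S by ring]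
    refine add_le_add (le_refl _) ?_
    exact le_trans (mul_le_of_le_one_left (by linarith) hzm) (le_of_eq (add_div _ _ _).symm)
  rw [zPart_eq_sum]
  refine le_trans (sum_truncate (fun m => mul_nonneg (pow_nonneg hz.le m)
    (sectorTr_nonneg cAdj_ne ht0.le m)) (le_trans (zPart_nonneg cAdj_ne ht0.le hr0.le) hbox)
    hr0.le hr1 hcrude _ (J + 1)) ?_
  rw [← add_assoc]
  refine add_le_add ?_ (le_refl _)
  refine le_trans (Finset.sum_le_sum fun m _ => hsec m) ?_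
  rw [Finset.sum_add_distrib, ← Finset.sum_div]
  exact add_le_add (boson_sum_le (cubeWt_nonneg n t) (cubeWt_le_one n ht0.le) hz.le hz1 J)
    (le_refl _)

theorem log_boson_le {ℓ : ℕ} (hn : 1 ≤ n) (hℓ : 0 < ℓ) {t z δ : ℝ} (ht : 0 < t) (hz : 0 ≤ z)
    (hz1 : z < 1) (hδ : 0 < δ) (hδ1 : δ < 1) (R : ℕ) :
    Real.log (∏ k : Cube ℓ, 1 / (1 - z * cubeWt n ℓ t k)) ≤
      ∑ l ∈ Finset.range R, z ^ (l + 1) / ((l : ℝ) + 1) *
          (1 + (ℓ : ℝ) / Real.sqrt (2 * Real.pi * (((l : ℝ) + 1) * t) * n * (1 - δ)) +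
            ℓ * Real.exp (-(((l : ℝ) + 1) * t * (2 * n * δ ^ 2 / Real.pi ^ 2)))) ^ 3 +
        z ^ (R + 1) / (1 - z) * (1 + (ℓ : ℝ) / Real.sqrt (2 * Real.pi * t * n * (1 - δ)) +
            ℓ * Real.exp (-(t * (2 * n * δ ^ 2 / Real.pi ^ 2)))) ^ 3 := by
  refine le_trans (log_prod_le (cubeWt_nonneg n t) (cubeWt_le_one n ht.le) hz hz1 R) ?_
  refine add_le_add (Finset.sum_le_sum fun l _ => ?_) ?_
  · refine mul_le_mul_of_nonneg_left ?_ (by positivity)
    rw [sum_cubeWt_pow, Nat.cast_add, Nat.cast_one]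
    exact pow_le_pow_left₀ (lineTr_nonneg _ _ _) (lineTr_le n hn hℓ hδ hδ1 (by positivity)) 3
  · refine mul_le_mul_of_nonneg_left ?_ (div_nonneg (pow_nonneg hz _) (by linarith))
    have h := sum_cubeWt_pow (ℓ := ℓ) n t 1
    simp only [pow_one, Nat.cast_one, one_mul] at h
    rw [h]
    exact pow_le_pow_left₀ (lineTr_nonneg _ _ _) (lineTr_le n hn hℓ hδ hδ1 ht) 3

end Vale.Agent.P361.Field
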